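import Vale.Agent.P224.UE.LawM

/-!
The Gaussian functionals of pairs of points of the cone: definitions.

A pair of points of the cone over a minimal hypersurface is given by a pair of points `x, y` of the
hypersurface and a pair `z = (ρ, σ)` of positive radii (in the scaled variables). The cone data are
`P = σ p`, `Q = ρ t`, `c`, `n1`, `n2`, `Z = ρ x1 - T σ x2`, `Xi = √(1 - T²) σ x2`, `E`.
-/

namespace Vale.Agent.P224.UG

open MeasureTheory Set Filter Function Vale.Agent.P224.UE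
open Vale.Agent.P224.SM2 hiding ker
open scoped Topology RealInnerProductSpace ENNReal

/-- the Gaussian weight of two radii -/
noncomputable def gw (m : ℕ) (T s : ℝ) (z : ℝ × ℝ) : ℝ :=
  (z.1 * z.2) ^ m * Real.exp (-(z.1 ^ 2 + z.2 ^ 2) / 2 + T * (z.1 * z.2) * s)

/-- the measure on pairs of radii -/
noncomputable def rm : Measure (ℝ × ℝ) :=
  (volume.restrict (Ioi (0 : ℝ))).prod (volume.restrict (Ioi (0 : ℝ)))

abbrev R8 := Fin 8 → ℝ

/-- the cone data `P, Q, c, n1, n2, Z, Xi, E` of a pair -/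
noncomputable def cd8 (T : ℝ) (z : ℝ × ℝ) (d : R9) : R8 :=
  ![z.2 * d 2, z.1 * d 1, d 3, d 4, d 5, z.1 * d 6 - T * (z.2 * d 7), kp T * (z.2 * d 7), d 8]

/-- exchange of the two points of the cone -/
noncomputable def sw8 (T : ℝ) (v : R8) : R8 :=
  ![v 1, v 0, v 2, v 4, v 3, kp T * v 6 - T * v 5, kp T * v 5 + T * v 6, v 7]

/-- A term: one of the six families with the function `Q ^ a Z ^ b` and the weight
`n2 ^ k Xi ^ d E ^ l`. -/
structure GTerm where
  fam : Fin 6
  a : ℕ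
  b : ℕ
  k : ℕ
  d : ℕ
  l : ℕ
  deriving DecidableEq

namespace GTerm

/-- the function -/
def g (t : GTerm) (v : R8) : ℝ := v 1 ^ t.a * v 5 ^ t.b

/-- its derivative with respect to `Q` -/
def gQ (t : GTerm) (v : R8) : ℝ := t.a * v 1 ^ (t.a - 1) * v 5 ^ t.b

/-- its derivative with respect to `Z` -/
def gZ (t : GTerm) (v : R8) : ℝ := v 1 ^ t.a * (t.b * v 5 ^ (t.b - 1))

/-- the weight -/
def w (t : GTerm) (v : R8) : ℝ := v 4 ^ t.k * v 6 ^ t.d * v 7 ^ t.l

/-- the integrand of the functional -/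
def f (t : GTerm) (v : R8) : ℝ :=
  match t.fam with
  | 0 => t.g v * t.w v
  | 1 => 0
  | 2 => 0
  | 3 => v 2 * t.g v * t.w v
  | 4 => v 3 * t.g v * t.w v
  | 5 => 0

/-- the integrand of the derivative of the functional with the coefficient `φ` -/
noncomputable def D (t : GTerm) (T φ φ' : ℝ) (v : R8) : ℝ :=
  match t.fam with
  | 0 => (φ' * t.g v - φ / (1 - T ^ 2) * (v 0 * (T * v 0 * t.g v + v 2 * t.gQ v + v 3 * t.gZ v)))
      * t.w v
  | 1 => φ * (-(v 1 + T * (v 0 * v 2)) * t.g v + (1 - v 2 ^ 2) * t.gQ v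
      + (v 4 - v 2 * v 3) * t.gZ v) * t.w v
  | 2 => φ * (-(v 5 + T * (v 0 * v 3)) * t.g v + (v 4 - v 2 * v 3) * t.gQ v
      + (v 7 - v 3 ^ 2) * t.gZ v) * t.w v
  | 3 => (φ' * (v 2 * t.g v) + φ / (1 - T ^ 2) * (v 0 * (v 1 * t.g v - t.gQ v - v 4 * t.gZ v)))
      * t.w v
  | 4 => (φ' * (v 3 * t.g v) + φ / (1 - T ^ 2) * (v 0 * (v 5 * t.g v - v 4 * t.gQ v
      - v 7 * t.gZ v))) * t.w v
  | 5 => φ * (v 2 * (-(v 5 * t.g v) + v 4 * t.gQ v + v 7 * t.gZ v)
      - v 3 * (-(v 1 * t.g v) + t.gQ v + v 4 * t.gZ v)) * t.w v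

/-- terms of degree zero -/
def deg0 (t : GTerm) : Bool := decide (t.a = 0) && decide (t.b = 0) && decide (t.d = 0)

end GTerm

/-- certificates: terms with coefficient functions and their derivatives -/
abbrev Cert := List (GTerm × (ℝ → ℝ) × (ℝ → ℝ))

/-- the integrand of the functional of a certificate -/
noncomputable def fsum (l : Cert) (T : ℝ) (v : R8) : ℝ :=
  (l.map fun t => t.2.1 T * t.1.f v).sum

/-- the integrand of the derivative of the functional of a certificate -/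
noncomputable def Dsum (l : Cert) (T : ℝ) (v : R8) : ℝ :=
  (l.map fun t => t.1.D T (t.2.1 T) (t.2.2 T) v).sum

section

variable {X : Type*} [MeasurableSpace X] {E : Type*} [NormedAddCommGroup E]
  [InnerProductSpace ℝ E]

/-- the Gaussian functional -/
noncomputable def EE (μ : Measure X) (p n : X → E) (e : E) (m : ℕ) (T : ℝ) (h : R8 → ℝ) : ℝ :=
  kp T ^ (m + 1) * ∫ y : (X × X) × (ℝ × ℝ), gw m T (dat p n e y.1 0) y.2
    * h (cd8 T y.2 (dat p n e y.1)) ∂((μ.prod μ).prod rm)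

end

/-- the radial moment -/
noncomputable def im (m : ℕ) : ℝ := ∫ ρ in Ioi (0 : ℝ), ρ ^ m * Real.exp (-ρ ^ 2 / 2)

/-- the second conformal kernel -/
noncomputable def cw (m : ℕ) (τ s : ℝ) : ℝ := kp τ ^ (m + 2) * SM2.ker τ (m + 1) s

end Vale.Agent.P224.UG
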