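import Vale.Agent.P224.UG.Rad
import Vale.Agent.P224.UE.RowsE

/-!
The Gaussian cone over a closed minimal hypersurface of the sphere.
-/

namespace Vale.Agent.P224.UG

open Matrix MeasureTheory Module Function Set Filter Vale.Agent.P224 Vale.Agent.P224.FV
open Vale.Agent.P224.SM2 hiding ker
open Vale.Agent.P224.UE
open scoped RealInnerProductSpace Topology ContDiff Manifold

set_option linter.unusedSectionVars false

section

variable {W : Type*} [NormedAddCommGroup W] [InnerProductSpace ℝ W]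

lemma tf_smul (a b e : W) (i j : ℕ) (r : ℝ) (x : W) :
    tf a b e i j (r • x) = Real.exp (r * ⟪x, a⟫) * ((r * ⟪x, b⟫) ^ i * (r * ⟪x, e⟫) ^ j) := by
  simp only [tf, real_inner_smul_left]

lemma tD_smul (a b e : W) (i j : ℕ) (w : W) (r : ℝ) (x : W) :
    tD a b e i j w (r • x) = Real.exp (r * ⟪x, a⟫) * (⟪w, a⟫ * ((r * ⟪x, b⟫) ^ i * (r * ⟪x, e⟫) ^ j)
    + ⟪w, b⟫ * (i * (r * ⟪x, b⟫) ^ (i - 1) * (r * ⟪x, e⟫) ^ j)
    + ⟪w, e⟫ * ((r * ⟪x, b⟫) ^ i * (j * (r * ⟪x, e⟫) ^ (j - 1)))) := by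
  simp only [tD, real_inner_smul_left]

/-- the radial derivative of the test functions -/
lemma hasDerivAt_tf (a b e : W) (i j : ℕ) (x : W) (r : ℝ) :
    HasDerivAt (fun r => tf a b e i j (r • x)) (tD a b e i j x (r • x)) r := by
  simp only [tf_smul, tD_smul]
  have h0 : ∀ c : ℝ, HasDerivAt (fun r : ℝ => r * c) c r := fun c => by
    simpa using (hasDerivAt_id r).mul_const c
  have h1 := (h0 ⟪x, a⟫).exp
  have h2 := (h0 ⟪x, b⟫).fun_pow i
  have h3 := (h0 ⟪x, e⟫).fun_pow j
  refine (h1.fun_mul (h2.fun_mul h3)).congr_deriv ?_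
  ring

variable {M : Type*} [TopologicalSpace M] [CompactSpace M]

lemma sr_tf {F : M → W} (hF : Continuous F) (a b e : W) (i j : ℕ) :
    SR (fun q : M × ℝ => tf a b e i j (q.2 • F q.1)) := by
  simp only [tf_smul]
  have hi : ∀ c : W, Continuous (fun x => ⟪F x, c⟫) := fun c => hF.inner continuous_const
  exact (SR.exp (hi a)).mul (((SR.rad.mul (SR.cont (hi b))).pow i).mul
    ((SR.rad.mul (SR.cont (hi e))).pow j))

lemma sr_tD {F G : M → W} (hF : Continuous F) (hG : Continuous G) (a b e : W) (i j : ℕ) :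
    SR (fun q : M × ℝ => tD a b e i j (G q.1) (q.2 • F q.1)) := by
  simp only [tD_smul]
  have hi : ∀ c : W, Continuous (fun x => ⟪F x, c⟫) := fun c => hF.inner continuous_const
  have hg : ∀ c : W, Continuous (fun x => ⟪G x, c⟫) := fun c => hG.inner continuous_const
  have h1 := SR.cont (hg a)
  have h2 := SR.cont (hg b)
  have h3 := SR.cont (hg e)
  have h4 := fun k => (SR.rad.mul (SR.cont (hi b))).pow k
  have h5 := fun k => (SR.rad.mul (SR.cont (hi e))).pow k
  exact (SR.exp (hi a)).mul (((h1.mul ((h4 i).mul (h5 j))).add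
    (h2.mul (((SR.const (i : ℝ)).mul (h4 (i - 1))).mul (h5 j)))).add
    (h3.mul ((h4 i).mul ((SR.const (j : ℝ)).mul (h5 (j - 1))))))

variable [MeasurableSpace M] [BorelSpace M]

/-- The integral of a radial derivative over the cone. -/
lemma integral_radial (μ : Measure M) [IsFiniteMeasure μ] {g : M → ℝ} (hg : Continuous g)
    {f f' : M × ℝ → ℝ} (hf : SR f) (hf' : SR f')
    (hd : ∀ x r, HasDerivAt (fun r => f (x, r)) (f' (x, r)) r) (k : ℕ) :
    ∫ q, (q.2 ^ k * Real.exp (-(q.2 ^ 2 / 2)) * (g q.1 * ((k + 1) * f q))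
      + q.2 ^ (k + 1) * Real.exp (-(q.2 ^ 2 / 2)) * (g q.1 * (f' q - q.2 * f q)))
      ∂(μ.prod (volume.restrict (Ioi (0 : ℝ)))) = 0 := by
  have s1 : SR (fun q : M × ℝ => g q.1 * (((k : ℝ) + 1) * f q)) :=
    (SR.cont hg).mul ((SR.const _).mul hf)
  have s2 : SR (fun q : M × ℝ => g q.1 * (f' q - q.2 * f q)) :=
    (SR.cont hg).mul (hf'.sub (SR.rad.mul hf))
  have i12 : Integrable (fun q : M × ℝ =>
      q.2 ^ k * Real.exp (-(q.2 ^ 2 / 2)) * (g q.1 * ((k + 1) * f q))
      + q.2 ^ (k + 1) * Real.exp (-(q.2 ^ 2 / 2)) * (g q.1 * (f' q - q.2 * f q)))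
      (μ.prod (volume.restrict (Ioi (0 : ℝ)))) :=
    (s1.integrable μ k).add (s2.integrable μ (k + 1))
  rw [integral_prod _ i12]
  have key : ∀ x, ∫ r in Ioi (0 : ℝ), (r ^ k * Real.exp (-(r ^ 2 / 2)) * (g x * ((k + 1) * f (x, r)))
      + r ^ (k + 1) * Real.exp (-(r ^ 2 / 2)) * (g x * (f' (x, r) - r * f (x, r)))) = 0 := by
    intro x
    refine integral_deriv_zero
      (u := fun r => r ^ (k + 1) * Real.exp (-(r ^ 2 / 2)) * (g x * f (x, r))) ?_ ?_ ?_ ?_
    · intro r
      have h1 : HasDerivAt (fun r : ℝ => r ^ (k + 1)) ((k + 1 : ℝ) * r ^ k) r := by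
        have := hasDerivAt_pow (k + 1) r
        simpa using this
      have h2 : HasDerivAt (fun r : ℝ => Real.exp (-(r ^ 2 / 2)))
          (Real.exp (-(r ^ 2 / 2)) * (-r)) r := by
        have h3 : HasDerivAt (fun r : ℝ => -(r ^ 2 / 2)) (-r) r := by
          have := ((hasDerivAt_pow 2 r).div_const 2).fun_neg
          refine this.congr_deriv ?_
          norm_num
        exact h3.exp
      have h3 := ((hd x r).const_mul (g x))
      refine ((h1.fun_mul h2).fun_mul h3).congr_deriv ?_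
      ring
    · simp
    · exact ((SR.cont hg).mul hf).integrableOn x (k + 1)
    · exact (s1.integrableOn x k).add (s2.integrableOn x (k + 1))
  simp only [key, integral_zero]

/-- The integral over the cone of a function with vanishing integral over the slices. -/
lemma integral_slice (μ : Measure M) [IsFiniteMeasure μ] {f : M × ℝ → ℝ} (hf : SR f)
    (hz : ∀ r, ∫ x, f (x, r) ∂μ = 0) (k : ℕ) :
    ∫ q, q.2 ^ k * Real.exp (-(q.2 ^ 2 / 2)) * f q
      ∂(μ.prod (volume.restrict (Ioi (0 : ℝ)))) = 0 := by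
  rw [integral_prod_symm _ (hf.integrable μ k)]
  simp only [integral_const_mul, hz, mul_zero, integral_zero]

end

section

variable {V W M : Type*} [NormedAddCommGroup V] [InnerProductSpace ℝ V] [FiniteDimensional ℝ V]
  [NormedAddCommGroup W] [InnerProductSpace ℝ W] [FiniteDimensional ℝ W]
  [TopologicalSpace M] [ChartedSpace V M]
  [MeasurableSpace V] [BorelSpace V] [MeasurableSpace M] [BorelSpace M]
  [IsManifold 𝓘(ℝ, V) ∞ M] [CompactSpace M] [T2Space M]

/-- the test functions on the hypersurface -/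
lemma smooth_tf {F : M → W} (hF : SphImm V F) (a b e : W) (i j : ℕ) (r : ℝ) :
    ContMDiff 𝓘(ℝ, V) 𝓘(ℝ, ℝ) ∞ (fun x => tf a b e i j (r • F x)) := by
  simp only [tf_smul]
  have h1 := smooth_comp (smooth_inner hF.smooth a) (w := fun u => Real.exp (r * u))
    (fun x => by fun_prop)
  have h2 := smooth_comp (smooth_inner hF.smooth b) (w := fun u => (r * u) ^ i)
    (fun x => by fun_prop)
  have h3 := smooth_comp (smooth_inner hF.smooth e) (w := fun u => (r * u) ^ j)
    (fun x => by fun_prop)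
  exact h1.mul (h2.mul h3)

/-- the tangential derivative of the test functions -/
lemma dl_tf (hW : finrank ℝ W = finrank ℝ V + 2) {F : M → W}
    (hF : SphImm V F) {N : M → W} (hN : ∀ x, IsUnitNormal V F x (N x)) (a b e : W) (i j : ℕ)
    (r : ℝ) (w : W) (x : M) :
    dl V F w (fun x => tf a b e i j (r • F x)) x
      = r * (tD a b e i j w (r • F x) - ⟪F x, w⟫ * tD a b e i j (F x) (r • F x)
        - ⟪N x, w⟫ * tD a b e i j (N x) (r • F x)) := by
  simp only [tf_smul]
  have g1 := smooth_inner hF.smooth a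
  have g2 := smooth_inner hF.smooth b
  have g3 := smooth_inner hF.smooth e
  have h1 := smooth_comp g1 (w := fun u => Real.exp (r * u)) (fun x => by fun_prop)
  have h2 := smooth_comp g2 (w := fun u => (r * u) ^ i) (fun x => by fun_prop)
  have h3 := smooth_comp g3 (w := fun u => (r * u) ^ j) (fun x => by fun_prop)
  have h23 : ContMDiff 𝓘(ℝ, V) 𝓘(ℝ, ℝ) ∞ (fun x => (r * ⟪F x, b⟫) ^ i * (r * ⟪F x, e⟫) ^ j) :=
    h2.mul h3
  have d0 : ∀ u : ℝ, HasDerivAt (fun u : ℝ => r * u) r u := fun u => by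
    simpa using (hasDerivAt_id u).const_mul r
  rw [dl_mul w h1 h23, dl_mul w h2 h3,
    dl_comp (w := fun u => Real.exp (r * u)) w g1 x (d0 _).exp,
    dl_comp (w := fun u => (r * u) ^ i) w g2 x ((d0 _).fun_pow i),
    dl_comp (w := fun u => (r * u) ^ j) w g3 x ((d0 _).fun_pow j),
    dl_FF hW hF hN, dl_FF hW hF hN, dl_FF hW hF hN]
  simp only [tD_smul]
  ring

/-- The cone over a closed minimal hypersurface of the sphere satisfies the Gaussian cone
identities. -/
theorem gc_cone (hW : finrank ℝ W = finrank ℝ V + 2) (hV : 1 ≤ finrank ℝ V) {F : M → W}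
    (hF : SphImm V F) (hmin : ∀ x n, IsUnitNormal V F x n → meanCurv V F x n = 0)
    {N : M → W} (hNs : ContMDiff 𝓘(ℝ, V) 𝓘(ℝ, W) ∞ N) (hN : ∀ x, IsUnitNormal V F x (N x))
    [MeasurableSpace W] [BorelSpace W] :
    GC (gam (finrank ℝ V) (volM V F)) (finrank ℝ V + 1) (cp F) (cn N) := by
  have hfin : IsFiniteMeasure (volM V F) := isFiniteMeasure_volM hF
  have hcF : Continuous F := hF.smooth.continuous
  have hcN : Continuous N := hNs.continuous
  have hi : ∀ c : W, Continuous (fun x => ⟪F x, c⟫) := fun c => hcF.inner continuous_const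
  have hj : ∀ c : W, Continuous (fun x => ⟪N x, c⟫) := fun c => hcN.inner continuous_const
  obtain ⟨k, hk⟩ : ∃ k, finrank ℝ V = k + 1 := ⟨finrank ℝ V - 1, by omega⟩
  have hn : ∀ q : M × ℝ, ‖cp F q‖ ^ 2 = q.2 ^ 2 := fun q => by
    rw [cp, norm_smul, hF.unit, mul_one, Real.norm_eq_abs, sq_abs]
  refine ⟨?_, ?_, fun q => (hN q.1).1, fun q => ?_, fun a ha => ?_, ?_, ?_, ?_⟩
  · exact measurable_snd.smul (hcF.measurable.comp measurable_fst)
  · exact hcN.measurable.comp measurable_fst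
  · rw [cp, cn, real_inner_smul_left, (hN q.1).2.1, mul_zero]
  · simp only [hn]
    exact (integrable_exp_rad ha).comp_snd (volM V F)
  · intro a e j ψ hψ
    rw [integral_gam]
    have h1 := integral_radial (volM V F) (g := fun x => ψ (N x)) (hψ.comp hcN)
      (f := fun q => tf a e e j 0 (q.2 • F q.1)) (f' := fun q => tD a e e j 0 (F q.1) (q.2 • F q.1))
      (sr_tf hcF a e e j 0) (sr_tD hcF hcF a e e j 0) (fun x r => hasDerivAt_tf a e e j 0 (F x) r)
      (finrank ℝ V)
    refine Eq.trans ?_ h1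
    refine integral_congr_ae (Eventually.of_forall fun q => ?_)
    simp only [hn]
    simp only [cp, cn, tf_smul, tD_smul, real_inner_smul_left]
    rcases Nat.eq_zero_or_pos j with rfl | hj
    · push_cast
      ring
    · obtain ⟨l, rfl⟩ : ∃ l, j = l + 1 := ⟨j - 1, by omega⟩
      simp only [Nat.add_sub_cancel]
      push_cast
      ring
  · intro a b e w i j
    rw [integral_gam]
    have s1 : SR (fun q : M × ℝ => (tD a b e i j w (q.2 • F q.1)
        - ⟪F q.1, w⟫ * tD a b e i j (F q.1) (q.2 • F q.1)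
        - ⟪N q.1, w⟫ * tD a b e i j (N q.1) (q.2 • F q.1)) * q.2
        - finrank ℝ V * (⟪F q.1, w⟫ * tf a b e i j (q.2 • F q.1))) :=
      ((((sr_tD hcF continuous_const a b e i j).sub
        ((SR.cont (hi w)).mul (sr_tD hcF hcF a b e i j))).sub
        ((SR.cont (hj w)).mul (sr_tD hcF hcN a b e i j))).mul SR.rad).sub
        ((SR.const _).mul ((SR.cont (hi w)).mul (sr_tf hcF a b e i j)))
    have z1 : ∀ r, ∫ x, ((tD a b e i j w (r • F x)
        - ⟪F x, w⟫ * tD a b e i j (F x) (r • F x)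
        - ⟪N x, w⟫ * tD a b e i j (N x) (r • F x)) * r
        - finrank ℝ V * (⟪F x, w⟫ * tf a b e i j (r • F x))) ∂(volM V F) = 0 := by
      intro r
      have h1 := (row_field hW hF hmin w (smooth_tf hF a b e i j r)).2
      refine Eq.trans ?_ h1
      refine integral_congr_ae (Eventually.of_forall fun x => ?_)
      simp only [dl_tf hW hF hN]
      rw [real_inner_comm w (F x)]
      ring
    have h1 := integral_slice (volM V F) s1 z1 k
    have h2 := integral_radial (volM V F) (g := fun x => ⟪F x, w⟫) (hi w)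
      (sr_tf hcF a b e i j) (sr_tD hcF hcF a b e i j)
      (fun x r => hasDerivAt_tf a b e i j (F x) r) k
    have i2 : Integrable (fun q : M × ℝ => q.2 ^ k * Real.exp (-(q.2 ^ 2 / 2))
        * (⟪F q.1, w⟫ * (((k : ℝ) + 1) * tf a b e i j (q.2 • F q.1)))
        + q.2 ^ (k + 1) * Real.exp (-(q.2 ^ 2 / 2)) * (⟪F q.1, w⟫
        * (tD a b e i j (F q.1) (q.2 • F q.1) - q.2 * tf a b e i j (q.2 • F q.1))))
        ((volM V F).prod (volume.restrict (Ioi (0 : ℝ)))) :=
      (((SR.cont (hi w)).mul ((SR.const _).mul (sr_tf hcF a b e i j))).integrable _ k).add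
      (((SR.cont (hi w)).mul ((sr_tD hcF hcF a b e i j).sub
        (SR.rad.mul (sr_tf hcF a b e i j)))).integrable _ (k + 1))
    have h3 := integral_add (s1.integrable (volM V F) k) i2
    rw [h1, h2, add_zero] at h3
    refine Eq.trans ?_ h3
    refine integral_congr_ae (Eventually.of_forall fun q => ?_)
    simp only [cp, cn, real_inner_smul_left, hk, pow_succ]
    push_cast
    ring
  · intro a b e w z i j
    rw [integral_gam]
    have s1 : SR (fun q : M × ℝ => (⟪N q.1, z⟫ * (tD a b e i j w (q.2 • F q.1)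
        - ⟪F q.1, w⟫ * tD a b e i j (F q.1) (q.2 • F q.1))
        - ⟪N q.1, w⟫ * (tD a b e i j z (q.2 • F q.1)
        - ⟪F q.1, z⟫ * tD a b e i j (F q.1) (q.2 • F q.1))) * q.2
        - finrank ℝ V * ((⟪N q.1, z⟫ * ⟪F q.1, w⟫ - ⟪N q.1, w⟫ * ⟪F q.1, z⟫)
          * tf a b e i j (q.2 • F q.1))) :=
      ((((SR.cont (hj z)).mul ((sr_tD hcF continuous_const a b e i j).sub
        ((SR.cont (hi w)).mul (sr_tD hcF hcF a b e i j)))).sub
        ((SR.cont (hj w)).mul ((sr_tD hcF continuous_const a b e i j).sub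
        ((SR.cont (hi z)).mul (sr_tD hcF hcF a b e i j))))).mul SR.rad).sub
        ((SR.const _).mul ((((SR.cont (hj z)).mul (SR.cont (hi w))).sub
          ((SR.cont (hj w)).mul (SR.cont (hi z)))).mul (sr_tf hcF a b e i j)))
    have z1 : ∀ r, ∫ x, ((⟪N x, z⟫ * (tD a b e i j w (r • F x)
        - ⟪F x, w⟫ * tD a b e i j (F x) (r • F x))
        - ⟪N x, w⟫ * (tD a b e i j z (r • F x)
        - ⟪F x, z⟫ * tD a b e i j (F x) (r • F x))) * r
        - finrank ℝ V * ((⟪N x, z⟫ * ⟪F x, w⟫ - ⟪N x, w⟫ * ⟪F x, z⟫)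
          * tf a b e i j (r • F x))) ∂(volM V F) = 0 := by
      intro r
      have h1 := (row_closed hW hF hmin hNs hN z w (smooth_tf hF a b e i j r)).2
      refine Eq.trans ?_ h1
      refine integral_congr_ae (Eventually.of_forall fun x => ?_)
      simp only [dl_tf hW hF hN]
      ring
    have h1 := integral_slice (volM V F) s1 z1 k
    have hg : Continuous (fun x => ⟪N x, z⟫ * ⟪F x, w⟫ - ⟪N x, w⟫ * ⟪F x, z⟫) :=
      ((hj z).mul (hi w)).sub ((hj w).mul (hi z))
    have h2 := integral_radial (volM V F) hg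
      (sr_tf hcF a b e i j) (sr_tD hcF hcF a b e i j)
      (fun x r => hasDerivAt_tf a b e i j (F x) r) k
    have i2 : Integrable (fun q : M × ℝ => q.2 ^ k * Real.exp (-(q.2 ^ 2 / 2))
        * ((⟪N q.1, z⟫ * ⟪F q.1, w⟫ - ⟪N q.1, w⟫ * ⟪F q.1, z⟫)
          * (((k : ℝ) + 1) * tf a b e i j (q.2 • F q.1)))
        + q.2 ^ (k + 1) * Real.exp (-(q.2 ^ 2 / 2))
        * ((⟪N q.1, z⟫ * ⟪F q.1, w⟫ - ⟪N q.1, w⟫ * ⟪F q.1, z⟫)
        * (tD a b e i j (F q.1) (q.2 • F q.1) - q.2 * tf a b e i j (q.2 • F q.1))))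
        ((volM V F).prod (volume.restrict (Ioi (0 : ℝ)))) :=
      (((SR.cont hg).mul ((SR.const _).mul (sr_tf hcF a b e i j))).integrable _ k).add
      (((SR.cont hg).mul ((sr_tD hcF hcF a b e i j).sub
        (SR.rad.mul (sr_tf hcF a b e i j)))).integrable _ (k + 1))
    have h3 := integral_add (s1.integrable (volM V F) k) i2
    rw [h1, h2, add_zero] at h3
    refine Eq.trans ?_ h3
    refine integral_congr_ae (Eventually.of_forall fun q => ?_)
    simp only [cp, cn, real_inner_smul_left, hk, pow_succ]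
    push_cast
    ring

end

end Vale.Agent.P224.UG
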