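import Vale.Agent.P224.UE.FunE
import Vale.Agent.P224.UE.Conf

/-!
Gaussian cones: a measure space with a position map and a unit normal map which satisfies the
Gaussian weighted first variation identities, and pair integrals against `exp (T ⟪x, y⟫)`.
-/

namespace Vale.Agent.P224.UG

open MeasureTheory Set Filter Function
open Vale.Agent.P224.UE
open scoped Topology RealInnerProductSpace

set_option linter.unusedSectionVars false

section

variable {E : Type*} [NormedAddCommGroup E] [InnerProductSpace ℝ E]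

/-- the test functions -/
noncomputable def tf (a b e : E) (i j : ℕ) (x : E) : ℝ :=
  Real.exp ⟪x, a⟫ * (⟪x, b⟫ ^ i * ⟪x, e⟫ ^ j)

/-- the derivative of the test functions in the direction `w` -/
noncomputable def tD (a b e : E) (i j : ℕ) (w x : E) : ℝ :=
  Real.exp ⟪x, a⟫ * (⟪w, a⟫ * (⟪x, b⟫ ^ i * ⟪x, e⟫ ^ j)
    + ⟪w, b⟫ * (i * ⟪x, b⟫ ^ (i - 1) * ⟪x, e⟫ ^ j)
    + ⟪w, e⟫ * (⟪x, b⟫ ^ i * (j * ⟪x, e⟫ ^ (j - 1))))

end

variable {X : Type*} [MeasurableSpace X] {E : Type*} [NormedAddCommGroup E]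
  [InnerProductSpace ℝ E] [MeasurableSpace E] [BorelSpace E] [SecondCountableTopology E]

/-- The Gaussian cone identities. -/
structure GC (γ : Measure X) (n : ℕ) (p ν : X → E) : Prop where
  mp : Measurable p
  mn : Measurable ν
  nn : ∀ x, ‖ν x‖ = 1
  pn : ∀ x, ⟪p x, ν x⟫ = 0
  ex : ∀ a < (1 / 2 : ℝ), Integrable (fun x => Real.exp (a * ‖p x‖ ^ 2)) γ
  r0 : ∀ (a e : E) (j : ℕ) (ψ : E → ℝ), Continuous ψ →
    ∫ x, (n + ⟪p x, a⟫ + j - ‖p x‖ ^ 2) * (Real.exp ⟪p x, a⟫ * ⟪p x, e⟫ ^ j * ψ (ν x)) ∂γ = 0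
  r1 : ∀ (a b e w : E) (i j : ℕ),
    ∫ x, (tD a b e i j w (p x) - ⟪ν x, w⟫ * tD a b e i j (ν x) (p x)
      - ⟪p x, w⟫ * tf a b e i j (p x)) ∂γ = 0
  r2 : ∀ (a b e w z : E) (i j : ℕ),
    ∫ x, (⟪ν x, z⟫ * tD a b e i j w (p x) - ⟪ν x, w⟫ * tD a b e i j z (p x)
      - (⟪ν x, z⟫ * ⟪p x, w⟫ - ⟪ν x, w⟫ * ⟪p x, z⟫) * tf a b e i j (p x)) ∂γ = 0

/-- functions of pairs of subgaussian growth -/
def SG (p : X → E) (f : X × X → ℝ) : Prop :=
  Measurable f ∧ ∀ ε > 0, ∃ C, ∀ q, |f q| ≤ C * Real.exp (ε * (‖p q.1‖ ^ 2 + ‖p q.2‖ ^ 2))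

variable {p : X → E}

lemma SG.nonneg_const {f : X × X → ℝ} (hf : SG p f) {ε : ℝ} (hε : 0 < ε) :
    ∃ C, 0 ≤ C ∧ ∀ q, |f q| ≤ C * Real.exp (ε * (‖p q.1‖ ^ 2 + ‖p q.2‖ ^ 2)) := by
  obtain ⟨C, hC⟩ := hf.2 ε hε
  refine ⟨max C 0, le_max_right _ _, fun q => (hC q).trans ?_⟩
  exact mul_le_mul_of_nonneg_right (le_max_left _ _) (Real.exp_pos _).le

lemma SG.add {f g : X × X → ℝ} (hf : SG p f) (hg : SG p g) : SG p (fun q => f q + g q) := by
  refine ⟨hf.1.add hg.1, fun ε hε => ?_⟩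
  obtain ⟨C, hC⟩ := hf.2 ε hε
  obtain ⟨D, hD⟩ := hg.2 ε hε
  refine ⟨C + D, fun q => (abs_add_le _ _).trans ?_⟩
  rw [add_mul]
  exact add_le_add (hC q) (hD q)

lemma SG.neg {f : X × X → ℝ} (hf : SG p f) : SG p (fun q => -f q) := by
  refine ⟨hf.1.neg, fun ε hε => ?_⟩
  obtain ⟨C, hC⟩ := hf.2 ε hε
  exact ⟨C, fun q => by rw [abs_neg]; exact hC q⟩

lemma SG.sub {f g : X × X → ℝ} (hf : SG p f) (hg : SG p g) : SG p (fun q => f q - g q) := by
  simpa only [sub_eq_add_neg] using hf.add hg.neg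

lemma SG.mul {f g : X × X → ℝ} (hf : SG p f) (hg : SG p g) : SG p (fun q => f q * g q) := by
  refine ⟨hf.1.mul hg.1, fun ε hε => ?_⟩
  obtain ⟨C, hC0, hC⟩ := hf.nonneg_const (half_pos hε)
  obtain ⟨D, hD0, hD⟩ := hg.nonneg_const (half_pos hε)
  refine ⟨C * D, fun q => ?_⟩
  rw [abs_mul]
  calc |f q| * |g q| ≤ (C * Real.exp (ε / 2 * (‖p q.1‖ ^ 2 + ‖p q.2‖ ^ 2)))
        * (D * Real.exp (ε / 2 * (‖p q.1‖ ^ 2 + ‖p q.2‖ ^ 2))) :=
        mul_le_mul (hC q) (hD q) (abs_nonneg _) (mul_nonneg hC0 (Real.exp_pos _).le)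
    _ = C * D * Real.exp (ε * (‖p q.1‖ ^ 2 + ‖p q.2‖ ^ 2)) := by
        rw [mul_mul_mul_comm, ← Real.exp_add]
        congr 2
        ring

lemma SG.const (a : ℝ) : SG p (fun _ => a) := by
  refine ⟨measurable_const, fun ε hε => ⟨|a|, fun q => ?_⟩⟩
  have h1 : 1 ≤ Real.exp (ε * (‖p q.1‖ ^ 2 + ‖p q.2‖ ^ 2)) := Real.one_le_exp (by positivity)
  nlinarith [abs_nonneg a]

lemma SG.const_mul {f : X × X → ℝ} (hf : SG p f) (a : ℝ) : SG p (fun q => a * f q) :=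
  (SG.const a).mul hf

lemma SG.mul_const {f : X × X → ℝ} (hf : SG p f) (a : ℝ) : SG p (fun q => f q * a) :=
  hf.mul (SG.const a)

lemma SG.pow {f : X × X → ℝ} (hf : SG p f) (k : ℕ) : SG p (fun q => f q ^ k) := by
  induction k with
  | zero => simpa using SG.const (p := p) 1
  | succ k ih => simpa only [pow_succ] using ih.mul hf

/-- the growth of a linear function -/
lemma le_exp_sq {ε : ℝ} (hε : 0 < ε) (u : ℝ) : |u| ≤ (1 + 1 / ε) * Real.exp (ε * u ^ 2) := by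
  have h1 := Real.add_one_le_exp (ε * u ^ 2)
  have h2 : |u| ≤ 1 + u ^ 2 := by
    rcases le_total 0 u with h | h
    · rw [abs_of_nonneg h]; nlinarith [sq_nonneg (u - 1)]
    · rw [abs_of_nonpos h]; nlinarith [sq_nonneg (u + 1)]
  have h3 : (1 + 1 / ε) * (ε * u ^ 2 + 1) = 1 + u ^ 2 + (ε * u ^ 2 + 1 / ε) := by
    field_simp
    ring
  have h4 : 0 ≤ ε * u ^ 2 + 1 / ε := by positivity
  calc |u| ≤ (1 + 1 / ε) * (ε * u ^ 2 + 1) := by rw [h3]; linarith
    _ ≤ _ := mul_le_mul_of_nonneg_left h1 (by positivity)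

lemma SG.of_le {f g : X × X → ℝ} (hf : Measurable f) (hg : SG p g) (h : ∀ q, |f q| ≤ |g q|) :
    SG p f := by
  refine ⟨hf, fun ε hε => ?_⟩
  obtain ⟨C, hC⟩ := hg.2 ε hε
  exact ⟨C, fun q => (h q).trans (hC q)⟩

lemma SG.norm1 (mp : Measurable p) : SG p (fun q => ‖p q.1‖) := by
  refine ⟨(mp.comp measurable_fst).norm, fun ε hε => ⟨1 + 1 / ε, fun q => ?_⟩⟩
  refine (le_exp_sq hε ‖p q.1‖).trans ?_
  refine mul_le_mul_of_nonneg_left (Real.exp_le_exp.2 ?_) (by positivity)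
  have := sq_nonneg ‖p q.2‖
  nlinarith

lemma SG.norm2 (mp : Measurable p) : SG p (fun q => ‖p q.2‖) := by
  refine ⟨(mp.comp measurable_snd).norm, fun ε hε => ⟨1 + 1 / ε, fun q => ?_⟩⟩
  refine (le_exp_sq hε ‖p q.2‖).trans ?_
  refine mul_le_mul_of_nonneg_left (Real.exp_le_exp.2 ?_) (by positivity)
  have := sq_nonneg ‖p q.1‖
  nlinarith

section

variable {γ : Measure X} {n : ℕ} {ν : X → E}

lemma GC.measurable_dat (h : GC γ n p ν) (e : E) : Measurable (dat p ν e) := by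
  have mp1 : Measurable (fun q : X × X => p q.1) := h.mp.comp measurable_fst
  have mp2 : Measurable (fun q : X × X => p q.2) := h.mp.comp measurable_snd
  have mn1 : Measurable (fun q : X × X => ν q.1) := h.mn.comp measurable_fst
  have mn2 : Measurable (fun q : X × X => ν q.2) := h.mn.comp measurable_snd
  rw [measurable_pi_iff]
  intro i
  fin_cases i
  · exact mp1.inner mp2
  · exact mp1.inner mn2
  · exact mn1.inner mp2
  · exact mn1.inner mn2
  · exact mn1.inner measurable_const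
  · exact mn2.inner measurable_const
  · exact mp1.inner measurable_const
  · exact mp2.inner measurable_const
  · exact measurable_const

/-- the pair data have subgaussian growth -/
lemma GC.sg_dat (h : GC γ n p ν) (e : E) (i : Fin 9) : SG p (fun q => dat p ν e q i) := by
  have hm : Measurable (fun q => dat p ν e q i) := (measurable_pi_apply i).comp (h.measurable_dat e)
  have n1 := SG.norm1 h.mp
  have n2 := SG.norm2 h.mp
  have c1 : SG p (fun _ => (1 : ℝ)) := SG.const 1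
  have key : ∀ a b : E, |⟪a, b⟫| ≤ |‖a‖ * ‖b‖| := fun a b => by
    rw [abs_of_nonneg (a := ‖a‖ * ‖b‖) (by positivity)]
    exact abs_real_inner_le_norm a b
  fin_cases i
  · exact SG.of_le hm (n1.mul n2) fun q => key _ _
  · exact SG.of_le hm (n1.mul c1) fun q => by
      have := key (p q.1) (ν q.2)
      rwa [h.nn] at this
  · exact SG.of_le hm (c1.mul n2) fun q => by
      have := key (ν q.1) (p q.2)
      rwa [h.nn] at this
  · exact SG.of_le hm (c1.mul c1) fun q => by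
      have := key (ν q.1) (ν q.2)
      rwa [h.nn, h.nn] at this
  · exact SG.of_le hm (SG.const ‖e‖) fun q => by
      have := key (ν q.1) e
      rwa [h.nn, one_mul] at this
  · exact SG.of_le hm (SG.const ‖e‖) fun q => by
      have := key (ν q.2) e
      rwa [h.nn, one_mul] at this
  · exact SG.of_le hm (n1.mul (SG.const ‖e‖)) fun q => key _ _
  · exact SG.of_le hm (n2.mul (SG.const ‖e‖)) fun q => key _ _
  · exact SG.const ⟪e, e⟫

lemma GC.finite (h : GC γ n p ν) : IsFiniteMeasure γ := by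
  have h1 := h.ex 0 (by norm_num)
  simp only [zero_mul, Real.exp_zero] at h1
  have h2 := (integrable_const_iff (μ := γ) (c := (1 : ℝ))).1 h1
  rcases h2 with h2 | h2
  · norm_num at h2
  · exact h2

/-- the integrals against the kernel -/
lemma GC.integrable (h : GC γ n p ν) {f : X × X → ℝ} (hf : SG p f) {T : ℝ} (hT : |T| < 1) :
    Integrable (fun q => Real.exp (T * ⟪p q.1, p q.2⟫) * f q) (γ.prod γ) := by
  have := h.finite
  obtain ⟨C, hC0, hC⟩ := hf.nonneg_const (ε := (1 - |T|) / 4) (by linarith)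
  have he := h.ex (|T| / 2 + (1 - |T|) / 4) (by linarith)
  have hp := (he.mul_prod he).const_mul C
  have mS : Measurable (fun q : X × X => ⟪p q.1, p q.2⟫) :=
    (h.mp.comp measurable_fst).inner (h.mp.comp measurable_snd)
  refine hp.mono' ((Real.measurable_exp.comp (mS.const_mul T)).mul hf.1).aestronglyMeasurable ?_
  refine Eventually.of_forall fun q => ?_
  rw [Real.norm_eq_abs, abs_mul, abs_of_pos (Real.exp_pos _)]
  have h1 : T * ⟪p q.1, p q.2⟫ ≤ |T| / 2 * (‖p q.1‖ ^ 2 + ‖p q.2‖ ^ 2) := by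
    have h2 := le_abs_self (T * ⟪p q.1, p q.2⟫)
    rw [abs_mul] at h2
    have h3 := abs_real_inner_le_norm (p q.1) (p q.2)
    have h4 : ‖p q.1‖ * ‖p q.2‖ ≤ (‖p q.1‖ ^ 2 + ‖p q.2‖ ^ 2) / 2 := by
      nlinarith [sq_nonneg (‖p q.1‖ - ‖p q.2‖)]
    have h5 := mul_le_mul_of_nonneg_left (h3.trans h4) (abs_nonneg T)
    linarith
  calc Real.exp (T * ⟪p q.1, p q.2⟫) * |f q|
      ≤ Real.exp (|T| / 2 * (‖p q.1‖ ^ 2 + ‖p q.2‖ ^ 2))
        * (C * Real.exp ((1 - |T|) / 4 * (‖p q.1‖ ^ 2 + ‖p q.2‖ ^ 2))) :=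
        mul_le_mul (Real.exp_le_exp.2 h1) (hC q) (abs_nonneg _) (Real.exp_pos _).le
    _ = C * (Real.exp ((|T| / 2 + (1 - |T|) / 4) * ‖p q.1‖ ^ 2)
        * Real.exp ((|T| / 2 + (1 - |T|) / 4) * ‖p q.2‖ ^ 2)) := by
        rw [← Real.exp_add, mul_left_comm, ← Real.exp_add]
        congr 2
        ring

/-- differentiation of the pair integrals -/
lemma GC.hasDerivAt (h : GC γ n p ν) {f : X × X → ℝ} (hf : SG p f) {T₀ : ℝ} (hT : |T₀| < 1) :
    HasDerivAt (fun T => ∫ q, Real.exp (T * ⟪p q.1, p q.2⟫) * f q ∂(γ.prod γ))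
      (∫ q, Real.exp (T₀ * ⟪p q.1, p q.2⟫) * (⟪p q.1, p q.2⟫ * f q) ∂(γ.prod γ)) T₀ := by
  have := h.finite
  have mS : Measurable (fun q : X × X => ⟪p q.1, p q.2⟫) :=
    (h.mp.comp measurable_fst).inner (h.mp.comp measurable_snd)
  have hS : SG p (fun q : X × X => ⟪p q.1, p q.2⟫) := by
    refine SG.of_le mS ((SG.norm1 h.mp).mul (SG.norm2 h.mp)) fun q => ?_
    rw [abs_of_nonneg (a := ‖p q.1‖ * ‖p q.2‖) (by positivity)]
    exact abs_real_inner_le_norm _ _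
  have hSf := hS.mul hf
  set δ : ℝ := (1 - |T₀|) / 2 with hδ
  have hδ0 : 0 < δ := by rw [hδ]; linarith
  obtain ⟨C, hC0, hC⟩ := hSf.nonneg_const (ε := (1 - |T₀|) / 8) (by linarith)
  have he := h.ex ((|T₀| + δ) / 2 + (1 - |T₀|) / 8) (by rw [hδ]; linarith)
  have hp := (he.mul_prod he).const_mul C
  have key := hasDerivAt_integral_of_dominated_loc_of_deriv_le (μ := γ.prod γ)
    (s := Metric.ball T₀ δ) (x₀ := T₀)
    (F := fun T q => Real.exp (T * ⟪p q.1, p q.2⟫) * f q)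
    (F' := fun T q => Real.exp (T * ⟪p q.1, p q.2⟫) * (⟪p q.1, p q.2⟫ * f q))
    (bound := fun q => C * (Real.exp (((|T₀| + δ) / 2 + (1 - |T₀|) / 8) * ‖p q.1‖ ^ 2)
        * Real.exp (((|T₀| + δ) / 2 + (1 - |T₀|) / 8) * ‖p q.2‖ ^ 2)))
    (Metric.ball_mem_nhds T₀ hδ0)
    (Eventually.of_forall fun T =>
      ((Real.measurable_exp.comp (mS.const_mul T)).mul hf.1).aestronglyMeasurable)
    (h.integrable hf hT)
    ((Real.measurable_exp.comp (mS.const_mul T₀)).mul hSf.1).aestronglyMeasurable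
    (Eventually.of_forall fun q T hTb => ?_) hp
    (Eventually.of_forall fun q T _ => ?_)
  · exact key.2
  · rw [Metric.mem_ball, Real.dist_eq] at hTb
    have hT1 : |T| ≤ |T₀| + δ := by
      have := abs_sub_abs_le_abs_sub T T₀
      linarith
    rw [Real.norm_eq_abs, abs_mul, abs_of_pos (Real.exp_pos _)]
    have h1 : T * ⟪p q.1, p q.2⟫ ≤ (|T₀| + δ) / 2 * (‖p q.1‖ ^ 2 + ‖p q.2‖ ^ 2) := by
      have h2 := le_abs_self (T * ⟪p q.1, p q.2⟫)
      rw [abs_mul] at h2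
      have h3 := abs_real_inner_le_norm (p q.1) (p q.2)
      have h4 : ‖p q.1‖ * ‖p q.2‖ ≤ (‖p q.1‖ ^ 2 + ‖p q.2‖ ^ 2) / 2 := by
        nlinarith [sq_nonneg (‖p q.1‖ - ‖p q.2‖)]
      have h5 := mul_le_mul_of_nonneg_left (h3.trans h4) (abs_nonneg T)
      have h6 := mul_le_mul_of_nonneg_right hT1
        (by positivity : 0 ≤ (‖p q.1‖ ^ 2 + ‖p q.2‖ ^ 2) / 2)
      linarith
    calc Real.exp (T * ⟪p q.1, p q.2⟫) * |⟪p q.1, p q.2⟫ * f q|
        ≤ Real.exp ((|T₀| + δ) / 2 * (‖p q.1‖ ^ 2 + ‖p q.2‖ ^ 2))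
          * (C * Real.exp ((1 - |T₀|) / 8 * (‖p q.1‖ ^ 2 + ‖p q.2‖ ^ 2))) :=
          mul_le_mul (Real.exp_le_exp.2 h1) (hC q) (abs_nonneg _) (Real.exp_pos _).le
      _ = C * (Real.exp (((|T₀| + δ) / 2 + (1 - |T₀|) / 8) * ‖p q.1‖ ^ 2)
          * Real.exp (((|T₀| + δ) / 2 + (1 - |T₀|) / 8) * ‖p q.2‖ ^ 2)) := by
          rw [← Real.exp_add, mul_left_comm, ← Real.exp_add]
          congr 2
          ring
  · have h1 : HasDerivAt (fun T => T * ⟪p q.1, p q.2⟫) (⟪p q.1, p q.2⟫) T := by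
      simpa using (hasDerivAt_id T).mul_const ⟪p q.1, p q.2⟫
    refine (h1.exp.mul_const (f q)).congr_deriv ?_
    ring

end

end Vale.Agent.P224.UG
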