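import Vale.Agent.P224.UG.BddB

/-!
Uniform bounds of the Gaussian functionals.
-/

namespace Vale.Agent.P224.UG

open MeasureTheory Set Filter Function Vale.Agent.P224.UE
open Vale.Agent.P224.SM2 hiding ker
open scoped Topology RealInnerProductSpace ENNReal

set_option linter.unusedSectionVars false

/-- the integral over the radii as a mixture of conformal kernels -/
def GwInt (m : ℕ) : Prop := ∃ K : ℝ, 0 < K ∧ ∀ T ∈ Ico (0 : ℝ) 1, ∀ s ∈ Icc (-1 : ℝ) 1,
  Integrable (gw m T s) rm ∧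
  Integrable (fun η : ℝ => (√(1 + η ^ 2) ^ (m + 2))⁻¹ * cw m (T / √(1 + (1 - T ^ 2) * η ^ 2)) s) ∧
  kp T ^ (m + 1) * ∫ z, gw m T s z ∂rm =
    K * ∫ η : ℝ, (√(1 + η ^ 2) ^ (m + 2))⁻¹ * cw m (T / √(1 + (1 - T ^ 2) * η ^ 2)) s

/-- the level of the mixture -/
noncomputable def tauD (T η : ℝ) : ℝ := T / √(1 + (1 - T ^ 2) * η ^ 2)

/-- the density of the mixture -/
noncomputable def ke (m : ℕ) (η : ℝ) : ℝ := (√(1 + η ^ 2) ^ (m + 2))⁻¹

lemma tauD_mem {T : ℝ} (hT : T ∈ Ico (0 : ℝ) 1) (η : ℝ) : tauD T η ∈ Icc (0 : ℝ) T := by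
  have h1 : 1 ≤ √(1 + (1 - T ^ 2) * η ^ 2) := by
    rw [Real.one_le_sqrt]
    have := mul_nonneg (one_sub_sq_pos hT).le (sq_nonneg η)
    linarith
  unfold tauD
  exact ⟨div_nonneg hT.1 (by linarith), div_le_self hT.1 h1⟩

lemma ke_nonneg (m : ℕ) (η : ℝ) : 0 ≤ ke m η := by
  unfold ke
  positivity

lemma ke_le (m : ℕ) (η : ℝ) : ke m η ≤ (1 + η ^ 2)⁻¹ := by
  unfold ke
  have h0 : (0 : ℝ) < 1 + η ^ 2 := by positivity
  have h1 : 1 ≤ √(1 + η ^ 2) := by
    rw [Real.one_le_sqrt]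
    nlinarith [sq_nonneg η]
  refine inv_anti₀ h0 ?_
  rw [pow_add, Real.sq_sqrt h0.le]
  have h2 : (1 : ℝ) ≤ √(1 + η ^ 2) ^ m := one_le_pow₀ h1
  nlinarith

lemma measurable_ke (m : ℕ) : Measurable (ke m) := by
  unfold ke
  fun_prop

lemma integrable_ke (m : ℕ) : Integrable (ke m) := by
  refine integrable_inv_one_add_sq.mono' (measurable_ke m).aestronglyMeasurable ?_
  refine Eventually.of_forall fun η => ?_
  rw [Real.norm_eq_abs, abs_of_nonneg (ke_nonneg m η)]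
  exact ke_le m η

lemma measurable_tauD (T : ℝ) : Measurable (tauD T) := by
  unfold tauD
  fun_prop

lemma measurable_cw2 (m : ℕ) : Measurable (fun z : ℝ × ℝ => cw m z.1 z.2) := by
  have := measurable_kp
  unfold cw SM2.ker
  fun_prop

lemma cw_nonnegD {m : ℕ} {τ s : ℝ} (hτ : τ ∈ Ico (0 : ℝ) 1) (hs : s ∈ Icc (-1 : ℝ) 1) :
    0 ≤ cw m τ s := by
  unfold cw
  exact mul_nonneg (pow_nonneg (kp_pos hτ).le _) (UE.ker_nonneg hτ hs _)

lemma cw_leD {m : ℕ} {T τ s : ℝ} (hT : T ∈ Ico (0 : ℝ) 1) (hτ : τ ∈ Icc (0 : ℝ) T)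
    (hs : s ∈ Icc (-1 : ℝ) 1) : cw m τ s ≤ ((1 - T) ^ (m + 1))⁻¹ := by
  have hτ' : τ ∈ Ico (0 : ℝ) 1 := ⟨hτ.1, hτ.2.trans_lt hT.2⟩
  have h1 : kp τ ^ (m + 2) ≤ 1 := pow_le_one₀ (kp_pos hτ').le kp_le_one
  have h2 : 0 < 1 - T := by linarith [hT.2]
  have h3 : 1 - T ≤ 1 - τ * s := by nlinarith [hτ.1, hτ.2, hs.1, hs.2]
  have h4 : SM2.ker τ (m + 1) s ≤ ((1 - T) ^ (m + 1))⁻¹ := by
    unfold SM2.ker
    exact inv_anti₀ (pow_pos h2 _) (pow_le_pow_left₀ h2.le h3 _)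
  unfold cw
  calc kp τ ^ (m + 2) * SM2.ker τ (m + 1) s ≤ 1 * SM2.ker τ (m + 1) s :=
        mul_le_mul_of_nonneg_right h1 (UE.ker_nonneg hτ' hs _)
    _ ≤ _ := by rw [one_mul]; exact h4

section

variable {X : Type*} [MeasurableSpace X] {E : Type*} [NormedAddCommGroup E]
  [InnerProductSpace ℝ E] [MeasurableSpace E] [BorelSpace E] [SecondCountableTopology E]
variable {μ : Measure X} [IsFiniteMeasure μ] {m : ℕ} {p n : X → E}

lemma measurable_dat0 (h : FV.Pts p n) (e : E) : Measurable (fun q : X × X => dat p n e q 0) :=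
  (measurable_pi_apply 0).comp (measurable_dat h e)

/-- the double integral of the second conformal kernel -/
lemma cw_int_le (h : FV.Pts p n) (hrow : ConfRow μ m p n) (e : E) {τ : ℝ}
    (hτ : τ ∈ Ico (0 : ℝ) 1) :
    ∫ q, cw m τ (dat p n e q 0) ∂(μ.prod μ) ≤ μ.real univ ^ 2 := by
  rcases eq_or_lt_of_le hτ.1 with h0 | h0
  · have h1 : ∀ q, cw m τ (dat p n e q 0) = 1 := by
      intro q
      rw [← h0]
      unfold cw SM2.ker
      simp [kp_zero]
    simp only [h1]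
    rw [integral_const, smul_eq_mul, mul_one, sq, measureReal_def, ← univ_prod_univ,
      Measure.prod_prod, ENNReal.toReal_mul]
    rfl
  · have hτ' : τ ∈ Ioo (0 : ℝ) 1 := ⟨h0, hτ.2⟩
    have i0 : Integrable (fun q : X × X => SM2.ker τ (m + 1) (dat p n e q 0)) (μ.prod μ) :=
      integrable_ker1 (measurable_dat0 h e) (fun q => dat0_mem h e q) hτ (m + 1)
    have hz : ∀ z, kp τ ^ (m + 2) * ∫ x, SM2.ker τ (m + 1) ⟪p x, p z⟫ ∂μ ≤ μ.real univ := by
      intro z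
      exact conf_succ_le (h.mp.inner measurable_const) (h.mn.inner measurable_const)
        (fun x => abs_inner_le_one (h.np _) (h.np _)) (fun x => abs_inner_le_one (h.nn _) (h.np _))
        (hrow z) hτ'
    have e1 : ∫ q, cw m τ (dat p n e q 0) ∂(μ.prod μ) =
        ∫ z, kp τ ^ (m + 2) * ∫ x, SM2.ker τ (m + 1) ⟪p x, p z⟫ ∂μ ∂μ := by
      unfold cw
      rw [integral_const_mul, integral_prod_symm _ i0, integral_const_mul]
      rfl
    rw [e1]
    have i1 : Integrable (fun z => kp τ ^ (m + 2) * ∫ x, SM2.ker τ (m + 1) ⟪p x, p z⟫ ∂μ) μ := by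
      have := i0.swap.integral_prod_left
      exact (this.const_mul _)
    calc ∫ z, kp τ ^ (m + 2) * ∫ x, SM2.ker τ (m + 1) ⟪p x, p z⟫ ∂μ ∂μ
        ≤ ∫ _, μ.real univ ∂μ := integral_mono i1 (integrable_const _) hz
      _ = μ.real univ ^ 2 := by
        rw [integral_const, smul_eq_mul]
        ring

lemma measurable_mixD (h : FV.Pts p n) (e : E) (m : ℕ) (T : ℝ) :
    Measurable (fun z : (X × X) × ℝ => ke m z.2 * cw m (tauD T z.2) (dat p n e z.1 0)) := by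
  have h1 : Measurable (fun z : (X × X) × ℝ => tauD T z.2) := (measurable_tauD T).comp measurable_snd
  have h2 : Measurable (fun z : (X × X) × ℝ => dat p n e z.1 0) :=
    (measurable_dat0 h e).comp measurable_fst
  have h3 : Measurable (fun z : (X × X) × ℝ => ((tauD T z.2, dat p n e z.1 0) : ℝ × ℝ)) :=
    h1.prodMk h2
  have h4 : Measurable (fun z : (X × X) × ℝ => ke m z.2) := (measurable_ke m).comp measurable_snd
  have h5 : Measurable (fun z : (X × X) × ℝ => cw m (tauD T z.2) (dat p n e z.1 0)) := by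
    have := (measurable_cw2 m).comp h3
    simpa only [Function.comp_def] using this
  exact h4.mul h5

lemma mix_leD (h : FV.Pts p n) (e : E) (m : ℕ) {T : ℝ} (hT : T ∈ Ico (0 : ℝ) 1) (q : X × X)
    (η : ℝ) : ‖ke m η * cw m (tauD T η) (dat p n e q 0)‖ ≤ ((1 - T) ^ (m + 1))⁻¹ * ke m η := by
  have ht := tauD_mem hT η
  have ht' : tauD T η ∈ Ico (0 : ℝ) 1 := ⟨ht.1, ht.2.trans_lt hT.2⟩
  have hs := dat0_mem h e q
  rw [Real.norm_eq_abs, abs_of_nonneg (mul_nonneg (ke_nonneg m _) (cw_nonnegD ht' hs)), mul_comm]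
  exact mul_le_mul_of_nonneg_right (cw_leD hT ht hs) (ke_nonneg m _)

lemma integrable_mixD (h : FV.Pts p n) (e : E) (m : ℕ) {T : ℝ} (hT : T ∈ Ico (0 : ℝ) 1) :
    Integrable (fun z : (X × X) × ℝ => ke m z.2 * cw m (tauD T z.2) (dat p n e z.1 0))
      ((μ.prod μ).prod volume) := by
  have hle := fun (q : X × X) (η : ℝ) => mix_leD h e m hT q η
  obtain ⟨c, hc⟩ : ∃ c : ℝ, c = ((1 - T) ^ (m + 1))⁻¹ := ⟨_, rfl⟩
  rw [← hc] at hle
  have h0 : Integrable (fun _ : X × X => c) (μ.prod μ) := integrable_const c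
  have h1 : Integrable (fun z : (X × X) × ℝ => c * ke m z.2) ((μ.prod μ).prod volume) :=
    h0.mul_prod (integrable_ke m)
  exact h1.mono' (measurable_mixD h e m T).aestronglyMeasurable
    (Eventually.of_forall fun z => hle z.1 z.2)

/-- the uniform bound of the integral of the Gaussian weight -/
theorem gw_bound (hB : GwInt m) (h : FV.Pts p n) (hrow : ConfRow μ m p n) (e : E) :
    ∃ B : ℝ, 0 ≤ B ∧ ∀ T ∈ Ico (0 : ℝ) 1,
      kp T ^ (m + 1) * ∫ q, (∫ z, gw m T (dat p n e q 0) z ∂rm) ∂(μ.prod μ) ≤ B := by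
  obtain ⟨K, hK, hB⟩ := hB
  refine ⟨K * ((∫ η, ke m η) * μ.real univ ^ 2), ?_, fun T hT => ?_⟩
  · exact mul_nonneg hK.le (mul_nonneg (integral_nonneg fun η => ke_nonneg m η) (sq_nonneg _))
  · have e1 : kp T ^ (m + 1) * ∫ q, (∫ z, gw m T (dat p n e q 0) z ∂rm) ∂(μ.prod μ) =
        K * ∫ q, (∫ η : ℝ, ke m η * cw m (tauD T η) (dat p n e q 0)) ∂(μ.prod μ) := by
      rw [← integral_const_mul, ← integral_const_mul]
      refine integral_congr_ae (Eventually.of_forall fun q => ?_)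
      exact (hB T hT _ (dat0_mem h e q)).2.2
    rw [e1, integral_integral_swap (integrable_mixD h e m hT)]
    refine mul_le_mul_of_nonneg_left ?_ hK.le
    rw [← integral_mul_const]
    have hle : ∀ η : ℝ, ∫ q, ke m η * cw m (tauD T η) (dat p n e q 0) ∂(μ.prod μ) ≤
        ke m η * μ.real univ ^ 2 := by
      intro η
      rw [integral_const_mul]
      have ht := tauD_mem hT η
      exact mul_le_mul_of_nonneg_left (cw_int_le h hrow e ⟨ht.1, ht.2.trans_lt hT.2⟩)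
        (ke_nonneg m η)
    refine integral_mono ?_ ((integrable_ke m).mul_const _) hle
    exact (integrable_mixD h e m hT).integral_prod_right

/-- uniform bound of the Gaussian functionals of functions of polynomial growth -/
theorem EE_bound (hB : GwInt m) (h : FV.Pts p n) (hpn : ∀ x, ⟪p x, n x⟫ = 0)
    (hrow : ConfRow μ m p n) (e : E) {K : ℕ} {C : ℝ} {f : R8 → ℝ} (hf : PG K C f) (hC : 0 ≤ C)
    (hfm : Measurable f) : ∃ B : ℝ, ∀ T ∈ Ico (0 : ℝ) 1,
      Integrable (fun y : (X × X) × (ℝ × ℝ) => gw m T (dat p n e y.1 0) y.2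
        * f (cd8 T y.2 (dat p n e y.1))) ((μ.prod μ).prod rm) ∧ |EE μ p n e m T f| ≤ B := by
  obtain ⟨B, hB0, hBT⟩ := gw_bound hB h hrow e
  set L := C * RE e ^ K * (4 ^ K * K.factorial * Real.exp (1 / 4)) with hL
  have hL0 : 0 ≤ L := by
    have : 0 ≤ RE e := by linarith [one_le_RE e]
    positivity
  refine ⟨L * (2 ^ (m + 1) * B), fun T hT => ⟨integrable_EE h hpn e m hT hf hC hfm, ?_⟩⟩
  have hk : 0 ≤ kp T ^ (m + 1) := pow_nonneg (kp_pos hT).le _
  unfold EE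
  rw [abs_mul, abs_of_nonneg hk]
  have h1 : |∫ y : (X × X) × (ℝ × ℝ), gw m T (dat p n e y.1 0) y.2
      * f (cd8 T y.2 (dat p n e y.1)) ∂((μ.prod μ).prod rm)| ≤
      ∫ y : (X × X) × (ℝ × ℝ), L * hw m T (dat p n e y.1 0) y.2 ∂((μ.prod μ).prod rm) := by
    rw [← Real.norm_eq_abs]
    refine norm_integral_le_of_norm_le ((integrable_hw2 h e m hT).const_mul L) ?_
    filter_upwards [ae_pos2 (μ.prod μ)] with y hy
    rw [Real.norm_eq_abs]
    exact gw_mul_le h hpn e m hT hf hC y hy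
  rw [integral_const_mul, integral_prod _ (integrable_hw2 h e m hT)] at h1
  simp only [integral_hw] at h1
  rw [integral_const_mul] at h1
  calc kp T ^ (m + 1) * |∫ y : (X × X) × (ℝ × ℝ), gw m T (dat p n e y.1 0) y.2
      * f (cd8 T y.2 (dat p n e y.1)) ∂((μ.prod μ).prod rm)|
      ≤ kp T ^ (m + 1) * (L * (2 ^ (m + 1) *
        ∫ q, (∫ z, gw m T (dat p n e q 0) z ∂rm) ∂(μ.prod μ))) :=
        mul_le_mul_of_nonneg_left h1 hk
    _ = L * (2 ^ (m + 1) * (kp T ^ (m + 1) *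
        ∫ q, (∫ z, gw m T (dat p n e q 0) z ∂rm) ∂(μ.prod μ))) := by ring
    _ ≤ L * (2 ^ (m + 1) * B) := by
      refine mul_le_mul_of_nonneg_left ?_ hL0
      exact mul_le_mul_of_nonneg_left (hBT T hT) (by positivity)

/-- block D: the functionals of the terms are bounded uniformly in the level -/
theorem GTerm.EE_bound (hB : GwInt m) (h : TwoG μ m p n) (hm : 1 ≤ m) (e : E) (t : GTerm) :
    ∃ B : ℝ, ∀ T ∈ Ico (0 : ℝ) 1,
      Integrable (fun y : (X × X) × (ℝ × ℝ) => gw m T (dat p n e y.1 0) y.2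
        * t.f (cd8 T y.2 (dat p n e y.1))) ((μ.prod μ).prod rm) ∧ |EE μ p n e m T t.f| ≤ B :=
  UG.EE_bound hB h.toPts h.pn (h.toTwoE.conf hm) e t.pg zero_le_one t.measurable_f

end

end Vale.Agent.P224.UG
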