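import Vale.Agent.P224.UG.Def

/-!
Pointwise bounds of the cone data by the Gaussian exponent.
-/

namespace Vale.Agent.P224.UG

open MeasureTheory Set Filter Function Vale.Agent.P224.UE
open Vale.Agent.P224.SM2 hiding ker
open scoped Topology RealInnerProductSpace ENNReal

set_option linter.unusedSectionVars false

/-- the exponent of the Gaussian weight -/
noncomputable def qd (T s : ℝ) (z : ℝ × ℝ) : ℝ := (z.1 ^ 2 + z.2 ^ 2) / 2 - T * (z.1 * z.2) * s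

lemma gw_eq (m : ℕ) (T s : ℝ) (z : ℝ × ℝ) :
    gw m T s z = (z.1 * z.2) ^ m * Real.exp (-qd T s z) := by
  unfold gw qd
  congr 2
  ring

lemma qd_ge1 {T s : ℝ} (hT : T ∈ Ico (0 : ℝ) 1) (z : ℝ × ℝ) :
    z.1 ^ 2 * (1 - s ^ 2) ≤ 2 * qd T s z := by
  unfold qd
  nlinarith [sq_nonneg (z.2 - T * s * z.1), mul_nonneg (sq_nonneg (s * z.1))
    (show (0 : ℝ) ≤ 1 - T ^ 2 by nlinarith [hT.1, hT.2])]

lemma qd_ge2 {T s : ℝ} (hT : T ∈ Ico (0 : ℝ) 1) (z : ℝ × ℝ) :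
    z.2 ^ 2 * (1 - s ^ 2) ≤ 2 * qd T s z := by
  unfold qd
  nlinarith [sq_nonneg (z.1 - T * s * z.2), mul_nonneg (sq_nonneg (s * z.2))
    (show (0 : ℝ) ≤ 1 - T ^ 2 by nlinarith [hT.1, hT.2])]

lemma qd_ge3 {T s : ℝ} (hs : s ∈ Icc (-1 : ℝ) 1) (z : ℝ × ℝ) :
    (1 - T ^ 2) * z.2 ^ 2 ≤ 2 * qd T s z := by
  have h1 : s ^ 2 ≤ 1 := by nlinarith [hs.1, hs.2]
  unfold qd
  nlinarith [sq_nonneg (z.1 - T * s * z.2), mul_nonneg (sq_nonneg (T * z.2))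
    (show (0 : ℝ) ≤ 1 - s ^ 2 by linarith)]

lemma qd_ge4 {T s : ℝ} (hT : T ∈ Ico (0 : ℝ) 1) (z : ℝ × ℝ) :
    z.1 ^ 2 - 2 * T * s * (z.1 * z.2) + T ^ 2 * z.2 ^ 2 ≤ 2 * qd T s z := by
  unfold qd
  nlinarith [mul_nonneg (sq_nonneg z.2) (show (0 : ℝ) ≤ 1 - T ^ 2 by nlinarith [hT.1, hT.2])]

lemma qd_low {T s : ℝ} (hT : T ∈ Ico (0 : ℝ) 1) (hs : s ∈ Icc (-1 : ℝ) 1) (z : ℝ × ℝ) :
    (1 - T) * ((z.1 ^ 2 + z.2 ^ 2) / 2) ≤ qd T s z := by
  have h1 : z.1 * z.2 * s ≤ (z.1 ^ 2 + z.2 ^ 2) / 2 := by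
    have h2 : |z.1 * z.2 * s| ≤ (z.1 ^ 2 + z.2 ^ 2) / 2 := by
      rw [abs_mul]
      have h3 : |z.1 * z.2| ≤ (z.1 ^ 2 + z.2 ^ 2) / 2 := by
        rw [abs_le]
        constructor
        · nlinarith [sq_nonneg (z.1 + z.2)]
        · nlinarith [sq_nonneg (z.1 - z.2)]
      have h4 : |s| ≤ 1 := abs_le.2 hs
      calc |z.1 * z.2| * |s| ≤ |z.1 * z.2| * 1 :=
            mul_le_mul_of_nonneg_left h4 (abs_nonneg _)
        _ ≤ _ := by rw [mul_one]; exact h3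
    exact (le_abs_self _).trans h2
  unfold qd
  nlinarith [mul_le_mul_of_nonneg_left h1 hT.1]

lemma qd_nonneg {T s : ℝ} (hT : T ∈ Ico (0 : ℝ) 1) (hs : s ∈ Icc (-1 : ℝ) 1) (z : ℝ × ℝ) :
    0 ≤ qd T s z := by
  refine le_trans ?_ (qd_low hT hs z)
  have : 0 ≤ 1 - T := by linarith [hT.2]
  positivity

section

variable {E : Type*} [NormedAddCommGroup E] [InnerProductSpace ℝ E]

/-- an inner product with a unit vector orthogonal to the other one -/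
lemma inner_sq_le_one_sub {x y w : E} (hx : ‖x‖ = 1) (hy : ‖y‖ = 1) (hw : ‖w‖ = 1)
    (hyw : ⟪y, w⟫ = 0) : ⟪x, w⟫ ^ 2 ≤ 1 - ⟪x, y⟫ ^ 2 := by
  have h1 : 0 ≤ ‖x - ⟪x, y⟫ • y - ⟪x, w⟫ • w‖ ^ 2 := sq_nonneg _
  have e1 : ‖x - ⟪x, y⟫ • y - ⟪x, w⟫ • w‖ ^ 2 = 1 - ⟪x, y⟫ ^ 2 - ⟪x, w⟫ ^ 2 := by
    have h2 : ⟪w, y⟫ = 0 := by rw [real_inner_comm]; exact hyw
    rw [← real_inner_self_eq_norm_sq]
    simp only [inner_sub_left, inner_sub_right, real_inner_smul_left, real_inner_smul_right]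
    rw [real_inner_self_eq_norm_sq x, real_inner_self_eq_norm_sq y, real_inner_self_eq_norm_sq w,
      hx, hy, hw, hyw, h2, real_inner_comm x y, real_inner_comm x w]
    ring
  linarith

lemma abs_le_of_sq_le {a c x : ℝ} (hc : 0 ≤ c) (hx : 0 ≤ x) (h : a ^ 2 ≤ c ^ 2 * (2 * x)) :
    |a| ≤ c * (1 + 2 * x) := by
  refine abs_le_of_sq_le_sq ?_ (by positivity)
  refine h.trans ?_
  rw [mul_pow]
  refine mul_le_mul_of_nonneg_left ?_ (sq_nonneg c)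
  nlinarith

/-- the constant of the growth bound -/
noncomputable def RE (e : E) : ℝ := 1 + ‖e‖ + ‖e‖ ^ 2

lemma one_le_RE (e : E) : 1 ≤ RE e := by
  unfold RE
  nlinarith [norm_nonneg e, sq_nonneg ‖e‖]

/-- all cone data are bounded by the exponent -/
lemma cd8_le {x N y w : E} (e : E) (hx : ‖x‖ = 1) (hN : ‖N‖ = 1) (hy : ‖y‖ = 1) (hw : ‖w‖ = 1)
    (hxN : ⟪x, N⟫ = 0) (hyw : ⟪y, w⟫ = 0) {T : ℝ} (hT : T ∈ Ico (0 : ℝ) 1) (z : ℝ × ℝ) (i : Fin 8) :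
    |cd8 T z (dv x N y w e) i| ≤ RE e * (1 + 2 * qd T ⟪x, y⟫ z) := by
  have hs : ⟪x, y⟫ ∈ Icc (-1 : ℝ) 1 := by
    have := abs_real_inner_le_norm x y
    rw [hx, hy, mul_one] at this
    exact abs_le.1 this
  have hq := qd_nonneg hT hs z
  set q := qd T ⟪x, y⟫ z with hqd
  have hR := one_le_RE e
  have hE0 : 0 ≤ ‖e‖ := norm_nonneg e
  have hER : ‖e‖ ≤ RE e := by unfold RE; nlinarith [sq_nonneg ‖e‖]
  have hX : 1 ≤ 1 + 2 * q := by linarith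
  have h1X : ∀ a c : ℝ, |a| ≤ c → c ≤ RE e → |a| ≤ RE e * (1 + 2 * q) := by
    intro a c h1 h2
    have : RE e * 1 ≤ RE e * (1 + 2 * q) := mul_le_mul_of_nonneg_left hX (by linarith)
    linarith
  have hsq : ∀ a c : ℝ, 0 ≤ c → c ≤ RE e → a ^ 2 ≤ c ^ 2 * (2 * q) →
      |a| ≤ RE e * (1 + 2 * q) := by
    intro a c h0 h1 h2
    have := abs_le_of_sq_le h0 hq h2
    exact this.trans (mul_le_mul_of_nonneg_right h1 (by linarith))
  have hone : ∀ a b : E, ‖a‖ = 1 → ‖b‖ = 1 → |⟪a, b⟫| ≤ 1 := by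
    intro a b ha hb
    have := abs_real_inner_le_norm a b
    rwa [ha, hb, mul_one] at this
  have hee : ∀ a : E, ‖a‖ = 1 → |⟪a, e⟫| ≤ ‖e‖ := by
    intro a ha
    have := abs_real_inner_le_norm a e
    rwa [ha, one_mul] at this
  fin_cases i
  · -- P = σ ⟪N, y⟫
    show |z.2 * ⟪N, y⟫| ≤ _
    refine hsq _ 1 zero_le_one hR ?_
    have h1 : ⟪N, y⟫ ^ 2 ≤ 1 - ⟪x, y⟫ ^ 2 := by
      rw [real_inner_comm, real_inner_comm y x]
      exact inner_sq_le_one_sub hy hx hN hxN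
    have h2 := qd_ge2 (s := ⟪x, y⟫) hT z
    rw [mul_pow]
    calc z.2 ^ 2 * ⟪N, y⟫ ^ 2 ≤ z.2 ^ 2 * (1 - ⟪x, y⟫ ^ 2) :=
          mul_le_mul_of_nonneg_left h1 (sq_nonneg _)
      _ ≤ 2 * q := h2
      _ = 1 ^ 2 * (2 * q) := by ring
  · -- Q = ρ ⟪x, w⟫
    show |z.1 * ⟪x, w⟫| ≤ _
    refine hsq _ 1 zero_le_one hR ?_
    have h1 : ⟪x, w⟫ ^ 2 ≤ 1 - ⟪x, y⟫ ^ 2 := inner_sq_le_one_sub hx hy hw hyw
    have h2 := qd_ge1 (s := ⟪x, y⟫) hT z
    rw [mul_pow]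
    calc z.1 ^ 2 * ⟪x, w⟫ ^ 2 ≤ z.1 ^ 2 * (1 - ⟪x, y⟫ ^ 2) :=
          mul_le_mul_of_nonneg_left h1 (sq_nonneg _)
      _ ≤ 2 * q := h2
      _ = 1 ^ 2 * (2 * q) := by ring
  · exact h1X _ 1 (hone _ _ hN hw) hR
  · exact h1X _ _ (hee _ hN) hER
  · exact h1X _ _ (hee _ hw) hER
  · -- Z
    show |z.1 * ⟪x, e⟫ - T * (z.2 * ⟪y, e⟫)| ≤ _
    refine hsq _ ‖e‖ hE0 hER ?_
    have e1 : z.1 * ⟪x, e⟫ - T * (z.2 * ⟪y, e⟫) = ⟪z.1 • x - (T * z.2) • y, e⟫ := by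
      rw [inner_sub_left, real_inner_smul_left, real_inner_smul_left]
      ring
    have e2 : ‖z.1 • x - (T * z.2) • y‖ ^ 2 =
        z.1 ^ 2 - 2 * T * ⟪x, y⟫ * (z.1 * z.2) + T ^ 2 * z.2 ^ 2 := by
      rw [← real_inner_self_eq_norm_sq]
      simp only [inner_sub_left, inner_sub_right, real_inner_smul_left, real_inner_smul_right]
      rw [real_inner_self_eq_norm_sq x, real_inner_self_eq_norm_sq y, hx, hy, real_inner_comm x y]
      ring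
    have h2 := qd_ge4 (s := ⟪x, y⟫) hT z
    have h3 := abs_real_inner_le_norm (z.1 • x - (T * z.2) • y) e
    rw [e1, ← sq_abs]
    calc |⟪z.1 • x - (T * z.2) • y, e⟫| ^ 2 ≤ (‖z.1 • x - (T * z.2) • y‖ * ‖e‖) ^ 2 :=
          pow_le_pow_left₀ (abs_nonneg _) h3 2
      _ = ‖e‖ ^ 2 * ‖z.1 • x - (T * z.2) • y‖ ^ 2 := by ring
      _ ≤ ‖e‖ ^ 2 * (2 * q) := by
        rw [e2]
        exact mul_le_mul_of_nonneg_left h2 (sq_nonneg _)
  · -- Xi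
    show |kp T * (z.2 * ⟪y, e⟫)| ≤ _
    refine hsq _ ‖e‖ hE0 hER ?_
    have h2 := qd_ge3 (T := T) hs z
    have h3 : ⟪y, e⟫ ^ 2 ≤ ‖e‖ ^ 2 := by
      rw [← sq_abs ⟪y, e⟫]
      exact pow_le_pow_left₀ (abs_nonneg _) (hee _ hy) 2
    have h4 : 0 ≤ (1 - T ^ 2) * z.2 ^ 2 :=
      mul_nonneg (one_sub_sq_pos hT).le (sq_nonneg _)
    rw [mul_pow, mul_pow, kp_sq hT]
    calc (1 - T ^ 2) * (z.2 ^ 2 * ⟪y, e⟫ ^ 2) = ((1 - T ^ 2) * z.2 ^ 2) * ⟪y, e⟫ ^ 2 := by ring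
      _ ≤ ((1 - T ^ 2) * z.2 ^ 2) * ‖e‖ ^ 2 := mul_le_mul_of_nonneg_left h3 h4
      _ = ‖e‖ ^ 2 * ((1 - T ^ 2) * z.2 ^ 2) := by ring
      _ ≤ ‖e‖ ^ 2 * (2 * q) := mul_le_mul_of_nonneg_left h2 (sq_nonneg _)
  · show |⟪e, e⟫| ≤ _
    rw [real_inner_self_eq_norm_sq, abs_of_nonneg (sq_nonneg _)]
    have h5 : ‖e‖ ^ 2 ≤ RE e := by unfold RE; linarith
    have : RE e * 1 ≤ RE e * (1 + 2 * q) := mul_le_mul_of_nonneg_left hX (by linarith)
    linarith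

end

/-- polynomial growth is absorbed by half of the exponent -/
lemma poly_exp_le (K : ℕ) {x : ℝ} (hx : 0 ≤ x) :
    (1 + 2 * x) ^ K * Real.exp (-x) ≤ (4 ^ K * K.factorial * Real.exp (1 / 4)) *
      Real.exp (-(x / 2)) := by
  have h1 := Real.pow_div_factorial_le_exp ((1 + 2 * x) / 4) (by positivity) K
  have hK : (0 : ℝ) < K.factorial := by exact_mod_cast K.factorial_pos
  rw [div_le_iff₀ hK, div_pow, div_le_iff₀ (by positivity)] at h1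
  have e1 : Real.exp ((1 + 2 * x) / 4) = Real.exp (1 / 4) * Real.exp (x / 2) := by
    rw [← Real.exp_add]
    congr 1
    ring
  have e2 : Real.exp (x / 2) * Real.exp (-x) = Real.exp (-(x / 2)) := by
    rw [← Real.exp_add]
    congr 1
    ring
  calc (1 + 2 * x) ^ K * Real.exp (-x)
      ≤ (Real.exp ((1 + 2 * x) / 4) * K.factorial * 4 ^ K) * Real.exp (-x) :=
        mul_le_mul_of_nonneg_right h1 (Real.exp_nonneg _)
    _ = (4 ^ K * K.factorial * Real.exp (1 / 4)) * (Real.exp (x / 2) * Real.exp (-x)) := by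
      rw [e1]; ring
    _ = _ := by rw [e2]

/-- functions of polynomial growth -/
def PG (K : ℕ) (C : ℝ) (h : R8 → ℝ) : Prop :=
  ∀ (v : R8) (R : ℝ), 1 ≤ R → (∀ i, |v i| ≤ R) → |h v| ≤ C * R ^ K

lemma PG.mul {K K' : ℕ} {C C' : ℝ} {h h' : R8 → ℝ} (a : PG K C h) (b : PG K' C' h') :
    PG (K + K') (C * C') (fun v => h v * h' v) := by
  intro v R hR hv
  have h1 := a v R hR hv
  have h2 := b v R hR hv
  rw [abs_mul, pow_add]
  calc |h v| * |h' v| ≤ (C * R ^ K) * (C' * R ^ K') :=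
        mul_le_mul h1 h2 (abs_nonneg _) ((abs_nonneg _).trans h1)
    _ = _ := by ring

lemma PG.coord (i : Fin 8) : PG 1 1 (fun v => v i) := by
  intro v R _ hv
  simpa using hv i

lemma PG.pow {K : ℕ} {C : ℝ} {h : R8 → ℝ} (a : PG K C h) (n : ℕ) :
    PG (K * n) (C ^ n) (fun v => h v ^ n) := by
  intro v R hR hv
  have h1 := a v R hR hv
  rw [abs_pow, pow_mul, ← mul_pow]
  exact pow_le_pow_left₀ (abs_nonneg _) h1 n

lemma PG.zero : PG 0 1 (fun _ => 0) := by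
  intro v R hR hv
  simp

lemma GTerm.pg_g (t : GTerm) : PG (t.a + t.b) 1 t.g := by
  have := ((PG.coord 1).pow t.a).mul ((PG.coord 5).pow t.b)
  simp only [one_pow, mul_one, one_mul] at this
  exact this

lemma GTerm.pg_w (t : GTerm) : PG (t.k + t.d + t.l) 1 t.w := by
  have := (((PG.coord 4).pow t.k).mul ((PG.coord 6).pow t.d)).mul ((PG.coord 7).pow t.l)
  simp only [one_pow, mul_one, one_mul] at this
  exact this

/-- the integrands of the functionals have polynomial growth -/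
lemma GTerm.pg (t : GTerm) : PG (1 + (t.a + t.b) + (t.k + t.d + t.l)) 1 t.f := by
  intro v R hR hv
  have hR0 : 0 ≤ R := by linarith
  have hgw := (t.pg_g.mul t.pg_w) v R hR hv
  have h1 : |t.g v * t.w v| ≤ R ^ (1 + (t.a + t.b) + (t.k + t.d + t.l)) := by
    refine hgw.trans ?_
    rw [one_mul, one_mul]
    exact pow_le_pow_right₀ hR (by omega)
  have h2 : ∀ i, |v i * t.g v * t.w v| ≤ R ^ (1 + (t.a + t.b) + (t.k + t.d + t.l)) := by
    intro i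
    have h3 := (((PG.coord i).mul t.pg_g).mul t.pg_w) v R hR hv
    simpa using h3
  have h0 : |(0 : ℝ)| ≤ R ^ (1 + (t.a + t.b) + (t.k + t.d + t.l)) := by
    rw [abs_zero]; positivity
  rw [one_mul]
  unfold GTerm.f
  split
  · exact h1
  · exact h0
  · exact h0
  · exact h2 2
  · exact h2 3
  · exact h0

lemma GTerm.measurable_g (t : GTerm) : Measurable t.g := by
  have : Measurable (fun v : R8 => v 1 ^ t.a * v 5 ^ t.b) := by fun_prop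
  exact this

lemma GTerm.measurable_w (t : GTerm) : Measurable t.w := by
  have : Measurable (fun v : R8 => v 4 ^ t.k * v 6 ^ t.d * v 7 ^ t.l) := by fun_prop
  exact this

lemma GTerm.measurable_f (t : GTerm) : Measurable t.f := by
  have hg := t.measurable_g
  have hw := t.measurable_w
  have h : t.f = fun v => (match t.fam with
    | 0 => t.g v * t.w v
    | 1 => 0
    | 2 => 0
    | 3 => v 2 * t.g v * t.w v
    | 4 => v 3 * t.g v * t.w v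
    | 5 => 0) := rfl
  rw [h]
  generalize t.fam = fam
  fin_cases fam
  · exact hg.mul hw
  · exact measurable_const
  · exact measurable_const
  · exact ((measurable_pi_apply 2).mul hg).mul hw
  · exact ((measurable_pi_apply 3).mul hg).mul hw
  · exact measurable_const

end Vale.Agent.P224.UG
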