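import Vale.Agent.P224.UG.BddA

/-!
Integrability and uniform bounds of the Gaussian functionals.
-/

namespace Vale.Agent.P224.UG

open MeasureTheory Set Filter Function Vale.Agent.P224.UE
open Vale.Agent.P224.SM2 hiding ker
open scoped Topology RealInnerProductSpace ENNReal

set_option linter.unusedSectionVars false

instance sfinite_rm_bdd : SFinite rm := by
  unfold rm
  infer_instance

/-! ### scaling of the radii -/

lemma map_mul_Ioi {a : ℝ} (ha : 0 < a) :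
    Measure.map (fun x : ℝ => a * x) (volume.restrict (Ioi (0 : ℝ))) =
      ENNReal.ofReal a⁻¹ • volume.restrict (Ioi (0 : ℝ)) := by
  have h1 : (volume.restrict (Ioi (0 : ℝ))) =
      volume.restrict ((fun x : ℝ => a * x) ⁻¹' Ioi (0 : ℝ)) := by
    congr 1
    ext x
    simp [ha]
  rw [h1, ← Measure.restrict_map (by fun_prop) measurableSet_Ioi, Real.map_volume_mul_left ha.ne',
    abs_of_pos (inv_pos.2 ha), Measure.restrict_smul, ← h1]

lemma map_mul_rm {a : ℝ} (ha : 0 < a) :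
    Measure.map (fun z : ℝ × ℝ => (a * z.1, a * z.2)) rm =
      (ENNReal.ofReal a⁻¹ * ENNReal.ofReal a⁻¹) • rm := by
  unfold rm
  have h := Measure.map_prod_map (volume.restrict (Ioi (0 : ℝ))) (volume.restrict (Ioi (0 : ℝ)))
    (f := fun x : ℝ => a * x) (g := fun x : ℝ => a * x) (by fun_prop) (by fun_prop)
  have e1 : Prod.map (fun x : ℝ => a * x) (fun x : ℝ => a * x) =
      fun z : ℝ × ℝ => (a * z.1, a * z.2) := by
    funext z
    rfl
  rw [e1] at h
  rw [← h, map_mul_Ioi ha, Measure.prod_smul_left, Measure.prod_smul_right, smul_smul]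

/-- scaling in integrals over the radii -/
lemma integral_scale_rm {a : ℝ} (ha : 0 < a) {f : ℝ × ℝ → ℝ} (hf : Measurable f) :
    ∫ z, f (a * z.1, a * z.2) ∂rm = (a⁻¹ * a⁻¹) * ∫ z, f z ∂rm := by
  have h1 : ∫ z, f z ∂(Measure.map (fun z : ℝ × ℝ => (a * z.1, a * z.2)) rm) =
      ∫ z, f (a * z.1, a * z.2) ∂rm :=
    integral_map (by fun_prop) hf.aestronglyMeasurable
  rw [← h1, map_mul_rm ha, integral_smul_measure, smul_eq_mul, ENNReal.toReal_mul,
    ENNReal.toReal_ofReal (inv_pos.2 ha).le]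

/-- the weight with half of the exponent -/
noncomputable def hw (m : ℕ) (T s : ℝ) (z : ℝ × ℝ) : ℝ :=
  (z.1 * z.2) ^ m * Real.exp (-(qd T s z / 2))

lemma measurable_hw (m : ℕ) (T s : ℝ) : Measurable (hw m T s) := by
  unfold hw qd
  fun_prop

lemma measurable_gwD (m : ℕ) (T s : ℝ) : Measurable (gw m T s) := by
  unfold gw
  fun_prop

/-- the scaling parameter -/
noncomputable def sc : ℝ := (√2)⁻¹

lemma sc_pos : 0 < sc := by
  unfold sc
  positivity

lemma sc_sq : sc * sc = 1 / 2 := by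
  unfold sc
  rw [← mul_inv, Real.mul_self_sqrt (by norm_num)]
  norm_num

lemma hw_eq (m : ℕ) (T s : ℝ) (z : ℝ × ℝ) :
    hw m T s z = 2 ^ m * gw m T s (sc * z.1, sc * z.2) := by
  have h2 := sc_sq
  rw [gw_eq]
  unfold hw
  have e0 : qd T s (sc * z.1, sc * z.2) = qd T s z / 2 := by
    unfold qd
    have e1 : (sc * z.1) * (sc * z.2) = (sc * sc) * (z.1 * z.2) := by ring
    have e2 : (sc * z.1) ^ 2 = (sc * sc) * z.1 ^ 2 := by ring
    have e3 : (sc * z.2) ^ 2 = (sc * sc) * z.2 ^ 2 := by ring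
    simp only [e1, e2, e3, h2]
    ring
  rw [e0]
  show (z.1 * z.2) ^ m * Real.exp (-(qd T s z / 2)) =
    2 ^ m * (((sc * z.1) * (sc * z.2)) ^ m * Real.exp (-(qd T s z / 2)))
  have e5 : (sc * z.1) * (sc * z.2) = (1 / 2) * (z.1 * z.2) := by
    rw [← h2]; ring
  rw [e5, mul_pow (1 / 2 : ℝ), ← mul_assoc, ← mul_assoc, ← mul_pow]
  norm_num

lemma integral_hw (m : ℕ) (T s : ℝ) : ∫ z, hw m T s z ∂rm = 2 ^ (m + 1) * ∫ z, gw m T s z ∂rm := by
  simp only [hw_eq]
  rw [integral_const_mul, integral_scale_rm sc_pos (measurable_gwD m T s)]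
  have h1 : sc⁻¹ * sc⁻¹ = 2 := by
    rw [← mul_inv, sc_sq]
    norm_num
  rw [h1, pow_succ]
  ring

/-! ### integrability for a fixed level -/

lemma integrable_radial (m : ℕ) {b : ℝ} (hb : 0 < b) :
    Integrable (fun r : ℝ => r ^ m * Real.exp (-b * r ^ 2)) (volume.restrict (Ioi 0)) := by
  have h := integrableOn_rpow_mul_exp_neg_mul_sq hb (s := (m : ℝ))
    (by have : (0 : ℝ) ≤ m := Nat.cast_nonneg m
        linarith)
  refine Integrable.congr h ?_
  filter_upwards [ae_restrict_mem measurableSet_Ioi] with r _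
  rw [Real.rpow_natCast]

lemma integrable_radial2 (m : ℕ) {b : ℝ} (hb : 0 < b) :
    Integrable (fun z : ℝ × ℝ => (z.1 ^ m * Real.exp (-b * z.1 ^ 2)) *
      (z.2 ^ m * Real.exp (-b * z.2 ^ 2))) rm :=
  (integrable_radial m hb).mul_prod (integrable_radial m hb)

lemma rm_pos : ∀ᵐ z ∂rm, 0 < z.1 ∧ 0 < z.2 := by
  unfold rm
  rw [Measure.prod_restrict]
  filter_upwards [ae_restrict_mem (measurableSet_Ioi.prod measurableSet_Ioi)] with z hz
  exact hz

lemma hw_nonneg {m : ℕ} {T s : ℝ} {z : ℝ × ℝ} (hz : 0 < z.1 ∧ 0 < z.2) : 0 ≤ hw m T s z := by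
  unfold hw
  have := mul_pos hz.1 hz.2
  positivity

lemma hw_le {m : ℕ} {T s : ℝ} (hT : T ∈ Ico (0 : ℝ) 1) (hs : s ∈ Icc (-1 : ℝ) 1) {z : ℝ × ℝ}
    (hz : 0 < z.1 ∧ 0 < z.2) :
    hw m T s z ≤ (z.1 ^ m * Real.exp (-((1 - T) / 4) * z.1 ^ 2)) *
      (z.2 ^ m * Real.exp (-((1 - T) / 4) * z.2 ^ 2)) := by
  have h1 := qd_low hT hs z
  have e1 : (z.1 ^ m * Real.exp (-((1 - T) / 4) * z.1 ^ 2)) *
      (z.2 ^ m * Real.exp (-((1 - T) / 4) * z.2 ^ 2)) =
      (z.1 * z.2) ^ m * Real.exp (-((1 - T) * ((z.1 ^ 2 + z.2 ^ 2) / 2) / 2)) := by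
    rw [mul_pow]
    have : Real.exp (-((1 - T) * ((z.1 ^ 2 + z.2 ^ 2) / 2) / 2)) =
        Real.exp (-((1 - T) / 4) * z.1 ^ 2) * Real.exp (-((1 - T) / 4) * z.2 ^ 2) := by
      rw [← Real.exp_add]
      congr 1
      ring
    rw [this]
    ring
  rw [e1]
  unfold hw
  have h2 := mul_pos hz.1 hz.2
  refine mul_le_mul_of_nonneg_left (Real.exp_le_exp.2 ?_) (by positivity)
  linarith

section

variable {X : Type*} [MeasurableSpace X] {E : Type*} [NormedAddCommGroup E]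
  [InnerProductSpace ℝ E] [MeasurableSpace E] [BorelSpace E] [SecondCountableTopology E]
variable {μ : Measure X} [IsFiniteMeasure μ] {m : ℕ} {p n : X → E}

/-- measurability of the cone data -/
lemma measurable_cd8 (h : FV.Pts p n) (e : E) (T : ℝ) :
    Measurable (fun y : (X × X) × (ℝ × ℝ) => cd8 T y.2 (dat p n e y.1)) := by
  have hd : ∀ i, Measurable (fun y : (X × X) × (ℝ × ℝ) => dat p n e y.1 i) := fun i =>
    ((measurable_pi_apply i).comp (measurable_dat h e)).comp measurable_fst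
  have h1 : Measurable (fun y : (X × X) × (ℝ × ℝ) => y.2.1) := by fun_prop
  have h2 : Measurable (fun y : (X × X) × (ℝ × ℝ) => y.2.2) := by fun_prop
  rw [measurable_pi_iff]
  intro i
  fin_cases i
  · exact h2.mul (hd 2)
  · exact h1.mul (hd 1)
  · exact hd 3
  · exact hd 4
  · exact hd 5
  · exact (h1.mul (hd 6)).sub ((h2.mul (hd 7)).const_mul T)
  · exact (h2.mul (hd 7)).const_mul (kp T)
  · exact hd 8

lemma measurable_hw2 (h : FV.Pts p n) (e : E) (m : ℕ) (T : ℝ) :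
    Measurable (fun y : (X × X) × (ℝ × ℝ) => hw m T (dat p n e y.1 0) y.2) := by
  have hd : Measurable (fun y : (X × X) × (ℝ × ℝ) => dat p n e y.1 0) :=
    ((measurable_pi_apply 0).comp (measurable_dat h e)).comp measurable_fst
  have h1 : Measurable (fun y : (X × X) × (ℝ × ℝ) => y.2.1) := by fun_prop
  have h2 : Measurable (fun y : (X × X) × (ℝ × ℝ) => y.2.2) := by fun_prop
  unfold hw qd
  fun_prop

lemma measurable_gw2 (h : FV.Pts p n) (e : E) (m : ℕ) (T : ℝ) :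
    Measurable (fun y : (X × X) × (ℝ × ℝ) => gw m T (dat p n e y.1 0) y.2) := by
  have hd : Measurable (fun y : (X × X) × (ℝ × ℝ) => dat p n e y.1 0) :=
    ((measurable_pi_apply 0).comp (measurable_dat h e)).comp measurable_fst
  have h1 : Measurable (fun y : (X × X) × (ℝ × ℝ) => y.2.1) := by fun_prop
  have h2 : Measurable (fun y : (X × X) × (ℝ × ℝ) => y.2.2) := by fun_prop
  unfold gw
  fun_prop

lemma dat0_mem (h : FV.Pts p n) (e : E) (q : X × X) : dat p n e q 0 ∈ Icc (-1 : ℝ) 1 :=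
  (dat_mem h e q).2

lemma ae_pos2 (ν : Measure (X × X)) [SFinite ν] :
    ∀ᵐ y ∂(ν.prod rm), 0 < y.2.1 ∧ 0 < y.2.2 := by
  have : Measure.QuasiMeasurePreserving Prod.snd (ν.prod rm) rm :=
    Measure.quasiMeasurePreserving_snd
  exact this.ae rm_pos

lemma integrable_hw2 (h : FV.Pts p n) (e : E) (m : ℕ) {T : ℝ} (hT : T ∈ Ico (0 : ℝ) 1) :
    Integrable (fun y : (X × X) × (ℝ × ℝ) => hw m T (dat p n e y.1 0) y.2)
      ((μ.prod μ).prod rm) := by
  have hb : 0 < (1 - T) / 4 := by linarith [hT.2]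
  have h1 : Integrable (fun y : (X × X) × (ℝ × ℝ) => (1 : ℝ) *
      ((y.2.1 ^ m * Real.exp (-((1 - T) / 4) * y.2.1 ^ 2)) *
      (y.2.2 ^ m * Real.exp (-((1 - T) / 4) * y.2.2 ^ 2)))) ((μ.prod μ).prod rm) :=
    (integrable_const (1 : ℝ) (μ := μ.prod μ)).mul_prod (integrable_radial2 m hb)
  refine h1.mono' (measurable_hw2 h e m T).aestronglyMeasurable ?_
  filter_upwards [ae_pos2 (μ.prod μ)] with y hy
  rw [Real.norm_eq_abs, abs_of_nonneg (hw_nonneg hy), one_mul]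
  exact hw_le hT (dat0_mem h e y.1) hy

/-- the pointwise bound of the integrand -/
lemma gw_mul_le (h : FV.Pts p n) (hpn : ∀ x, ⟪p x, n x⟫ = 0) (e : E) (m : ℕ) {T : ℝ}
    (hT : T ∈ Ico (0 : ℝ) 1) {K : ℕ} {C : ℝ} {f : R8 → ℝ} (hf : PG K C f) (hC : 0 ≤ C)
    (y : (X × X) × (ℝ × ℝ)) (hy : 0 < y.2.1 ∧ 0 < y.2.2) :
    |gw m T (dat p n e y.1 0) y.2 * f (cd8 T y.2 (dat p n e y.1))| ≤
      (C * RE e ^ K * (4 ^ K * K.factorial * Real.exp (1 / 4))) *
        hw m T (dat p n e y.1 0) y.2 := by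
  have hq := qd_nonneg hT (dat0_mem h e y.1) y.2
  set q := qd T (dat p n e y.1 0) y.2 with hqd
  have hR := one_le_RE e
  have h1 : |f (cd8 T y.2 (dat p n e y.1))| ≤ C * (RE e * (1 + 2 * q)) ^ K := by
    refine hf _ _ ?_ fun i => ?_
    · have : (1 : ℝ) * 1 ≤ RE e * (1 + 2 * q) :=
        mul_le_mul hR (by linarith) zero_le_one (by linarith)
      linarith
    · exact cd8_le e (h.np _) (h.nn _) (h.np _) (h.nn _) (hpn _) (hpn _) hT y.2 i
  have h2 := poly_exp_le K hq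
  have h3 : 0 ≤ (y.2.1 * y.2.2) ^ m := pow_nonneg (mul_pos hy.1 hy.2).le m
  rw [abs_mul, gw_eq, abs_of_nonneg (mul_nonneg h3 (Real.exp_nonneg _)), ← hqd]
  calc (y.2.1 * y.2.2) ^ m * Real.exp (-q) * |f (cd8 T y.2 (dat p n e y.1))|
      ≤ (y.2.1 * y.2.2) ^ m * Real.exp (-q) * (C * (RE e * (1 + 2 * q)) ^ K) :=
        mul_le_mul_of_nonneg_left h1 (mul_nonneg h3 (Real.exp_nonneg _))
    _ = (C * RE e ^ K) * (y.2.1 * y.2.2) ^ m * ((1 + 2 * q) ^ K * Real.exp (-q)) := by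
      rw [mul_pow (RE e)]; ring
    _ ≤ (C * RE e ^ K) * (y.2.1 * y.2.2) ^ m * ((4 ^ K * K.factorial * Real.exp (1 / 4)) *
        Real.exp (-(q / 2))) := by
      refine mul_le_mul_of_nonneg_left h2 (mul_nonneg (mul_nonneg hC ?_) h3)
      exact pow_nonneg (by linarith) K
    _ = _ := by
      unfold hw
      rw [← hqd]
      ring

/-- integrability of the Gaussian functionals of functions of polynomial growth -/
theorem integrable_EE (h : FV.Pts p n) (hpn : ∀ x, ⟪p x, n x⟫ = 0) (e : E) (m : ℕ) {T : ℝ}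
    (hT : T ∈ Ico (0 : ℝ) 1) {K : ℕ} {C : ℝ} {f : R8 → ℝ} (hf : PG K C f) (hC : 0 ≤ C)
    (hfm : Measurable f) :
    Integrable (fun y : (X × X) × (ℝ × ℝ) => gw m T (dat p n e y.1 0) y.2
      * f (cd8 T y.2 (dat p n e y.1))) ((μ.prod μ).prod rm) := by
  refine ((integrable_hw2 (μ := μ) h e m hT).const_mul
    (C * RE e ^ K * (4 ^ K * K.factorial * Real.exp (1 / 4)))).mono'
    ((measurable_gw2 h e m T).mul (hfm.comp (measurable_cd8 h e T))).aestronglyMeasurable ?_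
  filter_upwards [ae_pos2 (μ.prod μ)] with y hy
  rw [Real.norm_eq_abs]
  exact gw_mul_le h hpn e m hT hf hC y hy

end

end Vale.Agent.P224.UG
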