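import Vale.Agent.P224.UG.Der
import Vale.Agent.P224.UG.Def

/-!
The derivatives of the functionals of the terms over a Gaussian cone.
-/

namespace Vale.Agent.P224.UG

open MeasureTheory Set Filter Function
open Vale.Agent.P224.UE
open scoped Topology RealInnerProductSpace

set_option linter.unusedSectionVars false

/-- the cone data from the unscaled pair data -/
noncomputable def cv8 (T : ℝ) (d : R9) : R8 :=
  ![d 2, d 1, d 3, d 4, d 5, d 6 - T * d 7, kp T * d 7, d 8]

lemma bin0 (b : ℕ) (x y : ℝ) :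
    ∑ j ∈ Finset.range (b + 1), (b.choose j : ℝ) * (x ^ j * y ^ (b - j)) = (x + y) ^ b := by
  rw [add_pow]
  exact Finset.sum_congr rfl fun j _ => by ring

lemma bin1 (b : ℕ) (x y : ℝ) :
    ∑ j ∈ Finset.range (b + 1), (b.choose j : ℝ) * (j * x ^ (j - 1) * y ^ (b - j))
      = b * (x + y) ^ (b - 1) := by
  have h1 : HasDerivAt (fun x : ℝ => ∑ j ∈ Finset.range (b + 1),
      (b.choose j : ℝ) * (x ^ j * y ^ (b - j)))
      (∑ j ∈ Finset.range (b + 1), (b.choose j : ℝ) * (j * x ^ (j - 1) * y ^ (b - j))) x :=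
    HasDerivAt.fun_sum fun j _ => ((hasDerivAt_pow j x).mul_const _).const_mul _
  have h2 : HasDerivAt (fun x : ℝ => ∑ j ∈ Finset.range (b + 1),
      (b.choose j : ℝ) * (x ^ j * y ^ (b - j))) (b * (x + y) ^ (b - 1)) x := by
    simp only [bin0]
    have := ((hasDerivAt_id x).add_const y).fun_pow b
    simpa using this
  exact h1.unique h2

lemma bin2 (b : ℕ) (x y : ℝ) :
    ∑ j ∈ Finset.range (b + 1), (b.choose j : ℝ) * (x ^ j * (((b - j : ℕ) : ℝ) * y ^ (b - j - 1)))
      = b * (x + y) ^ (b - 1) := by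
  have h1 : HasDerivAt (fun y : ℝ => ∑ j ∈ Finset.range (b + 1),
      (b.choose j : ℝ) * (x ^ j * y ^ (b - j)))
      (∑ j ∈ Finset.range (b + 1), (b.choose j : ℝ) * (x ^ j
        * (((b - j : ℕ) : ℝ) * y ^ (b - j - 1)))) y :=
    HasDerivAt.fun_sum fun j _ => ((hasDerivAt_pow (b - j) y).const_mul _).const_mul _
  have h2 : HasDerivAt (fun y : ℝ => ∑ j ∈ Finset.range (b + 1),
      (b.choose j : ℝ) * (x ^ j * y ^ (b - j))) (b * (x + y) ^ (b - 1)) y := by
    simp only [bin0]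
    have := ((hasDerivAt_id y).const_add x).fun_pow b
    simpa using this
  exact h1.unique h2

/-- the three binomial sums together -/
lemma bin_sum (b : ℕ) (x y A B C : ℝ) :
    ∑ j ∈ Finset.range (b + 1), (b.choose j : ℝ) * (A * (x ^ j * y ^ (b - j))
      + B * (j * x ^ (j - 1) * y ^ (b - j)) + C * (x ^ j * (((b - j : ℕ) : ℝ) * y ^ (b - j - 1))))
      = A * (x + y) ^ b + B * (b * (x + y) ^ (b - 1)) + C * (b * (x + y) ^ (b - 1)) := by
  have h0 := bin0 b x y
  have h1 := bin1 b x y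
  have h2 := bin2 b x y
  calc _ = A * ∑ j ∈ Finset.range (b + 1), (b.choose j : ℝ) * (x ^ j * y ^ (b - j))
      + B * ∑ j ∈ Finset.range (b + 1), (b.choose j : ℝ) * (j * x ^ (j - 1) * y ^ (b - j))
      + C * ∑ j ∈ Finset.range (b + 1), (b.choose j : ℝ)
        * (x ^ j * (((b - j : ℕ) : ℝ) * y ^ (b - j - 1))) := by
        rw [Finset.mul_sum, Finset.mul_sum, Finset.mul_sum, ← Finset.sum_add_distrib,
          ← Finset.sum_add_distrib]
        exact Finset.sum_congr rfl fun j _ => by ring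
    _ = _ := by rw [h0, h1, h2]

section

variable {X : Type*} [MeasurableSpace X] {E : Type*} [NormedAddCommGroup E]
  [InnerProductSpace ℝ E] [MeasurableSpace E] [BorelSpace E] [SecondCountableTopology E]
  {γ : Measure X} {n : ℕ} {p ν : X → E}

lemma KI_congrB {e : E} {T : ℝ} {f g : R9 → ℝ} (h : ∀ q, f (dat p ν e q) = g (dat p ν e q)) :
    KI γ p ν e T f = KI γ p ν e T g := by
  unfold KI
  simp only [h]

lemma GC.KI_sum (h : GC γ n p ν) {e : E} {T : ℝ} (hT : |T| < 1) (s : Finset ℕ) (H : ℕ → R9 → ℝ)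
    (c : ℕ → ℝ) (hH : ∀ j, SD p ν e (H j)) :
    KI γ p ν e T (fun d => ∑ j ∈ s, c j * H j d) = ∑ j ∈ s, c j * KI γ p ν e T (H j) := by
  have h1 : ∀ j, Integrable (fun q => c j * (Real.exp (T * dat p ν e q 0) * H j (dat p ν e q)))
      (γ.prod γ) := fun j => (h.intKI (hH j) hT).const_mul _
  unfold KI
  simp only [← integral_const_mul]
  rw [← integral_finsetSum s fun j _ => h1 j]
  refine integral_congr_ae (Eventually.of_forall fun q => ?_)
  simp only [Finset.mul_sum]
  exact Finset.sum_congr rfl fun j _ => by ring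

/-- the derivative of a finite sum with coefficients depending on `T` -/
lemma GC.hasDerivAt_sum (h : GC γ n p ν) {e : E} {T : ℝ} (hT : T ∈ Ico (0 : ℝ) 1) (s : Finset ℕ)
    {H D : ℕ → R9 → ℝ} (hH : ∀ j, SD p ν e (H j)) (hD : ∀ j, SD p ν e (D j))
    (hd : ∀ j, HasDerivAt (fun T => kp T ^ n * KI γ p ν e T (H j))
      (kp T ^ n / (1 - T ^ 2) * KI γ p ν e T (D j)) T)
    {c : ℕ → ℝ → ℝ} {c' : ℕ → ℝ} (hc : ∀ j, HasDerivAt (c j) (c' j) T)
    {f : ℝ → R9 → ℝ} {f' : R9 → ℝ}
    (hf : ∀ T q, f T (dat p ν e q) = ∑ j ∈ s, c j T * H j (dat p ν e q))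
    (hf' : ∀ q, f' (dat p ν e q)
      = ∑ j ∈ s, (c' j * H j (dat p ν e q) + c j T / (1 - T ^ 2) * D j (dat p ν e q))) :
    HasDerivAt (fun T => kp T ^ n * KI γ p ν e T (f T)) (kp T ^ n * KI γ p ν e T f') T := by
  have hT' : |T| < 1 := by rw [abs_of_nonneg hT.1]; exact hT.2
  have h0 : ∀ T : ℝ, |T| < 1 → kp T ^ n * KI γ p ν e T (f T)
      = ∑ j ∈ s, c j T * (kp T ^ n * KI γ p ν e T (H j)) := by
    intro T hT
    rw [KI_congrB (g := fun d => ∑ j ∈ s, c j T * H j d) (hf T), h.KI_sum hT s H _ hH,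
      Finset.mul_sum]
    exact Finset.sum_congr rfl fun j _ => by ring
  have h1 : HasDerivAt (fun T => ∑ j ∈ s, c j T * (kp T ^ n * KI γ p ν e T (H j)))
      (∑ j ∈ s, (c' j * (kp T ^ n * KI γ p ν e T (H j))
        + c j T * (kp T ^ n / (1 - T ^ 2) * KI γ p ν e T (D j)))) T :=
    HasDerivAt.fun_sum fun j _ => (hc j).fun_mul (hd j)
  have h2 : (fun T => kp T ^ n * KI γ p ν e T (f T)) =ᶠ[𝓝 T]
      fun T => ∑ j ∈ s, c j T * (kp T ^ n * KI γ p ν e T (H j)) := by
    have : ∀ᶠ S in 𝓝 T, |S| < 1 := (continuous_abs.tendsto T).eventually (gt_mem_nhds hT')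
    filter_upwards [this] with S hS using h0 S hS
  refine (h1.congr_of_eventuallyEq h2).congr_deriv ?_
  have h3 : KI γ p ν e T f' = ∑ j ∈ s, c' j * KI γ p ν e T (H j)
      + ∑ j ∈ s, c j T / (1 - T ^ 2) * KI γ p ν e T (D j) := by
    rw [← h.KI_sum hT' s H c' hH, ← h.KI_sum hT' s D (fun j => c j T / (1 - T ^ 2)) hD,
      ← h.KI_add _ _ hT']
    · refine KI_congrB fun q => ?_
      rw [hf', Finset.sum_add_distrib]
    · refine ⟨?_, ?_⟩
      · exact Finset.measurable_fun_sum _ fun j _ => ((hH j).const_mul _).1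
      · intro ε hε
        choose C hC using fun j => (((hH j).const_mul (c' j)).2 ε hε)
        refine ⟨∑ j ∈ s, C j, fun q => ?_⟩
        rw [Finset.sum_mul]
        exact (Finset.abs_sum_le_sum_abs _ _).trans (Finset.sum_le_sum fun j _ => hC j q)
    · refine ⟨?_, ?_⟩
      · exact Finset.measurable_fun_sum _ fun j _ => ((hD j).const_mul _).1
      · intro ε hε
        choose C hC using fun j => (((hD j).const_mul (c j T / (1 - T ^ 2))).2 ε hε)
        refine ⟨∑ j ∈ s, C j, fun q => ?_⟩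
        rw [Finset.sum_mul]
        exact (Finset.abs_sum_le_sum_abs _ _).trans (Finset.sum_le_sum fun j _ => hC j q)
  rw [h3, mul_add, Finset.mul_sum, Finset.mul_sum, ← Finset.sum_add_distrib]
  exact Finset.sum_congr rfl fun j _ => by ring

end

end Vale.Agent.P224.UG
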