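import Vale.Agent.P224.UG.Term

/-!
The functional over a Gaussian cone as an integral over pairs of points and pairs of radii.
-/

namespace Vale.Agent.P224.UG

open MeasureTheory Set Filter Function
open Vale.Agent.P224.UE
open scoped Topology RealInnerProductSpace ENNReal

set_option linter.unusedSectionVars false

section

variable {α β : Type*} [MeasurableSpace α] [MeasurableSpace β]

/-- The exchange of the two middle components preserves product measures. -/
lemma mp_mid (μ μ' : Measure α) (ν ν' : Measure β) [SFinite μ] [SFinite μ'] [SFinite ν]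
    [SFinite ν'] :
    MeasurePreserving (fun q : (α × β) × (α × β) => ((q.1.1, q.2.1), (q.1.2, q.2.2)))
      ((μ.prod ν).prod (μ'.prod ν')) ((μ.prod μ').prod (ν.prod ν')) := by
  have h1 := measurePreserving_prodAssoc μ ν (μ'.prod ν')
  have h2 := (measurePreserving_prodAssoc ν μ' ν').symm
  have h3 : MeasurePreserving (Prod.map Prod.swap (id : β → β)) ((ν.prod μ').prod ν')
      ((μ'.prod ν).prod ν') :=
    (Measure.measurePreserving_swap (μ := ν) (ν := μ')).prod (MeasurePreserving.id ν')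
  have h4 := measurePreserving_prodAssoc μ' ν ν'
  have h5 := h4.comp (h3.comp h2)
  have h6 := (MeasurePreserving.id μ).prod h5
  have h7 := (measurePreserving_prodAssoc μ μ' (ν.prod ν')).symm
  exact h7.comp (h6.comp h1)

end

section

variable {X : Type*} [MeasurableSpace X] {E : Type*} [NormedAddCommGroup E]
  [InnerProductSpace ℝ E] [MeasurableSpace E] [BorelSpace E] [SecondCountableTopology E]
  {μ : Measure X} [IsFiniteMeasure μ] {m : ℕ} {p n : X → E}

/-- the radial densities -/
noncomputable def den2 (m : ℕ) (z : ℝ × ℝ) : ℝ :=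
  (z.1 ^ m * Real.exp (-(z.1 ^ 2 / 2))) * (z.2 ^ m * Real.exp (-(z.2 ^ 2 / 2)))

lemma ae_rmB : ∀ᵐ z ∂rm, 0 < z.1 ∧ 0 < z.2 := by
  have h : ∀ᵐ z ∂rm, z ∈ Ioi (0 : ℝ) ×ˢ Ioi (0 : ℝ) := by
    unfold rm
    rw [Measure.prod_restrict]
    exact ae_restrict_mem (measurableSet_Ioi.prod measurableSet_Ioi)
  filter_upwards [h] with z hz
  exact ⟨hz.1, hz.2⟩

lemma rad_prod (m : ℕ) : (rad m).prod (rad m) = rm.withDensity (fun z =>
    ENNReal.ofReal (z.1 ^ m * Real.exp (-(z.1 ^ 2 / 2)))
      * ENNReal.ofReal (z.2 ^ m * Real.exp (-(z.2 ^ 2 / 2)))) := by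
  unfold rad rm
  rw [prod_withDensity (measurable_den m) (measurable_den m)]

lemma measurable_den3 (m : ℕ) : Measurable (fun z : ℝ × ℝ =>
    ENNReal.ofReal (z.1 ^ m * Real.exp (-(z.1 ^ 2 / 2)))
      * ENNReal.ofReal (z.2 ^ m * Real.exp (-(z.2 ^ 2 / 2)))) :=
  ((measurable_den m).comp measurable_fst).mul ((measurable_den m).comp measurable_snd)

lemma measurable_den4 {Y : Type*} [MeasurableSpace Y] (m : ℕ) :
    Measurable (fun y : Y × (ℝ × ℝ) =>
    ENNReal.ofReal (y.2.1 ^ m * Real.exp (-(y.2.1 ^ 2 / 2)))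
      * ENNReal.ofReal (y.2.2 ^ m * Real.exp (-(y.2.2 ^ 2 / 2)))) :=
  (measurable_den3 m).comp measurable_snd

instance : SFinite rm := by
  unfold rm
  infer_instance

/-- The integral over pairs of points of the cone. -/
lemma integral_pair (G : (X × ℝ) × (X × ℝ) → ℝ) (hG : Measurable G) :
    ∫ q, G q ∂((gam m μ).prod (gam m μ))
      = ∫ y : (X × X) × (ℝ × ℝ), den2 m y.2 * G ((y.1.1, y.2.1), (y.1.2, y.2.2))
        ∂((μ.prod μ).prod rm) := by
  have h1 := mp_mid μ μ (rad m) (rad m)
  set G' : (X × X) × (ℝ × ℝ) → ℝ := fun y => G ((y.1.1, y.2.1), (y.1.2, y.2.2)) with hG'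
  have hm' : Measurable G' := by
    refine hG.comp ?_
    fun_prop
  have h2 : ∫ q, G q ∂((gam m μ).prod (gam m μ))
      = ∫ y, G' y ∂((μ.prod μ).prod ((rad m).prod (rad m))) := by
    rw [← h1.map_eq, integral_map h1.measurable.aemeasurable hm'.aestronglyMeasurable]
    rfl
  rw [h2, rad_prod, prod_withDensity_right (measurable_den3 m),
    integral_withDensity_eq_integral_toReal_smul
      (measurable_den4 m)
      (Eventually.of_forall fun y => ENNReal.mul_lt_top ENNReal.ofReal_lt_top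
        ENNReal.ofReal_lt_top)]
  refine integral_congr_ae ?_
  have h3 : ∀ᵐ y ∂((μ.prod μ).prod rm), 0 < y.2.1 ∧ 0 < y.2.2 :=
    Measure.quasiMeasurePreserving_snd.ae (p := fun z : ℝ × ℝ => 0 < z.1 ∧ 0 < z.2) ae_rmB
  filter_upwards [h3] with y hy
  rw [ENNReal.toReal_mul, ENNReal.toReal_ofReal (den_nonneg m hy.1),
    ENNReal.toReal_ofReal (den_nonneg m hy.2), smul_eq_mul]
  rfl

lemma dat_cone (p n : X → E) (e : E) (y : X × X) (z : ℝ × ℝ) :
    dat (cp p) (cn n) e ((y.1, z.1), (y.2, z.2))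
      = ![z.1 * z.2 * dat p n e y 0, z.1 * dat p n e y 1, z.2 * dat p n e y 2, dat p n e y 3,
        dat p n e y 4, dat p n e y 5, z.1 * dat p n e y 6, z.2 * dat p n e y 7,
        dat p n e y 8] := by
  unfold dat dv cp cn
  ext i
  fin_cases i
  · simp [real_inner_smul_left, real_inner_smul_right]
    ring
  · simp [real_inner_smul_left]
  · simp [real_inner_smul_right]
  · simp
  · simp
  · simp
  · simp [real_inner_smul_left]
  · simp [real_inner_smul_left]
  · simp

lemma c8_cone (p n : X → E) (e : E) (T : ℝ) (y : X × X) (z : ℝ × ℝ) :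
    c8 T (dat (cp p) (cn n) e ((y.1, z.1), (y.2, z.2))) = cd8 T z (dat p n e y) := by
  rw [dat_cone]
  unfold c8 cd8
  ext i
  fin_cases i <;> simp

lemma gw_eqB (m : ℕ) (T s : ℝ) (z : ℝ × ℝ) :
    gw m T s z = den2 m z * Real.exp (T * (z.1 * z.2 * s)) := by
  unfold gw den2
  have h1 : -(z.1 ^ 2 + z.2 ^ 2) / 2 + T * (z.1 * z.2) * s
      = -(z.1 ^ 2 / 2) + -(z.2 ^ 2 / 2) + T * (z.1 * z.2 * s) := by ring
  rw [h1, Real.exp_add, Real.exp_add, mul_pow]
  ring

/-- **The functional on a cone in terms of pairs of points and pairs of radii.** -/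
theorem EK_eq (h : GC (gam m μ) (m + 1) (cp p) (cn n)) (e : E) (T : ℝ) {f : R8 → ℝ}
    (hf : Measurable f) :
    EK (gam m μ) (m + 1) (cp p) (cn n) e T f = EE μ p n e m T f := by
  unfold EK EE KI
  congr 1
  have hmd := h.measurable_dat e
  have hc : Measurable (c8 T) := by
    rw [measurable_pi_iff]
    intro i
    fin_cases i <;> · unfold c8; simp; fun_prop
  rw [integral_pair]
  · refine integral_congr_ae (Eventually.of_forall fun y => ?_)
    simp only
    rw [c8_cone, gw_eqB, dat_cone]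
    simp only [Matrix.cons_val_zero]
    ring
  · exact (Real.measurable_exp.comp (((measurable_pi_apply 0).comp hmd).const_mul T)).mul
      (hf.comp (hc.comp hmd))

end

end Vale.Agent.P224.UG
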