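import Vale.Agent.P224.UG.Rows

/-!
The derivatives with respect to `T` of the normalised pair integrals over a Gaussian cone.
-/

namespace Vale.Agent.P224.UG

open MeasureTheory Set Filter Function
open Vale.Agent.P224.UE
open scoped Topology RealInnerProductSpace

set_option linter.unusedSectionVars false

/-- derivative integrand of the functional `G` -/
def dA (i j l k : ℕ) (T : ℝ) (d : R9) : ℝ :=
  T * (l * mG i j l k d) + (d 7 * mX i j l k d
    - d 2 * (T * (d 2 * mG i j l k d) + d 3 * mQ i j l k d + d 4 * mX i j l k d))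

/-- derivative integrand of the functional `c G` -/
def dB (i j l k : ℕ) (T : ℝ) (d : R9) : ℝ :=
  T * (l * (d 3 * mG i j l k d)) + (d 3 * (d 7 * mX i j l k d)
    - d 2 * (mQ i j l k d + d 5 * mX i j l k d - d 1 * mG i j l k d))

/-- derivative integrand of the functional `n_x G` -/
def dC (i j l k : ℕ) (T : ℝ) (d : R9) : ℝ :=
  T * (l * (d 4 * mG i j l k d)) + (d 4 * (d 7 * mX i j l k d)
    - d 2 * (d 5 * mQ i j l k d + d 8 * mX i j l k d - (d 6 - T * d 7) * mG i j l k d))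

section

variable {X : Type*} [MeasurableSpace X] {E : Type*} [NormedAddCommGroup E]
  [InnerProductSpace ℝ E] [MeasurableSpace E] [BorelSpace E] [SecondCountableTopology E]
  {γ : Measure X} {n : ℕ} {p ν : X → E}

lemma GC.sd_dA (h : GC γ n p ν) (e : E) (i j l k : ℕ) (T : ℝ) : SD p ν e (dA i j l k T) := by
  have g := h.sd_mG e i j l k
  have gq := h.sd_mQ e i j l k
  have gx := h.sd_mX e i j l k
  exact ((g.const_mul l).const_mul T).add (((h.sd e 7).mul gx).sub ((h.sd e 2).mul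
    (((((h.sd e 2).mul g).const_mul T).add ((h.sd e 3).mul gq)).add ((h.sd e 4).mul gx))))

lemma GC.sd_dB (h : GC γ n p ν) (e : E) (i j l k : ℕ) (T : ℝ) : SD p ν e (dB i j l k T) := by
  have g := h.sd_mG e i j l k
  have gq := h.sd_mQ e i j l k
  have gx := h.sd_mX e i j l k
  exact ((((h.sd e 3).mul g).const_mul l).const_mul T).add
    (((h.sd e 3).mul ((h.sd e 7).mul gx)).sub ((h.sd e 2).mul
      ((gq.add ((h.sd e 5).mul gx)).sub ((h.sd e 1).mul g))))

lemma GC.sd_dC (h : GC γ n p ν) (e : E) (i j l k : ℕ) (T : ℝ) : SD p ν e (dC i j l k T) := by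
  have g := h.sd_mG e i j l k
  have gq := h.sd_mQ e i j l k
  have gx := h.sd_mX e i j l k
  exact ((((h.sd e 4).mul g).const_mul l).const_mul T).add
    (((h.sd e 4).mul ((h.sd e 7).mul gx)).sub ((h.sd e 2).mul
      ((((h.sd e 5).mul gq).add ((h.sd e 8).mul gx)).sub
        (((h.sd e 6).sub ((h.sd e 7).const_mul T)).mul g))))

/-- combination of a row with the radial row -/
lemma GC.comb (h : GC γ n p ν) {e : E} {T : ℝ} (hT : |T| < 1) {f g : X × X → ℝ} {H D : R9 → ℝ}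
    (hH : SD p ν e H) (hD : SD p ν e D) (hf : SG p f) (hg : SG p g) {a : ℝ}
    (hf0 : ∫ q, Real.exp (T * ⟪p q.1, p q.2⟫) * f q ∂(γ.prod γ) = 0)
    (hg0 : ∫ q, Real.exp (T * ⟪p q.1, p q.2⟫) * g q ∂(γ.prod γ) = 0)
    (hfg : ∀ q, (D (dat p ν e q) + a * H (dat p ν e q))
      - (1 - T ^ 2) * (dat p ν e q 0 * H (dat p ν e q)) = f q + T * g q) :
    (1 - T ^ 2) * KI γ p ν e T (fun d => d 0 * H d) = KI γ p ν e T D + a * KI γ p ν e T H := by
  have h1 : ∫ q, (Real.exp (T * ⟪p q.1, p q.2⟫) * f q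
      + T * (Real.exp (T * ⟪p q.1, p q.2⟫) * g q)) ∂(γ.prod γ) = 0 := by
    rw [integral_add (h.integrable hf hT) ((h.integrable hg hT).const_mul T), hf0,
      integral_const_mul, hg0, mul_zero, add_zero]
  have h2 : KI γ p ν e T (fun d => (D d + a * H d) - (1 - T ^ 2) * (d 0 * H d)) = 0 := by
    rw [← h1]
    unfold KI
    refine integral_congr_ae (Eventually.of_forall fun q => ?_)
    have h3 := hfg q
    have h4 : dat p ν e q 0 = ⟪p q.1, p q.2⟫ := rfl
    simp only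
    rw [h3, ← h4]
    ring
  have h0 := h.sd e 0
  rw [h.KI_sub (hD.add (hH.const_mul a)) ((h0.mul hH).const_mul (1 - T ^ 2)) hT,
    h.KI_add hD (hH.const_mul a) hT, KI_const_mul, KI_const_mul] at h2
  linarith

/-- the derivative of the normalised integral -/
lemma GC.hasDerivAt_norm (h : GC γ n p ν) {e : E} {T : ℝ} (hT : T ∈ Ico (0 : ℝ) 1)
    {H D : R9 → ℝ} (hH : SD p ν e H)
    (hh : (1 - T ^ 2) * KI γ p ν e T (fun d => d 0 * H d)
      = KI γ p ν e T D + (T * n) * KI γ p ν e T H) :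
    HasDerivAt (fun T => kp T ^ n * KI γ p ν e T H)
      (kp T ^ n / (1 - T ^ 2) * KI γ p ν e T D) T := by
  have hT' : |T| < 1 := by rw [abs_of_nonneg hT.1]; exact hT.2
  have h1 : 0 < 1 - T ^ 2 := one_sub_sq_pos hT
  have h2 := (hasDerivAt_kp_pow hT n).fun_mul (h.hasDerivAt_KI hH hT')
  refine h2.congr_deriv ?_
  have h3 : KI γ p ν e T (fun d => d 0 * H d)
      = (KI γ p ν e T D + (T * n) * KI γ p ν e T H) / (1 - T ^ 2) := by
    rw [← hh]
    field_simp
  rw [h3]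
  field_simp
  ring

/-- derivative of the functional `G` -/
theorem GC.derA (h : GC γ n p ν) (e : E) (i j l k : ℕ) {T : ℝ} (hT : T ∈ Ico (0 : ℝ) 1) :
    HasDerivAt (fun T => kp T ^ n * KI γ p ν e T (mG i j l k))
      (kp T ^ n / (1 - T ^ 2) * KI γ p ν e T (dA i j l k T)) T := by
  have hT' : |T| < 1 := by rw [abs_of_nonneg hT.1]; exact hT.2
  have g := h.sd_mG e i j l k
  have gq := h.sd_mQ e i j l k
  have gx := h.sd_mX e i j l k
  have hS : SG p (fun q : X × X => ⟪p q.1, p q.2⟫) := h.sg_dat e 0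
  refine h.hasDerivAt_norm hT g ?_
  refine h.comb hT' g (h.sd_dA e i j l k T) ?_ ?_ (h.rowB1 e i j l k hT')
    (h.rowR e i l k 0 0 j hT') fun q => ?_
  · exact ((((h.sg_B.mul g).const_mul T).add (((h.sg_dat e 7).mul gx).sub ((h.sg_dat e 2).mul
      (((((h.sg_dat e 2).mul g).const_mul T).add ((h.sg_dat e 3).mul gq)).add
        ((h.sg_dat e 4).mul gx))))).sub ((h.sg_dat e 0).mul g))
  · exact ((((SG.const (n : ℝ)).add (hS.const_mul T)).add (SG.const (l : ℝ))).sub h.sg_B).mul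
      ((((h.sg_dat e 3).pow 0).mul ((h.sg_dat e 4).pow 0)).mul g)
  · have h4 : dat p ν e q 0 = ⟪p q.1, p q.2⟫ := rfl
    simp only [dA, ← h4]
    ring

/-- derivative of the functional `c G` -/
theorem GC.derB (h : GC γ n p ν) (e : E) (i j l k : ℕ) {T : ℝ} (hT : T ∈ Ico (0 : ℝ) 1) :
    HasDerivAt (fun T => kp T ^ n * KI γ p ν e T (fun d => d 3 * mG i j l k d))
      (kp T ^ n / (1 - T ^ 2) * KI γ p ν e T (dB i j l k T)) T := by
  have hT' : |T| < 1 := by rw [abs_of_nonneg hT.1]; exact hT.2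
  have g := h.sd_mG e i j l k
  have gq := h.sd_mQ e i j l k
  have gx := h.sd_mX e i j l k
  have hS : SG p (fun q : X × X => ⟪p q.1, p q.2⟫) := h.sg_dat e 0
  refine h.hasDerivAt_norm hT ((h.sd e 3).mul g) ?_
  refine h.comb hT' ((h.sd e 3).mul g) (h.sd_dB e i j l k T) ?_ ?_ (h.rowB2 e i j l k hT')
    (h.rowR e i l k 1 0 j hT') fun q => ?_
  · exact (((h.sg_B.mul ((h.sg_dat e 3).mul g)).const_mul T).add
      (((h.sg_dat e 3).mul ((h.sg_dat e 7).mul gx)).sub ((h.sg_dat e 2).mul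
      ((SG.add gq ((h.sg_dat e 5).mul gx)).sub ((h.sg_dat e 1).mul g))))).sub
      ((h.sg_dat e 0).mul ((h.sg_dat e 3).mul g))
  · exact ((((SG.const (n : ℝ)).add (hS.const_mul T)).add (SG.const (l : ℝ))).sub h.sg_B).mul
      ((((h.sg_dat e 3).pow 1).mul ((h.sg_dat e 4).pow 0)).mul g)
  · have h4 : dat p ν e q 0 = ⟪p q.1, p q.2⟫ := rfl
    simp only [dB, ← h4]
    ring

/-- derivative of the functional `n_x G` -/
theorem GC.derC (h : GC γ n p ν) (e : E) (i j l k : ℕ) {T : ℝ} (hT : T ∈ Ico (0 : ℝ) 1) :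
    HasDerivAt (fun T => kp T ^ n * KI γ p ν e T (fun d => d 4 * mG i j l k d))
      (kp T ^ n / (1 - T ^ 2) * KI γ p ν e T (dC i j l k T)) T := by
  have hT' : |T| < 1 := by rw [abs_of_nonneg hT.1]; exact hT.2
  have g := h.sd_mG e i j l k
  have gq := h.sd_mQ e i j l k
  have gx := h.sd_mX e i j l k
  have hS : SG p (fun q : X × X => ⟪p q.1, p q.2⟫) := h.sg_dat e 0
  refine h.hasDerivAt_norm hT ((h.sd e 4).mul g) ?_
  refine h.comb hT' ((h.sd e 4).mul g) (h.sd_dC e i j l k T) ?_ ?_ (h.rowB3 e i j l k hT')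
    (h.rowR e i l k 0 1 j hT') fun q => ?_
  · exact (((h.sg_B.mul ((h.sg_dat e 4).mul g)).const_mul T).add
      (((h.sg_dat e 4).mul ((h.sg_dat e 7).mul gx)).sub ((h.sg_dat e 2).mul
      ((((h.sg_dat e 5).mul gq).add ((h.sg_dat e 8).mul gx)).sub
        (((h.sg_dat e 6).sub ((h.sg_dat e 7).const_mul T)).mul g))))).sub
      ((h.sg_dat e 0).mul ((h.sg_dat e 4).mul g))
  · exact ((((SG.const (n : ℝ)).add (hS.const_mul T)).add (SG.const (l : ℝ))).sub h.sg_B).mul
      ((((h.sg_dat e 3).pow 0).mul ((h.sg_dat e 4).pow 1)).mul g)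
  · have h4 : dat p ν e q 0 = ⟪p q.1, p q.2⟫ := rfl
    simp only [dC, ← h4]
    ring

/-- multiplication of a functional by a function of `T` -/
lemma GC.hasDerivAt_phi (h : GC γ n p ν) {e : E} {T : ℝ} (hT : T ∈ Ico (0 : ℝ) 1)
    {H D : R9 → ℝ} (hH : SD p ν e H) (hD : SD p ν e D)
    (hd : HasDerivAt (fun T => kp T ^ n * KI γ p ν e T H)
      (kp T ^ n / (1 - T ^ 2) * KI γ p ν e T D) T) {φ : ℝ → ℝ} {φ' : ℝ}
    (hφ : HasDerivAt φ φ' T) :
    HasDerivAt (fun T => φ T * (kp T ^ n * KI γ p ν e T H))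
      (kp T ^ n / (1 - T ^ 2) * KI γ p ν e T
        (fun d => (1 - T ^ 2) * φ' * H d + φ T * D d)) T := by
  have hT' : |T| < 1 := by rw [abs_of_nonneg hT.1]; exact hT.2
  have h1 : 0 < 1 - T ^ 2 := one_sub_sq_pos hT
  refine (hφ.fun_mul hd).congr_deriv ?_
  rw [h.KI_add (hH.const_mul _) (hD.const_mul _) hT', KI_const_mul, KI_const_mul]
  field_simp

end

end Vale.Agent.P224.UG
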