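import Vale.Agent.P224.UE.Sing4
import Vale.Agent.P224.UE.Law
import Vale.Agent.P224.UE.LimE

/-!
Limits of the one point integrals of the kernels `(1 - T s) ^ (-(m + j))`.
-/

namespace Vale.Agent.P224.UG

open MeasureTheory Set Filter Function
open Vale.Agent.P224.UE
open Vale.Agent.P224.SM2 hiding ker
open scoped Topology RealInnerProductSpace

set_option linter.unusedSectionVars false

/-- the kernel of power `m + j`, normalized -/
noncomputable def cj (m j : ℕ) (T s : ℝ) : ℝ := kp T ^ (m + 2 * j) * SM2.ker T (m + j) s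

/-- the constants of the normalized kernels -/
noncomputable def cc (m : ℕ) : ℕ → ℝ
  | 0 => 1
  | (j + 1) => ((m + 2 * j : ℕ) : ℝ) / ((m + j : ℕ) : ℝ) * cc m j

lemma cc_nonneg (m j : ℕ) : 0 ≤ cc m j := by
  induction j with
  | zero => exact zero_le_one
  | succ j ih => exact mul_nonneg (by positivity) ih

lemma one_le_cc {m : ℕ} (hm : 0 < m) (j : ℕ) : 1 ≤ cc m j := by
  induction j with
  | zero => exact le_rfl
  | succ j ih =>
    have h1 : (1 : ℝ) ≤ ((m + 2 * j : ℕ) : ℝ) / ((m + j : ℕ) : ℝ) := by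
      have h0 : (0 : ℝ) < ((m + j : ℕ) : ℝ) := by
        have : 0 < m + j := by omega
        exact_mod_cast this
      rw [one_le_div h0]
      have : m + j ≤ m + 2 * j := by omega
      exact_mod_cast this
    change 1 ≤ ((m + 2 * j : ℕ) : ℝ) / ((m + j : ℕ) : ℝ) * cc m j
    nlinarith

lemma cj_zero (m : ℕ) : cj m 0 = cv m := by
  funext T s
  simp [cj, cv]

lemma cj_nonneg {T s : ℝ} (hT : T ∈ Ico (0 : ℝ) 1) (hs : s ∈ Icc (-1 : ℝ) 1) (m j : ℕ) :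
    0 ≤ cj m j T s :=
  mul_nonneg (pow_nonneg (kp_pos hT).le _) (ker_nonneg hT hs _)

lemma measurable_cj (m j : ℕ) (T : ℝ) : Measurable (cj m j T) := by
  have := measurable_ker T (m + j)
  unfold cj
  fun_prop

lemma kp_nonneg (T : ℝ) : 0 ≤ kp T := Real.sqrt_nonneg _

lemma ker_zero (q : ℕ) (s : ℝ) : SM2.ker 0 q s = 1 := by simp [SM2.ker]

lemma cj_at_zero (m j : ℕ) (s : ℝ) : cj m j 0 s = 1 := by
  unfold cj
  rw [kp_zero, ker_zero]
  simp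

lemma ker_mul {T s : ℝ} (hT : T ∈ Ico (0 : ℝ) 1) (hs : s ∈ Icc (-1 : ℝ) 1) (q : ℕ) :
    SM2.ker T q s = (1 - T * s) * SM2.ker T (q + 1) s := by
  have h := (one_sub_pos' hT hs.2).ne'
  unfold SM2.ker
  rw [pow_succ]
  field_simp

/-- off the diagonal the normalized kernel is small -/
lemma cj_le {T s δ : ℝ} (hT : T ∈ Ico (0 : ℝ) 1) (hδ : 0 < δ) (hδ1 : δ ≤ 1) (hs : s ≤ 1 - δ)
    (m j : ℕ) : cj m j T s ≤ kp T ^ (m + 2 * j) * (δ ^ (m + j))⁻¹ := by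
  refine mul_le_mul_of_nonneg_left ?_ (pow_nonneg (kp_nonneg _) _)
  unfold SM2.ker
  have h1 : δ ≤ 1 - T * s := by
    have := mul_le_mul_of_nonneg_left hs hT.1
    nlinarith [mul_nonneg (sub_nonneg.2 hT.2.le) (sub_nonneg.2 hδ1)]
  exact inv_anti₀ (pow_pos hδ _) (pow_le_pow_left₀ hδ.le h1 _)

/-- `1 - s` against `1 - T s` -/
lemma one_sub_le_two {T s : ℝ} (hT : T ∈ Ico (0 : ℝ) 1) (hs : s ∈ Icc (-1 : ℝ) 1) :
    1 - s ≤ 2 * (1 - T * s) := by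
  rcases le_total 0 s with h | h
  · have := mul_le_mul_of_nonneg_right hT.2.le h
    have h2 := mul_nonneg hT.1 h
    have h3 := hs.2
    nlinarith
  · have := mul_nonneg hT.1 (neg_nonneg.2 h)
    have h3 := hs.1
    nlinarith

section

variable {X : Type*} [MeasurableSpace X] {E : Type*} [NormedAddCommGroup E]
  [InnerProductSpace ℝ E] [MeasurableSpace E] [BorelSpace E] [SecondCountableTopology E]
  {μ : Measure X} [IsFiniteMeasure μ] {m : ℕ} {p n : X → E}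

lemma pts_s (h : FV.Pts p n) (x z : X) : ⟪p x, p z⟫ ∈ Icc (-1 : ℝ) 1 := by
  have := abs_real_inner_le_norm (p x) (p z)
  rw [h.np, h.np, mul_one] at this
  exact abs_le.1 this

lemma pts_q (h : FV.Pts p n) (x z : X) : ⟪n x, p z⟫ ∈ Icc (-1 : ℝ) 1 := by
  have := abs_real_inner_le_norm (n x) (p z)
  rw [h.nn, h.np, mul_one] at this
  exact abs_le.1 this

lemma int_ker (h : FV.Pts p n) {T : ℝ} (hT : T ∈ Ico (0 : ℝ) 1) (q : ℕ) (z : X) :
    Integrable (fun x => SM2.ker T q ⟪p x, p z⟫) μ :=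
  integrable_ker1 (h.mp.inner measurable_const) (fun x => pts_s h x z) hT q

lemma int_ker_q (h : FV.Pts p n) {T : ℝ} (hT : T ∈ Ico (0 : ℝ) 1) (q : ℕ) (z : X) :
    Integrable (fun x => SM2.ker T q ⟪p x, p z⟫ * ⟪n x, p z⟫ ^ 2) μ := by
  refine integrable_ker_mul (h.mp.inner measurable_const) (fun x => pts_s h x z) hT q
    ((h.mn.inner measurable_const).pow_const 2) (C := 1) fun x => ?_
  have h1 := pts_q h x z
  rw [abs_of_nonneg (sq_nonneg _), ← sq_abs]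
  exact pow_le_one₀ (abs_nonneg _) (abs_le.2 h1)

/-- the recursion of the one point integrals -/
lemma TwoE.rec (h : TwoE μ m p n) {T : ℝ} (hT : T ∈ Ioo (0 : ℝ) 1) (z : X) (q : ℕ) :
    ((q + 1 : ℕ) : ℝ) * (1 - T ^ 2) * ∫ x, SM2.ker T (q + 2) ⟪p x, p z⟫ ∂μ
      = (2 * ((q + 1 : ℕ) : ℝ) - m) * ∫ x, SM2.ker T (q + 1) ⟪p x, p z⟫ ∂μ
        - (((q + 1 : ℕ) : ℝ) - m) * ∫ x, SM2.ker T q ⟪p x, p z⟫ ∂μ
        - ((q + 1 : ℕ) : ℝ) * T ^ 2 * ∫ x, SM2.ker T (q + 2) ⟪p x, p z⟫ * ⟪n x, p z⟫ ^ 2 ∂μ := by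
  have hT' : T ∈ Ico (0 : ℝ) 1 := ⟨hT.1.le, hT.2⟩
  have h1 := h.row z 0 T hT 0 (q + 1) 0 0
  have i0 := int_ker (μ := μ) h.toPts hT' q z
  have i1 := int_ker (μ := μ) h.toPts hT' (q + 1) z
  have i2 := int_ker (μ := μ) h.toPts hT' (q + 2) z
  have i3 := int_ker_q (μ := μ) h.toPts hT' (q + 2) z
  have e1 : ∀ x, T * rT 0 m T (q + 1) 0 0 (dat p n 0 (x, z))
      = -(((q + 1 : ℕ) : ℝ) * (1 - T ^ 2)) * SM2.ker T (q + 2) ⟪p x, p z⟫
        + (2 * ((q + 1 : ℕ) : ℝ) - m) * SM2.ker T (q + 1) ⟪p x, p z⟫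
        - (((q + 1 : ℕ) : ℝ) - m) * SM2.ker T q ⟪p x, p z⟫
        - ((q + 1 : ℕ) : ℝ) * T ^ 2 * (SM2.ker T (q + 2) ⟪p x, p z⟫ * ⟪n x, p z⟫ ^ 2) := by
    intro x
    have hs := pts_s h.toPts x z
    rw [ker_mul hT' hs q, ker_mul hT' hs (q + 1)]
    unfold rT rowT rowE
    simp only [pow_zero, one_mul, Nat.cast_zero, zero_mul, add_zero]
    change T * ((((q + 1 : ℕ) : ℝ) * T * SM2.ker T (q + 1 + 1) ⟪p x, p z⟫)
        * (1 - ⟪p x, p z⟫ ^ 2 - ⟪n x, p z⟫ ^ 2)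
        - m * ⟪p x, p z⟫ * SM2.ker T (q + 1) ⟪p x, p z⟫) = _
    rw [ker_mul hT' hs (q + 1)]
    push_cast
    ring
  have h2 : ∫ x, T * rT 0 m T (q + 1) 0 0 (dat p n 0 (x, z)) ∂μ = 0 := by
    rw [integral_const_mul, h1, mul_zero]
  simp only [e1] at h2
  have j2 := i2.const_mul (-(((q + 1 : ℕ) : ℝ) * (1 - T ^ 2)))
  have j1 := i1.const_mul (2 * ((q + 1 : ℕ) : ℝ) - m)
  have j0 := i0.const_mul (((q + 1 : ℕ) : ℝ) - m)
  have j3 := i3.const_mul (((q + 1 : ℕ) : ℝ) * T ^ 2)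
  have s1 : Integrable (fun x => -(((q + 1 : ℕ) : ℝ) * (1 - T ^ 2)) * SM2.ker T (q + 2) ⟪p x, p z⟫
        + (2 * ((q + 1 : ℕ) : ℝ) - m) * SM2.ker T (q + 1) ⟪p x, p z⟫) μ := j2.add j1
  have s2 : Integrable (fun x => -(((q + 1 : ℕ) : ℝ) * (1 - T ^ 2)) * SM2.ker T (q + 2) ⟪p x, p z⟫
        + (2 * ((q + 1 : ℕ) : ℝ) - m) * SM2.ker T (q + 1) ⟪p x, p z⟫
        - (((q + 1 : ℕ) : ℝ) - m) * SM2.ker T q ⟪p x, p z⟫) μ := s1.sub j0
  rw [integral_sub s2 j3, integral_sub s1 j0, integral_add j2 j1,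
    integral_const_mul, integral_const_mul, integral_const_mul, integral_const_mul] at h2
  linarith

/-- the bound of the normalized one point integrals -/
theorem TwoE.cj_bound (h : TwoE μ m p n) (hm : 0 < m) (z : X) (j : ℕ) :
    ∀ T ∈ Ico (0 : ℝ) 1, ∫ x, cj m j T ⟪p x, p z⟫ ∂μ ≤ cc m j * μ.real univ := by
  induction j with
  | zero =>
    intro T hT
    have h2 := conf_le (μ := μ) (m := m) (s := fun x => ⟪p x, p z⟫) (q := fun x => ⟪n x, p z⟫)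
      (h.mp.inner measurable_const) (h.mn.inner measurable_const)
      (fun x => pts_s h.toPts x z) (fun x => pts_q h.toPts x z)
      (fun T hT => h.conf hm z T hT) hT
    rw [cj_zero]
    unfold cv
    rw [integral_const_mul]
    simpa [cc] using h2
  | succ j ih =>
    intro T hT
    rcases hT.1.eq_or_lt with h0 | h0
    · rw [← h0]
      simp only [cj_at_zero]
      rw [integral_const, smul_eq_mul, mul_one]
      exact le_mul_of_one_le_left measureReal_nonneg (one_le_cc hm _)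
    · have hT1 : T ∈ Ioo (0 : ℝ) 1 := ⟨h0, hT.2⟩
      have h1 := ih T hT
      obtain ⟨q, hq⟩ : ∃ q, m + j = q + 1 := ⟨m + j - 1, by omega⟩
      have hr := TwoE.rec h hT1 z q
      have k0 : 0 ≤ ∫ x, SM2.ker T q ⟪p x, p z⟫ ∂μ :=
        integral_nonneg fun x => ker_nonneg hT (pts_s h.toPts x z) _
      have k3 : 0 ≤ ∫ x, SM2.ker T (q + 2) ⟪p x, p z⟫ * ⟪n x, p z⟫ ^ 2 ∂μ :=
        integral_nonneg fun x => mul_nonneg (ker_nonneg hT (pts_s h.toPts x z) _) (sq_nonneg _)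
      have hqm : (0 : ℝ) ≤ ((q + 1 : ℕ) : ℝ) - m := by
        rw [← hq]
        push_cast
        have : (0 : ℝ) ≤ j := Nat.cast_nonneg j
        linarith
      have hpos : (0 : ℝ) < ((q + 1 : ℕ) : ℝ) := by positivity
      have hle : ((q + 1 : ℕ) : ℝ) * ((1 - T ^ 2) * ∫ x, SM2.ker T (q + 2) ⟪p x, p z⟫ ∂μ)
          ≤ ((m + 2 * j : ℕ) : ℝ) * ∫ x, SM2.ker T (q + 1) ⟪p x, p z⟫ ∂μ := by
        have e1 : (2 * ((q + 1 : ℕ) : ℝ) - m) = ((m + 2 * j : ℕ) : ℝ) := by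
          rw [← hq]
          push_cast
          ring
        rw [e1] at hr
        have k4 := mul_nonneg hqm k0
        have k5 : 0 ≤ ((q + 1 : ℕ) : ℝ) * T ^ 2
            * ∫ x, SM2.ker T (q + 2) ⟪p x, p z⟫ * ⟪n x, p z⟫ ^ 2 ∂μ := by positivity
        linarith
      unfold cj at h1 ⊢
      rw [integral_const_mul] at h1 ⊢
      have e2 : m + (j + 1) = q + 2 := by omega
      have e3 : kp T ^ (m + 2 * (j + 1)) = kp T ^ (m + 2 * j) * (1 - T ^ 2) := by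
        rw [← kp_sq hT, ← pow_add]
        congr 1
      rw [e2, e3]
      rw [hq] at h1
      change _ ≤ ((m + 2 * j : ℕ) : ℝ) / ((m + j : ℕ) : ℝ) * cc m j * μ.real univ
      rw [hq]
      have hk : 0 ≤ kp T ^ (m + 2 * j) := pow_nonneg (kp_nonneg _) _
      have h3 := mul_le_mul_of_nonneg_left hle hk
      have h4 := mul_le_mul_of_nonneg_left h1
        (by positivity : (0 : ℝ) ≤ ((m + 2 * j : ℕ) : ℝ) / ((q + 1 : ℕ) : ℝ))
      have e5 : kp T ^ (m + 2 * j) * (1 - T ^ 2) * ∫ x, SM2.ker T (q + 2) ⟪p x, p z⟫ ∂μ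
          = (kp T ^ (m + 2 * j) * (((q + 1 : ℕ) : ℝ)
            * ((1 - T ^ 2) * ∫ x, SM2.ker T (q + 2) ⟪p x, p z⟫ ∂μ))) / ((q + 1 : ℕ) : ℝ) := by
        field_simp
      rw [e5, div_le_iff₀ hpos]
      refine h3.trans ?_
      have e6 : ((m + 2 * j : ℕ) : ℝ) / ((q + 1 : ℕ) : ℝ) * cc m j * μ.real univ
          * ((q + 1 : ℕ) : ℝ) = ((m + 2 * j : ℕ) : ℝ) * (cc m j * μ.real univ) := by
        field_simp
      rw [e6]
      have h5 := mul_le_mul_of_nonneg_left h1 (Nat.cast_nonneg (m + 2 * j) : (0 : ℝ) ≤ _)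
      linarith

/-- the integrals of the lower kernel vanish in the limit -/
lemma TwoE.low (h : TwoE μ m p n) (hm : 0 < m) (z : X) {j q : ℕ} (hq : m + j = q + 1) :
    Tendsto (fun T => kp T ^ (m + 2 * j) * ∫ x, SM2.ker T q ⟪p x, p z⟫ ∂μ) (𝓝[<] 1) (𝓝 0) := by
  have h0 : ∀ᶠ T in 𝓝[<] (1 : ℝ), T ∈ Ioo (0 : ℝ) 1 := Ioo_mem_nhdsLT one_pos
  rw [Metric.tendsto_nhds]
  intro ε hε
  set V := μ.real univ with hV
  have hV0 : 0 ≤ V := measureReal_nonneg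
  set B := cc m j * V with hB
  have hB0 : 0 ≤ B := mul_nonneg (cc_nonneg m j) hV0
  set δ : ℝ := ε / (2 * (B + 1)) with hδ
  have hδ0 : 0 < δ := by positivity
  have hlim : Tendsto (fun T => kp T ^ (m + 2 * j) * ((δ ^ q)⁻¹ * V)) (𝓝[<] 1) (𝓝 0) := by
    have h1 := (tendsto_kp.pow (m + 2 * j)).mul_const ((δ ^ q)⁻¹ * V)
    rwa [zero_pow (by omega), zero_mul] at h1
  filter_upwards [h0, hlim.eventually_lt_const (half_pos hε)] with T hT hTs
  have hT' : T ∈ Ico (0 : ℝ) 1 := ⟨hT.1.le, hT.2⟩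
  have i1 := int_ker (μ := μ) h.toPts hT' (q + 1) z
  have i0 := int_ker (μ := μ) h.toPts hT' q z
  have hpt : ∀ x, SM2.ker T q ⟪p x, p z⟫ ≤ δ * SM2.ker T (q + 1) ⟪p x, p z⟫ + (δ ^ q)⁻¹ := by
    intro x
    have hs := pts_s h.toPts x z
    have k1 := ker_nonneg hT' hs (q + 1)
    have hv := one_sub_pos' hT' hs.2
    rcases le_total (1 - T * ⟪p x, p z⟫) δ with hle | hle
    · rw [ker_mul hT' hs q]
      have := mul_le_mul_of_nonneg_right hle k1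
      have h3 : 0 ≤ (δ ^ q)⁻¹ := by positivity
      linarith
    · have h2 : SM2.ker T q ⟪p x, p z⟫ ≤ (δ ^ q)⁻¹ := by
        unfold SM2.ker
        exact inv_anti₀ (pow_pos hδ0 _) (pow_le_pow_left₀ hδ0.le hle _)
      have := mul_nonneg hδ0.le k1
      linarith
  have hint : ∫ x, SM2.ker T q ⟪p x, p z⟫ ∂μ
      ≤ δ * (∫ x, SM2.ker T (q + 1) ⟪p x, p z⟫ ∂μ) + (δ ^ q)⁻¹ * V := by
    calc ∫ x, SM2.ker T q ⟪p x, p z⟫ ∂μ
        ≤ ∫ x, (δ * SM2.ker T (q + 1) ⟪p x, p z⟫ + (δ ^ q)⁻¹) ∂μ :=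
          integral_mono i0 ((i1.const_mul δ).add (integrable_const _)) hpt
      _ = _ := by
          rw [integral_add (i1.const_mul δ) (integrable_const _), integral_const_mul,
            integral_const, smul_eq_mul]
          ring
  have hk : 0 ≤ kp T ^ (m + 2 * j) := pow_nonneg (kp_nonneg _) _
  have hb := TwoE.cj_bound h hm z j T hT'
  unfold cj at hb
  rw [integral_const_mul, hq] at hb
  have h3 := mul_le_mul_of_nonneg_left hint hk
  have h4 := mul_le_mul_of_nonneg_left hb hδ0.le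
  have h5 : δ * B ≤ ε / 2 := by
    rw [hδ, div_mul_eq_mul_div, div_le_div_iff₀ (by positivity) two_pos]
    nlinarith
  have h6 : 0 ≤ ∫ x, SM2.ker T q ⟪p x, p z⟫ ∂μ :=
    integral_nonneg fun x => ker_nonneg hT' (pts_s h.toPts x z) _
  rw [Real.dist_eq, sub_zero, abs_of_nonneg (mul_nonneg hk h6)]
  calc kp T ^ (m + 2 * j) * ∫ x, SM2.ker T q ⟪p x, p z⟫ ∂μ
      ≤ kp T ^ (m + 2 * j) * (δ * (∫ x, SM2.ker T (q + 1) ⟪p x, p z⟫ ∂μ) + (δ ^ q)⁻¹ * V) := h3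
    _ = δ * (kp T ^ (m + 2 * j) * ∫ x, SM2.ker T (q + 1) ⟪p x, p z⟫ ∂μ)
        + kp T ^ (m + 2 * j) * ((δ ^ q)⁻¹ * V) := by ring
    _ < ε := by linarith

/-- **The limits of the normalized one point integrals.** -/
theorem TwoE.lim_cj (h : TwoE μ m p n) (hm : 0 < m) {C : ℝ} (hc : Contact p n C) {S : ℝ} (z : X)
    (hS : Tendsto (fun T => ∫ x, cv m T ⟪p x, p z⟫ ∂μ) (𝓝[<] 1) (𝓝 S)) (j : ℕ) :
    Tendsto (fun T => ∫ x, cj m j T ⟪p x, p z⟫ ∂μ) (𝓝[<] 1) (𝓝 (cc m j * S)) := by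
  have h0 : ∀ᶠ T in 𝓝[<] (1 : ℝ), T ∈ Ioo (0 : ℝ) 1 := Ioo_mem_nhdsLT one_pos
  induction j with
  | zero => simpa [cj_zero, cc] using hS
  | succ j ih =>
    obtain ⟨q, hq⟩ : ∃ q, m + j = q + 1 := ⟨m + j - 1, by omega⟩
    have hlow := TwoE.low h hm z hq
    -- the error term
    have herr : Tendsto (fun T => T ^ 2 * (kp T ^ (m + 2 * j)
        * ∫ x, SM2.ker T (q + 2) ⟪p x, p z⟫ * ⟪n x, p z⟫ ^ 2 ∂μ)) (𝓝[<] 1) (𝓝 0) := by
      have h1 := hlow.const_mul (4 * C ^ 2)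
      rw [mul_zero] at h1
      refine tendsto_of_tendsto_of_tendsto_of_le_of_le' tendsto_const_nhds h1 ?_ ?_
      · filter_upwards [h0] with T hT
        have hT' : T ∈ Ico (0 : ℝ) 1 := ⟨hT.1.le, hT.2⟩
        have : 0 ≤ ∫ x, SM2.ker T (q + 2) ⟪p x, p z⟫ * ⟪n x, p z⟫ ^ 2 ∂μ :=
          integral_nonneg fun x => mul_nonneg (ker_nonneg hT' (pts_s h.toPts x z) _) (sq_nonneg _)
        have := kp_nonneg T
        positivity
      · filter_upwards [h0] with T hT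
        have hT' : T ∈ Ico (0 : ℝ) 1 := ⟨hT.1.le, hT.2⟩
        have i0 := int_ker (μ := μ) h.toPts hT' q z
        have i2 := int_ker_q (μ := μ) h.toPts hT' (q + 2) z
        have hpt : ∀ x, SM2.ker T (q + 2) ⟪p x, p z⟫ * ⟪n x, p z⟫ ^ 2
            ≤ 4 * C ^ 2 * SM2.ker T q ⟪p x, p z⟫ := by
          intro x
          have hs := pts_s h.toPts x z
          have k2 := ker_nonneg hT' hs (q + 2)
          have hv := one_sub_pos' hT' hs.2
          have hcx := (hc x z).1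
          have hs1 : 0 ≤ 1 - ⟪p x, p z⟫ := by linarith [hs.2]
          have h2 := one_sub_le_two hT' hs
          have h3 : ⟪n x, p z⟫ ^ 2 ≤ (C * (1 - ⟪p x, p z⟫)) ^ 2 := by
            rw [← sq_abs]
            exact pow_le_pow_left₀ (abs_nonneg _) hcx 2
          have h4 : (C * (1 - ⟪p x, p z⟫)) ^ 2 ≤ C ^ 2 * (2 * (1 - T * ⟪p x, p z⟫)) ^ 2 := by
            rw [mul_pow]
            exact mul_le_mul_of_nonneg_left (pow_le_pow_left₀ hs1 h2 2) (sq_nonneg _)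
          rw [ker_mul hT' hs q, ker_mul hT' hs (q + 1)]
          have h5 := mul_le_mul_of_nonneg_left (h3.trans h4) k2
          refine h5.trans (le_of_eq ?_)
          ring
        have h3 : ∫ x, SM2.ker T (q + 2) ⟪p x, p z⟫ * ⟪n x, p z⟫ ^ 2 ∂μ
            ≤ 4 * C ^ 2 * ∫ x, SM2.ker T q ⟪p x, p z⟫ ∂μ := by
          rw [← integral_const_mul]
          exact integral_mono i2 (i0.const_mul _) hpt
        have hk : 0 ≤ kp T ^ (m + 2 * j) := pow_nonneg (kp_nonneg _) _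
        have h4 : 0 ≤ ∫ x, SM2.ker T (q + 2) ⟪p x, p z⟫ * ⟪n x, p z⟫ ^ 2 ∂μ :=
          integral_nonneg fun x => mul_nonneg (ker_nonneg hT' (pts_s h.toPts x z) _) (sq_nonneg _)
        have hT2 : T ^ 2 ≤ 1 := pow_le_one₀ hT.1.le hT.2.le
        calc T ^ 2 * (kp T ^ (m + 2 * j)
            * ∫ x, SM2.ker T (q + 2) ⟪p x, p z⟫ * ⟪n x, p z⟫ ^ 2 ∂μ)
            ≤ 1 * (kp T ^ (m + 2 * j)
            * ∫ x, SM2.ker T (q + 2) ⟪p x, p z⟫ * ⟪n x, p z⟫ ^ 2 ∂μ) :=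
              mul_le_mul_of_nonneg_right hT2 (mul_nonneg hk h4)
          _ ≤ 1 * (kp T ^ (m + 2 * j) * (4 * C ^ 2 * ∫ x, SM2.ker T q ⟪p x, p z⟫ ∂μ)) :=
              mul_le_mul_of_nonneg_left (mul_le_mul_of_nonneg_left h3 hk) zero_le_one
          _ = _ := by ring
    have hmain := ((ih.const_mul ((m + 2 * j : ℕ) : ℝ)).sub (hlow.const_mul (j : ℝ))).sub
      (herr.const_mul ((q + 1 : ℕ) : ℝ))
    have hfin := hmain.const_mul (((q + 1 : ℕ) : ℝ)⁻¹)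
    have hpos : ((q + 1 : ℕ) : ℝ) ≠ 0 := by positivity
    have e0 : ((q + 1 : ℕ) : ℝ)⁻¹ * (((m + 2 * j : ℕ) : ℝ) * (cc m j * S) - (j : ℝ) * 0
        - ((q + 1 : ℕ) : ℝ) * 0) = cc m (j + 1) * S := by
      change _ = ((m + 2 * j : ℕ) : ℝ) / ((m + j : ℕ) : ℝ) * cc m j * S
      rw [hq]
      ring
    rw [e0] at hfin
    refine hfin.congr' ?_
    filter_upwards [h0] with T hT
    have hT' : T ∈ Ico (0 : ℝ) 1 := ⟨hT.1.le, hT.2⟩
    have hr := TwoE.rec h hT z q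
    have e1 : (2 * ((q + 1 : ℕ) : ℝ) - m) = ((m + 2 * j : ℕ) : ℝ) := by
      rw [← hq]
      push_cast
      ring
    have e2 : (((q + 1 : ℕ) : ℝ) - m) = j := by
      rw [← hq]
      push_cast
      ring
    rw [e1, e2] at hr
    unfold cj
    rw [integral_const_mul, integral_const_mul]
    have e3 : m + (j + 1) = q + 2 := by omega
    have e4 : kp T ^ (m + 2 * (j + 1)) = kp T ^ (m + 2 * j) * (1 - T ^ 2) := by
      rw [← kp_sq hT', ← pow_add]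
      congr 1
    rw [e3, e4, hq]
    have e5 : kp T ^ (m + 2 * j) * (1 - T ^ 2) * ∫ x, SM2.ker T (q + 2) ⟪p x, p z⟫ ∂μ
        = ((q + 1 : ℕ) : ℝ)⁻¹ * (kp T ^ (m + 2 * j) * (((q + 1 : ℕ) : ℝ)
          * (1 - T ^ 2) * ∫ x, SM2.ker T (q + 2) ⟪p x, p z⟫ ∂μ)) := by
      field_simp
    rw [e5, hr]
    ring

end

end Vale.Agent.P224.UG
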