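import Vale.Agent.P224.UE.LimE

/-!
Asymptotics of Stieltjes integrals near the diagonal.
-/

namespace Vale.Agent.P224.UG

open MeasureTheory Set Filter Function
open Vale.Agent.P224.UE
open scoped Topology

set_option linter.unusedSectionVars false

lemma tendsto_scale {θ : ℝ} (h : 0 < 1 + θ) :
    Tendsto (fun x : ℝ => (1 + θ) * x) (𝓝[>] 0) (𝓝[>] 0) := by
  refine tendsto_nhdsWithin_iff.2 ⟨?_, ?_⟩
  · have : Tendsto (fun x : ℝ => (1 + θ) * x) (𝓝 0) (𝓝 ((1 + θ) * 0)) :=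
      (continuous_const.mul continuous_id).tendsto 0
    rw [mul_zero] at this
    exact this.mono_left nhdsWithin_le_nhds
  · filter_upwards [self_mem_nhdsWithin] with x hx
    exact mul_pos h hx

/-- the difference quotients -/
lemma quot_tendsto (α c : ℝ) {q : ℝ} :
    Tendsto (fun θ : ℝ => c / (q * θ) * (1 - (1 + θ) ^ (-α))) (𝓝[≠] 0) (𝓝 (α * c / q)) := by
  have h1 : HasDerivAt (fun θ : ℝ => (1 + θ) ^ (-α)) (-α) 0 := by
    have h2 : HasDerivAt (fun θ : ℝ => 1 + θ) 1 0 := by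
      simpa using (hasDerivAt_id (0 : ℝ)).const_add 1
    have h3 := h2.rpow_const (p := -α) (Or.inl (by norm_num))
    refine h3.congr_deriv ?_
    simp
  have h2 := h1.tendsto_slope
  have h3 : Tendsto (fun θ : ℝ => -(c / q) * slope (fun θ : ℝ => (1 + θ) ^ (-α)) 0 θ) (𝓝[≠] 0)
      (𝓝 (-(c / q) * (-α))) := h2.const_mul _
  have e1 : -(c / q) * (-α) = α * c / q := by ring
  rw [e1] at h3
  refine h3.congr' ?_
  filter_upwards [self_mem_nhdsWithin] with θ hθ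
  rw [slope_def_field, add_zero, Real.one_rpow, sub_zero]
  rcases eq_or_ne q 0 with hq | hq
  · simp [hq]
  · have hθ' : θ ≠ 0 := hθ
    field_simp
    ring

/-- the scaled difference -/
lemma diff_tendsto {F : ℝ → ℝ} {α c q θ : ℝ} (hF : Tendsto (fun h => h ^ α * F h) (𝓝[>] 0) (𝓝 c))
    (hθ : 0 < 1 + θ) :
    Tendsto (fun h : ℝ => h ^ α * (F h - F ((1 + θ) * h)) / (q * θ)) (𝓝[>] 0)
      (𝓝 (c / (q * θ) * (1 - (1 + θ) ^ (-α)))) := by
  have h1 := hF.comp (tendsto_scale hθ)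
  have h2 : Tendsto (fun h : ℝ => h ^ α * F ((1 + θ) * h)) (𝓝[>] 0)
      (𝓝 ((1 + θ) ^ (-α) * c)) := by
    refine (h1.const_mul ((1 + θ) ^ (-α))).congr' ?_
    filter_upwards [self_mem_nhdsWithin] with h hh
    have hh' : (0 : ℝ) < h := hh
    simp only [comp_apply]
    rw [Real.mul_rpow hθ.le hh'.le, Real.rpow_neg hθ.le]
    have : (1 + θ) ^ α ≠ 0 := (Real.rpow_pos_of_pos hθ α).ne'
    field_simp
  have h3 := (hF.sub h2).div_const (q * θ)
  have e1 : (c - (1 + θ) ^ (-α) * c) / (q * θ) = c / (q * θ) * (1 - (1 + θ) ^ (-α)) := by ring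
  rw [e1] at h3
  refine h3.congr fun h => ?_
  ring

/-- monotone density: the asymptotics of the derivative -/
theorem deriv_tendsto {F F1 : ℝ → ℝ} {α c q : ℝ} (hq : 0 < q)
    (hup : ∀ a b : ℝ, 0 < a → a < b → F a - F b ≤ q * (b - a) * F1 a)
    (hlo : ∀ a b : ℝ, 0 < a → a < b → q * (b - a) * F1 b ≤ F a - F b)
    (hF : Tendsto (fun h => h ^ α * F h) (𝓝[>] 0) (𝓝 c)) :
    Tendsto (fun h => h ^ (α + 1) * F1 h) (𝓝[>] 0) (𝓝 (α * c / q)) := by
  have hg := quot_tendsto α c (q := q)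
  have e0 : ∀ {h : ℝ}, 0 < h → h ^ (α + 1) = h ^ α * h := fun {h} hh => by
    rw [Real.rpow_add hh, Real.rpow_one]
  rw [tendsto_order]
  constructor
  · intro a ha
    have h1 : ∀ᶠ θ in 𝓝[>] (0 : ℝ), a < c / (q * θ) * (1 - (1 + θ) ^ (-α)) :=
      (hg.mono_left (nhdsWithin_mono _ fun x hx => (ne_of_gt hx))).eventually (lt_mem_nhds ha)
    obtain ⟨θ, hθa, hθ⟩ := (h1.and self_mem_nhdsWithin).exists
    have hθ0 : 0 < θ := hθ
    have h2 := (diff_tendsto (q := q) hF (by linarith : 0 < 1 + θ)).eventually (lt_mem_nhds hθa)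
    filter_upwards [h2, self_mem_nhdsWithin] with h hh hpos
    have hh0 : 0 < h := hpos
    refine hh.trans_le ?_
    have h3 := hup h ((1 + θ) * h) hh0 (by nlinarith)
    have h4 : 0 ≤ h ^ α := (Real.rpow_pos_of_pos hh0 α).le
    rw [div_le_iff₀ (by positivity), e0 hh0]
    calc h ^ α * (F h - F ((1 + θ) * h)) ≤ h ^ α * (q * ((1 + θ) * h - h) * F1 h) :=
          mul_le_mul_of_nonneg_left h3 h4
      _ = h ^ α * h * F1 h * (q * θ) := by ring
  · intro a ha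
    have h1 : ∀ᶠ θ in 𝓝[<] (0 : ℝ), c / (q * θ) * (1 - (1 + θ) ^ (-α)) < a :=
      (hg.mono_left (nhdsWithin_mono _ fun x hx => (ne_of_lt hx))).eventually (gt_mem_nhds ha)
    have h1' : ∀ᶠ θ in 𝓝[<] (0 : ℝ), θ ∈ Ioo (-1 : ℝ) 0 := Ioo_mem_nhdsLT (by norm_num)
    obtain ⟨θ, hθa, hθ⟩ := (h1.and h1').exists
    have hθ0 : θ < 0 := hθ.2
    have hθ1 : 0 < 1 + θ := by linarith [hθ.1]
    have h2 := (diff_tendsto (q := q) hF hθ1).eventually (gt_mem_nhds hθa)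
    filter_upwards [h2, self_mem_nhdsWithin] with h hh hpos
    have hh0 : 0 < h := hpos
    refine lt_of_le_of_lt ?_ hh
    have h3 := hlo ((1 + θ) * h) h (by positivity) (by nlinarith)
    have h4 : 0 ≤ h ^ α := (Real.rpow_pos_of_pos hh0 α).le
    rw [le_div_iff_of_neg (mul_neg_of_pos_of_neg hq hθ0), e0 hh0]
    have h5 := mul_le_mul_of_nonneg_left h3 h4
    calc h ^ α * (F h - F ((1 + θ) * h)) = -(h ^ α * (F ((1 + θ) * h) - F h)) := by ring
      _ ≤ -(h ^ α * (q * (h - (1 + θ) * h) * F1 h)) := neg_le_neg h5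
      _ = h ^ α * h * F1 h * (q * θ) := by ring

section

variable {Y : Type*} [MeasurableSpace Y]

/-- the Stieltjes integrals -/
noncomputable def Ph (ρ : Measure Y) (Q s : Y → ℝ) (q : ℕ) (h : ℝ) : ℝ :=
  ∫ y, Q y * ((h + 1 - s y) ^ q)⁻¹ ∂ρ

/-- bounded nonnegative data -/
structure PD (ρ : Measure Y) (Q s : Y → ℝ) (B : ℝ) : Prop where
  mQ : Measurable Q
  ms : Measurable s
  Q0 : ∀ y, 0 ≤ Q y
  QB : ∀ y, Q y ≤ B
  s1 : ∀ y, s y ≤ 1
  s0 : ∀ y, -1 ≤ s y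

variable {ρ : Measure Y} [IsFiniteMeasure ρ] {Q s : Y → ℝ} {B : ℝ}

lemma PD.B0 [Nonempty Y] (h : PD ρ Q s B) : 0 ≤ B :=
  (h.Q0 (Classical.arbitrary Y)).trans (h.QB _)

lemma PD.integrable (hd : PD ρ Q s B) (q : ℕ) {h : ℝ} (hh : 0 < h) :
    Integrable (fun y => Q y * ((h + 1 - s y) ^ q)⁻¹) ρ := by
  have hm : Measurable fun y => Q y * ((h + 1 - s y) ^ q)⁻¹ := by
    have := hd.mQ
    have := hd.ms
    fun_prop
  refine Integrable.of_bound hm.aestronglyMeasurable (B * (h ^ q)⁻¹)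
    (Eventually.of_forall fun y => ?_)
  have h1 : h ≤ h + 1 - s y := by linarith [hd.s1 y]
  have h2 : 0 < h + 1 - s y := by linarith
  rw [Real.norm_eq_abs, abs_of_nonneg (mul_nonneg (hd.Q0 y) (by positivity))]
  exact mul_le_mul (hd.QB y) (inv_anti₀ (by positivity) (pow_le_pow_left₀ hh.le h1 q))
    (by positivity) ((hd.Q0 y).trans (hd.QB y))

lemma PD.Ph_nonneg (hd : PD ρ Q s B) (q : ℕ) {h : ℝ} (hh : 0 < h) : 0 ≤ Ph ρ Q s q h := by
  refine integral_nonneg fun y => ?_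
  have h2 : 0 < h + 1 - s y := by linarith [hd.s1 y]
  exact mul_nonneg (hd.Q0 y) (by positivity)

lemma pow_up {u v : ℝ} (hu : 0 < u) (huv : u ≤ v) (q : ℕ) :
    (u ^ q)⁻¹ - (v ^ q)⁻¹ ≤ q * (v - u) * (u ^ (q + 1))⁻¹ := by
  have hv : 0 < v := hu.trans_le huv
  have h1 := one_add_mul_le_pow (a := u / v - 1) (by
    have : 0 < u / v := by positivity
    linarith) q
  rw [add_sub_cancel] at h1
  have h2 : (u ^ q)⁻¹ - (v ^ q)⁻¹ = (u ^ q)⁻¹ * (1 - (u / v) ^ q) := by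
    rw [div_pow]
    field_simp
  have h3 : q * (v - u) * (u ^ (q + 1))⁻¹ = (u ^ q)⁻¹ * (q * (v / u - 1)) := by
    rw [pow_succ]
    field_simp
  rw [h2, h3]
  refine mul_le_mul_of_nonneg_left ?_ (by positivity)
  have h4 : 1 - u / v ≤ v / u - 1 := by
    rw [div_eq_mul_inv, div_eq_mul_inv]
    have e : (v * u⁻¹ - 1) - (1 - u * v⁻¹) = (v - u) ^ 2 * (u⁻¹ * v⁻¹) := by
      field_simp
    have : 0 ≤ (v - u) ^ 2 * (u⁻¹ * v⁻¹) := by positivity
    linarith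
  have h5 := mul_le_mul_of_nonneg_left h4 (Nat.cast_nonneg (α := ℝ) q)
  linarith

lemma pow_lo {u v : ℝ} (hu : 0 < u) (huv : u ≤ v) (q : ℕ) :
    q * (v - u) * (v ^ (q + 1))⁻¹ ≤ (u ^ q)⁻¹ - (v ^ q)⁻¹ := by
  have hv : 0 < v := hu.trans_le huv
  have h1 := one_add_mul_le_pow (a := v / u - 1) (by
    have : 0 < v / u := by positivity
    linarith) q
  rw [add_sub_cancel] at h1
  have h2 : (u ^ q)⁻¹ - (v ^ q)⁻¹ = (v ^ q)⁻¹ * ((v / u) ^ q - 1) := by
    rw [div_pow]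
    field_simp
  have h3 : q * (v - u) * (v ^ (q + 1))⁻¹ = (v ^ q)⁻¹ * (q * (1 - u / v)) := by
    rw [pow_succ]
    field_simp
  rw [h2, h3]
  refine mul_le_mul_of_nonneg_left ?_ (by positivity)
  have h4 : 1 - u / v ≤ v / u - 1 := by
    rw [div_eq_mul_inv, div_eq_mul_inv]
    have e : (v * u⁻¹ - 1) - (1 - u * v⁻¹) = (v - u) ^ 2 * (u⁻¹ * v⁻¹) := by
      field_simp
    have : 0 ≤ (v - u) ^ 2 * (u⁻¹ * v⁻¹) := by positivity
    linarith
  have h5 := mul_le_mul_of_nonneg_left h4 (Nat.cast_nonneg (α := ℝ) q)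
  linarith

lemma PD.Ph_up (hd : PD ρ Q s B) (q : ℕ) {a b : ℝ} (ha : 0 < a) (hab : a < b) :
    Ph ρ Q s q a - Ph ρ Q s q b ≤ q * (b - a) * Ph ρ Q s (q + 1) a := by
  unfold Ph
  rw [← integral_sub (hd.integrable q ha) (hd.integrable q (ha.trans hab)), ← integral_const_mul]
  refine integral_mono ((hd.integrable q ha).sub (hd.integrable q (ha.trans hab)))
    ((hd.integrable (q + 1) ha).const_mul _) fun y => ?_
  have h1 := pow_up (u := a + 1 - s y) (v := b + 1 - s y) (by linarith [hd.s1 y])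
    (by linarith) q
  have h2 := mul_le_mul_of_nonneg_left h1 (hd.Q0 y)
  simp only
  calc Q y * ((a + 1 - s y) ^ q)⁻¹ - Q y * ((b + 1 - s y) ^ q)⁻¹
      = Q y * (((a + 1 - s y) ^ q)⁻¹ - ((b + 1 - s y) ^ q)⁻¹) := by ring
    _ ≤ _ := h2
    _ = _ := by ring

lemma PD.Ph_lo (hd : PD ρ Q s B) (q : ℕ) {a b : ℝ} (ha : 0 < a) (hab : a < b) :
    q * (b - a) * Ph ρ Q s (q + 1) b ≤ Ph ρ Q s q a - Ph ρ Q s q b := by
  unfold Ph
  rw [← integral_sub (hd.integrable q ha) (hd.integrable q (ha.trans hab)), ← integral_const_mul]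
  refine integral_mono ((hd.integrable (q + 1) (ha.trans hab)).const_mul _)
    ((hd.integrable q ha).sub (hd.integrable q (ha.trans hab))) fun y => ?_
  have h1 := pow_lo (u := a + 1 - s y) (v := b + 1 - s y) (by linarith [hd.s1 y])
    (by linarith) q
  have h2 := mul_le_mul_of_nonneg_left h1 (hd.Q0 y)
  simp only
  calc q * (b - a) * (Q y * ((b + 1 - s y) ^ (q + 1))⁻¹)
      = Q y * (q * (b + 1 - s y - (a + 1 - s y)) * ((b + 1 - s y) ^ (q + 1))⁻¹) := by ring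
    _ ≤ _ := h2
    _ = _ := by ring

/-- the asymptotics of the next integral -/
theorem PD.Ph_succ (hd : PD ρ Q s B) {q : ℕ} (hq : 0 < q) {α c : ℝ}
    (hF : Tendsto (fun h => h ^ α * Ph ρ Q s q h) (𝓝[>] 0) (𝓝 c)) :
    Tendsto (fun h => h ^ (α + 1) * Ph ρ Q s (q + 1) h) (𝓝[>] 0) (𝓝 (α * c / q)) :=
  deriv_tendsto (by exact_mod_cast hq) (fun _ _ ha hab => hd.Ph_up q ha hab)
    (fun _ _ ha hab => hd.Ph_lo q ha hab) hF

/-- the bound from the asymptotics -/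
theorem PD.Ph_bound [Nonempty Y] (hd : PD ρ Q s B) {q : ℕ} {α c : ℝ} (hα : α ≤ q)
    (hF : Tendsto (fun h => h ^ α * Ph ρ Q s q h) (𝓝[>] 0) (𝓝 c)) :
    ∃ K : ℝ, 0 ≤ K ∧ ∀ h : ℝ, 0 < h → Ph ρ Q s q h ≤ K * h ^ (-α) := by
  have h1 : ∀ᶠ h in 𝓝[>] (0 : ℝ), h ^ α * Ph ρ Q s q h < c + 1 :=
    hF.eventually (gt_mem_nhds (by linarith))
  obtain ⟨δ, hδ0, hδ⟩ := mem_nhdsGT_iff_exists_Ioo_subset.1 h1
  have hδ0' : (0 : ℝ) < δ := hδ0
  set A := ρ.real univ with hA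
  have hA0 : 0 ≤ A := measureReal_nonneg
  have hB0 := hd.B0
  refine ⟨|c + 1| + B * A * δ ^ (-((q : ℝ) - α)), by positivity, fun h hh => ?_⟩
  have hpos : 0 < h ^ (-α) := Real.rpow_pos_of_pos hh _
  rcases lt_or_ge h δ with hlt | hge
  · have h2 : h ^ α * Ph ρ Q s q h < c + 1 := hδ ⟨hh, hlt⟩
    have h3 : Ph ρ Q s q h ≤ (c + 1) * h ^ (-α) := by
      have h4 : 0 < h ^ α := Real.rpow_pos_of_pos hh _
      rw [Real.rpow_neg hh.le, ← div_eq_mul_inv, le_div_iff₀ h4]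
      linarith
    calc Ph ρ Q s q h ≤ (c + 1) * h ^ (-α) := h3
      _ ≤ |c + 1| * h ^ (-α) := mul_le_mul_of_nonneg_right (le_abs_self _) hpos.le
      _ ≤ _ := by
        refine mul_le_mul_of_nonneg_right ?_ hpos.le
        have : 0 ≤ B * A * δ ^ (-((q : ℝ) - α)) := by positivity
        linarith
  · have h3 : Ph ρ Q s q h ≤ B * A * (h ^ q)⁻¹ := by
      unfold Ph
      have h5 : ∫ y, Q y * ((h + 1 - s y) ^ q)⁻¹ ∂ρ ≤ ∫ _, B * (h ^ q)⁻¹ ∂ρ := by
        refine integral_mono (hd.integrable q hh) (integrable_const _) fun y => ?_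
        have h6 : h ≤ h + 1 - s y := by linarith [hd.s1 y]
        have h7 : 0 < h + 1 - s y := by linarith
        exact mul_le_mul (hd.QB y) (inv_anti₀ (by positivity) (pow_le_pow_left₀ hh.le h6 q))
          (by positivity) hB0
      rw [integral_const, smul_eq_mul] at h5
      calc _ ≤ _ := h5
        _ = _ := by rw [hA]; ring
    have h4 : (h ^ q)⁻¹ ≤ δ ^ (-((q : ℝ) - α)) * h ^ (-α) := by
      have e1 : (h ^ q)⁻¹ = h ^ (-((q : ℝ) - α)) * h ^ (-α) := by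
        rw [← Real.rpow_add hh, ← Real.rpow_natCast, ← Real.rpow_neg hh.le]
        congr 1
        ring
      rw [e1]
      exact mul_le_mul_of_nonneg_right
        (Real.rpow_le_rpow_of_nonpos hδ0' hge (by linarith)) hpos.le
    calc Ph ρ Q s q h ≤ B * A * (h ^ q)⁻¹ := h3
      _ ≤ B * A * (δ ^ (-((q : ℝ) - α)) * h ^ (-α)) :=
          mul_le_mul_of_nonneg_left h4 (by positivity)
      _ = B * A * δ ^ (-((q : ℝ) - α)) * h ^ (-α) := by ring
      _ ≤ _ := by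
        refine mul_le_mul_of_nonneg_right ?_ hpos.le
        linarith [abs_nonneg (c + 1)]

/-- the asymptotics from the conformal kernel -/
theorem Ph_of_cv {m : ℕ} {A : ℝ}
    (h : Tendsto (fun T => ∫ y, Q y * cv m T (s y) ∂ρ) (𝓝[<] 1) (𝓝 A)) :
    Tendsto (fun h => h ^ ((m : ℝ) / 2) * Ph ρ Q s m h) (𝓝[>] 0)
      (𝓝 (2 ^ (-((m : ℝ) / 2)) * A)) := by
  have hT : Tendsto (fun h : ℝ => (1 + h)⁻¹) (𝓝[>] 0) (𝓝[<] 1) := by
    refine tendsto_nhdsWithin_iff.2 ⟨?_, ?_⟩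
    · have h1 : Tendsto (fun h : ℝ => (1 + h)⁻¹) (𝓝 0) (𝓝 ((1 + 0)⁻¹)) := by
        refine Tendsto.inv₀ ?_ (by norm_num)
        exact (continuous_const.add continuous_id).tendsto 0
      rw [add_zero, inv_one] at h1
      exact h1.mono_left nhdsWithin_le_nhds
    · filter_upwards [self_mem_nhdsWithin] with h hh
      have hh' : (0 : ℝ) < h := hh
      have h1 : (1 : ℝ) < 1 + h := by linarith
      exact inv_lt_one_of_one_lt₀ h1
  have h2 := h.comp hT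
  have h3 : Tendsto (fun h : ℝ => √((2 + h)⁻¹) ^ m) (𝓝[>] 0) (𝓝 (√((2 + 0 : ℝ)⁻¹) ^ m)) := by
    have hc : ContinuousAt (fun h : ℝ => √((2 + h)⁻¹) ^ m) 0 := by
      have : ContinuousAt (fun h : ℝ => (2 + h)⁻¹) 0 :=
        ContinuousAt.inv₀ (by fun_prop) (by norm_num)
      fun_prop
    exact hc.tendsto.mono_left nhdsWithin_le_nhds
  have e1 : √((2 + 0 : ℝ)⁻¹) ^ m = 2 ^ (-((m : ℝ) / 2)) := by
    rw [add_zero, Real.rpow_neg (by norm_num), Real.rpow_div_two_eq_sqrt _ (by norm_num),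
      Real.rpow_natCast, Real.sqrt_inv, inv_pow]
  rw [e1] at h3
  refine (h3.mul h2).congr' ?_
  filter_upwards [self_mem_nhdsWithin] with h hh
  have hh' : (0 : ℝ) < h := hh
  have h1h : (0 : ℝ) < 1 + h := by linarith
  simp only [comp_apply]
  have e2 : kp (1 + h)⁻¹ = (1 + h)⁻¹ * (√h * √(2 + h)) := by
    unfold kp
    rw [← Real.sqrt_mul hh'.le]
    have e3 : (1 : ℝ) - (1 + h)⁻¹ ^ 2 = ((1 + h)⁻¹) ^ 2 * (h * (2 + h)) := by
      field_simp
      ring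
    rw [e3, Real.sqrt_mul (by positivity), Real.sqrt_sq (by positivity)]
  have e4 : ∀ y, cv m (1 + h)⁻¹ (s y) = (√h * √(2 + h)) ^ m * ((h + 1 - s y) ^ m)⁻¹ := by
    intro y
    unfold cv SM2.ker
    have e5 : 1 - (1 + h)⁻¹ * s y = (1 + h)⁻¹ * (h + 1 - s y) := by
      field_simp
      ring
    rw [e2, e5, mul_pow, mul_pow (1 + h)⁻¹ (h + 1 - s y), mul_inv]
    have : ((1 + h)⁻¹ ^ m) ≠ 0 := by positivity
    field_simp
  have e6 : ∫ y, Q y * cv m (1 + h)⁻¹ (s y) ∂ρ = (√h * √(2 + h)) ^ m * Ph ρ Q s m h := by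
    unfold Ph
    rw [← integral_const_mul]
    refine integral_congr_ae (Eventually.of_forall fun y => ?_)
    simp only [e4]
    ring
  rw [e6, Real.rpow_div_two_eq_sqrt _ hh'.le, Real.rpow_natCast, ← mul_assoc, ← mul_pow]
  congr 2
  rw [Real.sqrt_inv, mul_comm (√h), ← mul_assoc, inv_mul_cancel₀ (Real.sqrt_pos.2 (by linarith)).ne',
    one_mul]

end

end Vale.Agent.P224.UG
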