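import Vale.Agent.P224.UG.Def
import Vale.Agent.P224.UG.LimA
import Vale.Agent.P224.UG.Lim1
import Vale.Agent.P224.UE.Sing6

/-!
The limit of the second conformal kernel at the diagonal.
-/

namespace Vale.Agent.P224.UG

open MeasureTheory Set Filter Function
open Vale.Agent.P224.UE
open scoped Topology RealInnerProductSpace

set_option linter.unusedSectionVars false

section

variable {Y : Type*} [MeasurableSpace Y] {ρ : Measure Y} [IsFiniteMeasure ρ] {Q s : Y → ℝ} {B : ℝ}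

/-- the second kernel in terms of the Stieltjes kernel -/
lemma cw_eq {m : ℕ} {τ : ℝ} (h0 : 0 < τ) (h1 : τ < 1) (x : ℝ) :
    cw m τ x = τ * √(2 + (τ⁻¹ - 1)) ^ (m + 2) * (τ⁻¹ - 1) ^ ((m : ℝ) / 2 + 1)
      * (((τ⁻¹ - 1) + 1 - x) ^ (m + 1))⁻¹ := by
  set h := τ⁻¹ - 1 with hh
  have hh0 : 0 < h := by
    have := (one_lt_inv₀ h0).2 h1
    linarith
  have e1 : τ⁻¹ = 1 + h := by rw [hh]; ring
  have e2 : kp τ = τ * (√h * √(2 + h)) := by
    unfold kp
    rw [← Real.sqrt_mul hh0.le]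
    have e3 : (1 : ℝ) - τ ^ 2 = τ ^ 2 * (h * (2 + h)) := by
      rw [hh]
      field_simp
      ring
    rw [e3, Real.sqrt_mul (by positivity), Real.sqrt_sq h0.le]
  have e3 : h ^ ((m : ℝ) / 2 + 1) = √h ^ (m + 2) := by
    have : (m : ℝ) / 2 + 1 = ((m + 2 : ℕ) : ℝ) / 2 := by
      push_cast
      ring
    rw [this, Real.rpow_div_two_eq_sqrt _ hh0.le, Real.rpow_natCast]
  have e4 : 1 - τ * x = τ * (h + 1 - x) := by
    rw [hh]
    field_simp
    ring
  unfold cw SM2.ker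
  rw [e2, e3, e4, mul_pow, mul_pow, mul_pow τ (h + 1 - x), mul_inv]
  have : τ ^ (m + 2) * (τ ^ (m + 1))⁻¹ = τ := by
    rw [pow_succ τ (m + 1)]
    field_simp
  linear_combination (√h ^ (m + 2) * √(2 + h) ^ (m + 2) * ((h + 1 - x) ^ (m + 1))⁻¹) * this

/-- the limit of the second kernel from the limit of the first one -/
theorem cw_tendsto (hd : PD ρ Q s B) {m : ℕ} (hm : 0 < m) {A : ℝ}
    (h : Tendsto (fun T => ∫ y, Q y * cv m T (s y) ∂ρ) (𝓝[<] 1) (𝓝 A)) :
    Tendsto (fun τ => ∫ y, Q y * cw m τ (s y) ∂ρ) (𝓝[<] 1) (𝓝 A) := by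
  have hm' : (m : ℝ) ≠ 0 := by
    have : (0 : ℝ) < m := by exact_mod_cast hm
    exact this.ne'
  have h1 := hd.Ph_succ hm (Ph_of_cv h)
  have hT : Tendsto (fun τ : ℝ => τ⁻¹ - 1) (𝓝[<] 1) (𝓝[>] 0) := by
    refine tendsto_nhdsWithin_iff.2 ⟨?_, ?_⟩
    · have h1 : Tendsto (fun τ : ℝ => τ⁻¹ - 1) (𝓝 1) (𝓝 ((1 : ℝ)⁻¹ - 1)) :=
        (tendsto_inv₀ one_ne_zero).sub_const 1
      rw [inv_one, sub_self] at h1
      exact h1.mono_left nhdsWithin_le_nhds
    · have h0 : ∀ᶠ T in 𝓝[<] (1 : ℝ), T ∈ Ioo (0 : ℝ) 1 := Ioo_mem_nhdsLT one_pos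
      filter_upwards [h0] with τ hτ
      have := (one_lt_inv₀ hτ.1).2 hτ.2
      exact sub_pos.2 this
  have h2 := h1.comp hT
  have h3 : Tendsto (fun τ : ℝ => τ * √(2 + (τ⁻¹ - 1)) ^ (m + 2)) (𝓝[<] 1)
      (𝓝 (1 * √(2 + (0 : ℝ)) ^ (m + 2))) := by
    have h4 : Tendsto (fun τ : ℝ => τ⁻¹ - 1) (𝓝[<] 1) (𝓝 0) :=
      hT.mono_right nhdsWithin_le_nhds
    have h5 : Tendsto (fun τ : ℝ => τ) (𝓝[<] 1) (𝓝 1) := tendsto_id.mono_left nhdsWithin_le_nhds
    exact h5.mul (((h4.const_add 2).sqrt).pow (m + 2))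
  have h6 := h3.mul h2
  have e1 : 1 * √(2 + (0 : ℝ)) ^ (m + 2)
      * ((m : ℝ) / 2 * (2 ^ (-((m : ℝ) / 2)) * A) / m) = A := by
    have e2 : √(2 + (0 : ℝ)) ^ (m + 2) = 2 * 2 ^ ((m : ℝ) / 2) := by
      rw [add_zero, pow_add, Real.sq_sqrt (by norm_num), Real.rpow_div_two_eq_sqrt _ (by norm_num),
        Real.rpow_natCast]
      ring
    rw [e2, Real.rpow_neg (by norm_num)]
    have : (2 : ℝ) ^ ((m : ℝ) / 2) ≠ 0 := (Real.rpow_pos_of_pos (by norm_num) _).ne'
    field_simp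
  rw [e1] at h6
  refine h6.congr' ?_
  have h0 : ∀ᶠ T in 𝓝[<] (1 : ℝ), T ∈ Ioo (0 : ℝ) 1 := Ioo_mem_nhdsLT one_pos
  filter_upwards [h0] with τ hτ
  simp only [comp_apply]
  unfold Ph
  rw [← mul_assoc, ← integral_const_mul]
  refine integral_congr_ae (Eventually.of_forall fun y => ?_)
  simp only
  rw [cw_eq hτ.1 hτ.2]
  ring

end

section

variable {X : Type*} [MeasurableSpace X]
  {E : Type*} [NormedAddCommGroup E]
  [InnerProductSpace ℝ E] [MeasurableSpace E] [BorelSpace E] [SecondCountableTopology E]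
  {μ : Measure X} [IsFiniteMeasure μ] {m : ℕ} {p n : X → E} {C S : ℝ}

lemma integrable_cw (h : FV.Pts p n) (e : E) {τ : ℝ} (hτ : τ ∈ Ico (0 : ℝ) 1) :
    Integrable (fun q => cw m τ (dat p n e q 0)) (μ.prod μ) := by
  unfold cw
  exact (integrable_ker1 (μ := μ.prod μ) (measurable_dat0 h e) (dat0_mem h e) hτ
    (m + 1)).const_mul _

/-- the limit of the second kernel at the diagonal -/
theorem flux_cw (hD : EmbD μ m p n C S) (hm : 0 < m) (e : E) {Q : R9 → ℝ} (hQ : Continuous Q) :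
    Tendsto (fun τ => ∫ q, Q (dat p n e q) * cw m τ (dat p n e q 0) ∂(μ.prod μ)) (𝓝[<] 1)
      (𝓝 (S * ∫ y, Q (dat p n e (y, y)) ∂μ)) := by
  have hP := hD.toTwoG.toPts
  have hmd := measurable_dat hP e
  obtain ⟨B, hB⟩ := (isCompact_KE (bE e)).exists_bound_of_continuousOn hQ.continuousOn
  have hB' : ∀ q, |Q (dat p n e q)| ≤ |B| := fun q => by
    have := hB _ (dat_mem hP e q)
    rw [Real.norm_eq_abs] at this
    exact this.trans (le_abs_self B)
  have hs0 : ∀ q, dat p n e q 0 ∈ Icc (-1 : ℝ) 1 := dat0_mem hP e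
  have hd1 : PD (μ.prod μ) (fun q => Q (dat p n e q) + |B|) (fun q => dat p n e q 0) (2 * |B|) :=
    ⟨(hQ.measurable.comp hmd).add_const _, measurable_dat0 hP e,
      fun q => by have := abs_le.1 (hB' q); linarith [this.1],
      fun q => by have := abs_le.1 (hB' q); linarith [this.2],
      fun q => (hs0 q).2, fun q => (hs0 q).1⟩
  have hd2 : PD (μ.prod μ) (fun _ => |B|) (fun q => dat p n e q 0) |B| :=
    ⟨measurable_const, measurable_dat0 hP e, fun _ => abs_nonneg _, fun _ => le_rfl,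
      fun q => (hs0 q).2, fun q => (hs0 q).1⟩
  have f1 := cw_tendsto hd1 hm (hD.flux e (fun d => Q d + |B|) (hQ.add continuous_const))
  have f2 := cw_tendsto hd2 hm (hD.flux e (fun _ => |B|) continuous_const)
  have hmd1 : Measurable fun y => dat p n e (y, y) :=
    hmd.comp (measurable_id.prodMk measurable_id)
  have hiQ : Integrable (fun y => Q (dat p n e (y, y))) μ :=
    Integrable.of_bound (hQ.measurable.comp hmd1).aestronglyMeasurable |B|
      (Eventually.of_forall fun y => by rw [Real.norm_eq_abs]; exact hB' _)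
  have f3 := f1.sub f2
  have e1 : S * ∫ y, (Q (dat p n e (y, y)) + |B|) ∂μ - S * ∫ _, |B| ∂μ
      = S * ∫ y, Q (dat p n e (y, y)) ∂μ := by
    rw [integral_add hiQ (integrable_const _)]
    ring
  rw [e1] at f3
  refine f3.congr' ?_
  have h0 : ∀ᶠ T in 𝓝[<] (1 : ℝ), T ∈ Ioo (0 : ℝ) 1 := Ioo_mem_nhdsLT one_pos
  filter_upwards [h0] with τ hτ
  have hi := integrable_cw (m := m) (μ := μ) hP e (τ := τ) ⟨hτ.1.le, hτ.2⟩
  have hi1 : Integrable (fun q => Q (dat p n e q) * cw m τ (dat p n e q 0)) (μ.prod μ) :=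
    hi.bdd_mul (c := |B|) (hQ.measurable.comp hmd).aestronglyMeasurable
      (Eventually.of_forall fun q => by rw [Real.norm_eq_abs]; exact hB' q)
  have hi2 := hi.const_mul |B|
  rw [← integral_sub]
  · refine integral_congr_ae (Eventually.of_forall fun q => ?_)
    simp only
    ring
  · refine (hi1.add hi2).congr (Eventually.of_forall fun q => ?_)
    simp only [Pi.add_apply]
    ring
  · exact hi2

/-- the bound of the second kernel -/
theorem cw_mass_le (h : TwoG μ m p n) (hm : 0 < m) (e : E) :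
    ∀ τ ∈ Ico (0 : ℝ) 1, ∫ q, cw m τ (dat p n e q 0) ∂(μ.prod μ) ≤ μ.real univ ^ 2 := by
  intro τ hτ
  have hi := integrable_cw (m := m) (μ := μ) h.toPts e hτ
  rw [integral_prod_symm _ hi]
  have h1 : ∀ z, ∫ x, cw m τ (dat p n e (x, z) 0) ∂μ ≤ μ.real univ := by
    intro z
    have h2 := TwoE.cj_bound h.toTwoE hm z 1 τ hτ
    have e1 : cc m 1 = 1 := by
      have : (m : ℝ) ≠ 0 := by
        have : (0 : ℝ) < m := by exact_mod_cast hm
        exact this.ne'
      simp [cc, this]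
    rw [e1, one_mul] at h2
    exact h2
  calc ∫ z, ∫ x, cw m τ (dat p n e (x, z) 0) ∂μ ∂μ ≤ ∫ _, μ.real univ ∂μ :=
        integral_mono hi.integral_prod_right (integrable_const _) h1
    _ = μ.real univ ^ 2 := by
        rw [integral_const, smul_eq_mul]
        ring

end

end Vale.Agent.P224.UG
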