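import Vale.Agent.P224.UG.Def
import Mathlib.Analysis.SpecialFunctions.Gaussian.GaussianIntegral
import Mathlib.MeasureTheory.Function.Jacobian
import Mathlib.Analysis.SpecialFunctions.Arsinh

/-!
The radial integral of the Gaussian weight as a mixture of conformal kernels.
-/

namespace Vale.Agent.P224.UG

open MeasureTheory Set Filter Function Vale.Agent.P224.UE
open Vale.Agent.P224.SM2 hiding ker
open scoped Topology RealInnerProductSpace ENNReal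

/-- scaling on the half line -/
lemma lint_scale {c : ℝ} (hc : 0 < c) (f : ℝ → ℝ≥0∞) :
    ∫⁻ x in Ioi (0 : ℝ), f x = ∫⁻ x in Ioi (0 : ℝ), ENNReal.ofReal c * f (c * x) := by
  have himg : (fun x : ℝ => c * x) '' Ioi (0 : ℝ) = Ioi 0 := by
    ext y
    constructor
    · rintro ⟨x, hx, rfl⟩
      exact mul_pos hc hx
    · intro hy
      exact ⟨y / c, div_pos hy hc, by field_simp⟩
  have h := lintegral_image_eq_lintegral_abs_deriv_mul (s := Ioi (0 : ℝ))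
    (f := fun x : ℝ => c * x) (f' := fun _ => c) measurableSet_Ioi
    (fun x _ => by simpa using ((hasDerivAt_id x).const_mul c).hasDerivWithinAt)
    (fun x _ y _ hxy => by
      have : c * x = c * y := hxy
      exact mul_left_cancel₀ hc.ne' this) f
  rw [himg] at h
  simpa [abs_of_pos hc] using h

/-- the radial moment of power `2 m + 1` -/
noncomputable def Jm (m : ℕ) : ℝ≥0∞ :=
  ∫⁻ x in Ioi (0 : ℝ), ENNReal.ofReal (x ^ (2 * m + 1) * Real.exp (-(x ^ 2) / 2))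

lemma Jm_ne_top (m : ℕ) : Jm m ≠ ⊤ := by
  have h1 := integrable_rpow_mul_exp_neg_mul_sq (b := 1 / 2) (by norm_num)
    (s := ((2 * m + 1 : ℕ) : ℝ)) (by
      have : (0 : ℝ) ≤ ((2 * m + 1 : ℕ) : ℝ) := Nat.cast_nonneg _
      linarith)
  have h2 := h1.integrableOn (s := Ioi (0 : ℝ))
  have h3 := h2.lintegral_lt_top
  refine ne_of_lt (lt_of_eq_of_lt ?_ h3)
  unfold Jm
  refine lintegral_congr fun x => ?_
  rw [Real.rpow_natCast]
  congr 3
  ring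

lemma Jm_pos (m : ℕ) : 0 < Jm m := by
  unfold Jm
  rw [setLIntegral_pos_iff]
  · have : (support fun x : ℝ => ENNReal.ofReal (x ^ (2 * m + 1) * Real.exp (-(x ^ 2) / 2)))
        ∩ Ioi 0 = Ioi 0 := by
      refine inter_eq_right.2 fun x hx => ?_
      have hx' : (0 : ℝ) < x := hx
      simp only [mem_support, ne_eq, ENNReal.ofReal_eq_zero, not_le]
      positivity
    rw [this]
    simp
  · exact ENNReal.measurable_ofReal.comp (by fun_prop)

lemma lint_sigma (m : ℕ) {b : ℝ} (hb : 0 < b) :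
    ∫⁻ x in Ioi (0 : ℝ), ENNReal.ofReal (x ^ (2 * m + 1) * Real.exp (-(b * x ^ 2) / 2))
      = ENNReal.ofReal ((b ^ (m + 1))⁻¹) * Jm m := by
  have hs : 0 < √b := Real.sqrt_pos.2 hb
  set c := (√b)⁻¹ with hc
  have hc0 : 0 < c := inv_pos.2 hs
  have hcb : c ^ 2 = b⁻¹ := by rw [hc, inv_pow, Real.sq_sqrt hb.le]
  rw [lint_scale hc0]
  unfold Jm
  have hmeas : Measurable fun x : ℝ => ENNReal.ofReal (x ^ (2 * m + 1) * Real.exp (-(x ^ 2) / 2)) :=
    Measurable.ennreal_ofReal (by fun_prop)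
  rw [← lintegral_const_mul _ hmeas]
  refine lintegral_congr fun x => ?_
  rw [← ENNReal.ofReal_mul hc0.le, ← ENNReal.ofReal_mul (by positivity)]
  congr 1
  have e1 : b * (c * x) ^ 2 = x ^ 2 := by
    rw [mul_pow, hcb]
    field_simp
  have e2 : c * (c * x) ^ (2 * m + 1) = (b ^ (m + 1))⁻¹ * x ^ (2 * m + 1) := by
    have : c * c ^ (2 * m + 1) = (b ^ (m + 1))⁻¹ := by
      rw [← inv_pow, ← hcb, ← pow_mul]
      ring
    rw [mul_pow, ← mul_assoc, this]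
  rw [e1, ← mul_assoc, e2]
  ring

/-- the ratio of the radii as a function of the mixture parameter -/
noncomputable def uu (k η : ℝ) : ℝ := Real.exp (Real.arsinh (k * η))

lemma uu_pos (k η : ℝ) : 0 < uu k η := Real.exp_pos _

lemma uu_sq (k η : ℝ) : 1 + uu k η ^ 2 = 2 * uu k η * √(1 + (k * η) ^ 2) := by
  unfold uu
  rw [Real.exp_arsinh]
  have h : √(1 + (k * η) ^ 2) ^ 2 = 1 + (k * η) ^ 2 := Real.sq_sqrt (by positivity)
  nlinarith

lemma hasDerivAt_uu (k η : ℝ) :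
    HasDerivAt (uu k) (uu k η * (k * (√(1 + (k * η) ^ 2))⁻¹)) η := by
  have h1 : HasDerivAt (fun η => k * η) k η := by
    simpa using (hasDerivAt_id η).const_mul k
  have h2 := (Real.hasDerivAt_arsinh (k * η)).comp η h1
  have h3 := h2.exp
  refine h3.congr_deriv ?_
  unfold uu
  simp only [Function.comp_apply]
  ring

lemma image_uu {k : ℝ} (hk : 0 < k) : uu k '' univ = Ioi 0 := by
  ext y
  constructor
  · rintro ⟨x, _, rfl⟩
    exact uu_pos k x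
  · intro hy
    have hy' : (0 : ℝ) < y := hy
    refine ⟨Real.sinh (Real.log y) / k, mem_univ _, ?_⟩
    unfold uu
    rw [mul_div_cancel₀ _ hk.ne', Real.arsinh_sinh, Real.exp_log hy']

lemma injOn_uu {k : ℝ} (hk : 0 < k) : InjOn (uu k) univ := by
  intro x _ y _ h
  have h1 := Real.exp_injective h
  have h2 := Real.arsinh_injective h1
  exact mul_left_cancel₀ hk.ne' h2

/-- the mixture parameter -/
noncomputable def tau (T η : ℝ) : ℝ := T / √(1 + (1 - T ^ 2) * η ^ 2)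

lemma w_ge {T η : ℝ} (hT : T ∈ Ico (0 : ℝ) 1) : 1 ≤ √(1 + (1 - T ^ 2) * η ^ 2) := by
  have h0 := one_sub_sq_pos hT
  rw [← Real.sqrt_one]
  refine Real.sqrt_le_sqrt ?_
  have : 0 ≤ (1 - T ^ 2) * η ^ 2 := by positivity
  rw [Real.sqrt_one]
  linarith

lemma tau_nonneg {T η : ℝ} (hT : T ∈ Ico (0 : ℝ) 1) : 0 ≤ tau T η :=
  div_nonneg hT.1 (Real.sqrt_nonneg _)

lemma tau_le {T η : ℝ} (hT : T ∈ Ico (0 : ℝ) 1) : tau T η ≤ T :=
  div_le_self hT.1 (w_ge hT)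

lemma tau_mem {T η : ℝ} (hT : T ∈ Ico (0 : ℝ) 1) : tau T η ∈ Ico (0 : ℝ) 1 :=
  ⟨tau_nonneg hT, (tau_le hT).trans_lt hT.2⟩

lemma kp_tau {T η : ℝ} (hT : T ∈ Ico (0 : ℝ) 1) :
    kp (tau T η) = kp T * √(1 + η ^ 2) / √(1 + (1 - T ^ 2) * η ^ 2) := by
  have h0 := one_sub_sq_pos hT
  have hw : 0 < √(1 + (1 - T ^ 2) * η ^ 2) := one_pos.trans_le (w_ge hT)
  have hw2 : √(1 + (1 - T ^ 2) * η ^ 2) ^ 2 = 1 + (1 - T ^ 2) * η ^ 2 :=
    Real.sq_sqrt (by positivity)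
  have hy : √(1 + η ^ 2) ^ 2 = 1 + η ^ 2 := Real.sq_sqrt (by positivity)
  have hk := kp_sq hT
  unfold kp at hk ⊢
  rw [Real.sqrt_eq_iff_mul_self_eq]
  · unfold tau
    have : √(1 - T ^ 2) * √(1 + η ^ 2) / √(1 + (1 - T ^ 2) * η ^ 2) *
        (√(1 - T ^ 2) * √(1 + η ^ 2) / √(1 + (1 - T ^ 2) * η ^ 2))
        = √(1 - T ^ 2) ^ 2 * √(1 + η ^ 2) ^ 2 / √(1 + (1 - T ^ 2) * η ^ 2) ^ 2 := by
      ring
    rw [this, hk, hy, div_pow, hw2]
    field_simp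
    ring
  · have := (tau_mem (η := η) hT)
    nlinarith [this.1, this.2]
  · positivity

/-- the integrand of the mixture -/
noncomputable def mix (m : ℕ) (T s η : ℝ) : ℝ :=
  (√(1 + η ^ 2) ^ (m + 2))⁻¹ * cw m (tau T η) s

lemma mix_nonneg {T s : ℝ} (hT : T ∈ Ico (0 : ℝ) 1) (hs : s ∈ Icc (-1 : ℝ) 1) (m : ℕ) (η : ℝ) :
    0 ≤ mix m T s η := by
  unfold mix cw
  have h1 := ker_nonneg (tau_mem (η := η) hT) hs (m + 1)
  have h2 : 0 ≤ kp (tau T η) := Real.sqrt_nonneg _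
  positivity

/-- the change of variables -/
lemma key_eq {T s : ℝ} (hT : T ∈ Ico (0 : ℝ) 1) (hs : s ∈ Icc (-1 : ℝ) 1) (m : ℕ) (η : ℝ) :
    kp T ^ (m + 1) * (uu (kp T) η * (kp T * (√(1 + (kp T * η) ^ 2))⁻¹)
      * (uu (kp T) η ^ m * ((1 + uu (kp T) η ^ 2 - 2 * T * uu (kp T) η * s) ^ (m + 1))⁻¹))
      = (2 ^ (m + 1))⁻¹ * mix m T s η := by
  have hk := kp_pos hT
  have hk2 := kp_sq hT
  have hu := uu_pos (kp T) η
  have e0 : (kp T * η) ^ 2 = (1 - T ^ 2) * η ^ 2 := by rw [mul_pow, hk2]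
  have h1 := uu_sq (kp T) η
  rw [e0] at h1 ⊢
  have hwg := w_ge (η := η) hT
  have htau := tau_mem (η := η) hT
  have hkt := kp_tau (η := η) hT
  have hy : 0 < √(1 + η ^ 2) := Real.sqrt_pos.2 (by positivity)
  have htd : tau T η = T / √(1 + (1 - T ^ 2) * η ^ 2) := rfl
  set w := √(1 + (1 - T ^ 2) * η ^ 2) with hw
  set u := uu (kp T) η with hudef
  set y := √(1 + η ^ 2) with hydef
  have hw0 : 0 < w := by linarith
  have hv : 0 < 1 - tau T η * s := one_sub_pos' htau hs.2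
  have e1 : 1 + u ^ 2 - 2 * T * u * s = 2 * u * (w * (1 - tau T η * s)) := by
    rw [htd, h1]
    field_simp
  rw [e1]
  unfold mix cw SM2.ker
  rw [hkt]
  have hv' := hv.ne'
  generalize 1 - tau T η * s = v at hv' ⊢
  rw [div_pow, mul_pow, mul_pow, mul_pow, mul_pow, ← hydef]
  field_simp
  ring

lemma measurable_mix (m : ℕ) (T s : ℝ) : Measurable (mix m T s) := by
  unfold mix cw SM2.ker kp tau
  fun_prop

lemma cw_le {T s : ℝ} (hT : T ∈ Ico (0 : ℝ) 1) (hs : s ∈ Icc (-1 : ℝ) 1) (m : ℕ) (η : ℝ) :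
    cw m (tau T η) s ≤ 2 ^ (m + 1) * (kp T ^ m)⁻¹ := by
  have ht := tau_mem (η := η) hT
  have hle := tau_le (η := η) hT
  have hk := kp_pos hT
  have hkt := kp_pos ht
  have hk2 := kp_sq ht
  set τ := tau T η with hτ
  have h1 : kp T ≤ kp τ := by
    unfold kp
    refine Real.sqrt_le_sqrt ?_
    nlinarith [ht.1]
  have h2 : kp τ ^ 2 / 2 ≤ 1 - τ * s := by
    rw [hk2]
    have := mul_le_mul_of_nonneg_left hs.2 ht.1
    nlinarith [ht.1, ht.2]
  have h3 : SM2.ker τ (m + 1) s ≤ ((kp τ ^ 2 / 2) ^ (m + 1))⁻¹ := by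
    unfold SM2.ker
    exact inv_anti₀ (by positivity) (pow_le_pow_left₀ (by positivity) h2 _)
  unfold cw
  calc kp τ ^ (m + 2) * SM2.ker τ (m + 1) s
      ≤ kp τ ^ (m + 2) * ((kp τ ^ 2 / 2) ^ (m + 1))⁻¹ :=
        mul_le_mul_of_nonneg_left h3 (by positivity)
    _ = 2 ^ (m + 1) * (kp τ ^ m)⁻¹ := by
        rw [div_pow, ← pow_mul]
        field_simp
        ring
    _ ≤ 2 ^ (m + 1) * (kp T ^ m)⁻¹ := by
        refine mul_le_mul_of_nonneg_left ?_ (by positivity)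
        exact inv_anti₀ (by positivity) (pow_le_pow_left₀ hk.le h1 m)

lemma mix_le {T s : ℝ} (hT : T ∈ Ico (0 : ℝ) 1) (hs : s ∈ Icc (-1 : ℝ) 1) (m : ℕ) (η : ℝ) :
    mix m T s η ≤ 2 ^ (m + 1) * (kp T ^ m)⁻¹ * (1 + η ^ 2)⁻¹ := by
  have h1 := cw_le hT hs m η
  have hk := kp_pos hT
  have hy : 1 ≤ √(1 + η ^ 2) := by
    rw [Real.one_le_sqrt]
    nlinarith [sq_nonneg η]
  have hy2 : √(1 + η ^ 2) ^ 2 = 1 + η ^ 2 := Real.sq_sqrt (by positivity)
  have h2 : (√(1 + η ^ 2) ^ (m + 2))⁻¹ ≤ (1 + η ^ 2)⁻¹ := by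
    have h3 : √(1 + η ^ 2) ^ 2 ≤ √(1 + η ^ 2) ^ (m + 2) := pow_le_pow_right₀ hy (by omega)
    have h4 : 1 + η ^ 2 ≤ √(1 + η ^ 2) ^ (m + 2) := hy2.symm.le.trans h3
    exact inv_anti₀ (by positivity) h4
  unfold mix
  calc (√(1 + η ^ 2) ^ (m + 2))⁻¹ * cw m (tau T η) s
      ≤ (√(1 + η ^ 2) ^ (m + 2))⁻¹ * (2 ^ (m + 1) * (kp T ^ m)⁻¹) :=
        mul_le_mul_of_nonneg_left h1 (by positivity)
    _ ≤ (1 + η ^ 2)⁻¹ * (2 ^ (m + 1) * (kp T ^ m)⁻¹) :=
        mul_le_mul_of_nonneg_right h2 (by positivity)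
    _ = _ := by ring

lemma integrable_mix {T s : ℝ} (hT : T ∈ Ico (0 : ℝ) 1) (hs : s ∈ Icc (-1 : ℝ) 1) (m : ℕ) :
    Integrable (mix m T s) := by
  refine (integrable_inv_one_add_sq.const_mul (2 ^ (m + 1) * (kp T ^ m)⁻¹)).mono'
    (measurable_mix m T s).aestronglyMeasurable (Eventually.of_forall fun η => ?_)
  rw [Real.norm_eq_abs, abs_of_nonneg (mix_nonneg hT hs m η)]
  exact mix_le hT hs m η

lemma b_pos {T s u : ℝ} (hT : T ∈ Ico (0 : ℝ) 1) (hs : s ∈ Icc (-1 : ℝ) 1) (hu : 0 < u) :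
    0 < 1 + u ^ 2 - 2 * T * u * s := by
  have h1 := mul_le_mul_of_nonneg_left hs.2 (mul_nonneg hT.1 hu.le)
  have h2 := mul_pos hu (sub_pos.2 hT.2)
  nlinarith [sq_nonneg (1 - u)]

lemma measurable_gw (m : ℕ) (T s : ℝ) : Measurable (gw m T s) := by
  unfold gw
  fun_prop

/-- the identity for lower integrals -/
lemma lint_gw {T s : ℝ} (hT : T ∈ Ico (0 : ℝ) 1) (hs : s ∈ Icc (-1 : ℝ) 1) (m : ℕ) :
    ENNReal.ofReal (kp T ^ (m + 1)) * ∫⁻ z, ENNReal.ofReal (gw m T s z) ∂rm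
      = ENNReal.ofReal ((2 ^ (m + 1))⁻¹) * Jm m * ∫⁻ η, ENNReal.ofReal (mix m T s η) := by
  have hk := kp_pos hT
  set b : ℝ → ℝ := fun u => 1 + u ^ 2 - 2 * T * u * s with hb
  have hbm : Measurable b := by rw [hb]; fun_prop
  -- step 1
  have s1 : ∫⁻ z, ENNReal.ofReal (gw m T s z) ∂rm
      = ∫⁻ σ in Ioi (0 : ℝ), ∫⁻ u in Ioi (0 : ℝ),
        ENNReal.ofReal (u ^ m * (σ ^ (2 * m + 1) * Real.exp (-(b u * σ ^ 2) / 2))) := by
    unfold rm
    rw [lintegral_prod_symm' _ (Measurable.ennreal_ofReal (measurable_gw m T s))]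
    refine setLIntegral_congr_fun measurableSet_Ioi fun σ hσ => ?_
    have hσ' : (0 : ℝ) < σ := hσ
    rw [lint_scale hσ']
    refine setLIntegral_congr_fun measurableSet_Ioi fun u hu => ?_
    have hu' : (0 : ℝ) < u := hu
    rw [← ENNReal.ofReal_mul hσ'.le]
    congr 1
    unfold gw
    simp only
    have e1 : -((σ * u) ^ 2 + σ ^ 2) / 2 + T * (σ * u * σ) * s = -(b u * σ ^ 2) / 2 := by
      rw [hb]
      ring
    rw [e1]
    ring
  -- step 2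
  have s2 : ∫⁻ σ in Ioi (0 : ℝ), ∫⁻ u in Ioi (0 : ℝ),
        ENNReal.ofReal (u ^ m * (σ ^ (2 * m + 1) * Real.exp (-(b u * σ ^ 2) / 2)))
      = ∫⁻ u in Ioi (0 : ℝ), ∫⁻ σ in Ioi (0 : ℝ),
        ENNReal.ofReal (u ^ m * (σ ^ (2 * m + 1) * Real.exp (-(b u * σ ^ 2) / 2))) := by
    refine lintegral_lintegral_swap (Measurable.aemeasurable ?_)
    have h3 : Measurable fun z : ℝ × ℝ => b z.2 := hbm.comp measurable_snd
    have h4 : Measurable fun z : ℝ × ℝ =>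
        z.2 ^ m * (z.1 ^ (2 * m + 1) * Real.exp (-(b z.2 * z.1 ^ 2) / 2)) := by fun_prop
    exact h4.ennreal_ofReal
  -- step 3
  have s3 : ∫⁻ u in Ioi (0 : ℝ), ∫⁻ σ in Ioi (0 : ℝ),
        ENNReal.ofReal (u ^ m * (σ ^ (2 * m + 1) * Real.exp (-(b u * σ ^ 2) / 2)))
      = (∫⁻ u in Ioi (0 : ℝ), ENNReal.ofReal (u ^ m * (b u ^ (m + 1))⁻¹)) * Jm m := by
    rw [← lintegral_mul_const _ (Measurable.ennreal_ofReal (by fun_prop))]
    refine setLIntegral_congr_fun measurableSet_Ioi fun u hu => ?_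
    have hu' : (0 : ℝ) < u := hu
    have hbu : 0 < b u := b_pos hT hs hu'
    have e1 : ∀ σ : ℝ, ENNReal.ofReal (u ^ m * (σ ^ (2 * m + 1) * Real.exp (-(b u * σ ^ 2) / 2)))
        = ENNReal.ofReal (u ^ m)
          * ENNReal.ofReal (σ ^ (2 * m + 1) * Real.exp (-(b u * σ ^ 2) / 2)) := fun σ =>
      ENNReal.ofReal_mul (by positivity)
    rw [lintegral_congr e1, lintegral_const_mul _ (Measurable.ennreal_ofReal (by fun_prop)),
      lint_sigma m hbu, ENNReal.ofReal_mul (by positivity), mul_assoc]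
  -- step 4
  have s4 : ∫⁻ u in Ioi (0 : ℝ), ENNReal.ofReal (u ^ m * (b u ^ (m + 1))⁻¹)
      = ∫⁻ η, ENNReal.ofReal (uu (kp T) η * (kp T * (√(1 + (kp T * η) ^ 2))⁻¹)
        * (uu (kp T) η ^ m * (b (uu (kp T) η) ^ (m + 1))⁻¹)) := by
    have h := lintegral_image_eq_lintegral_abs_deriv_mul (s := (univ : Set ℝ)) (f := uu (kp T))
      (f' := fun η => uu (kp T) η * (kp T * (√(1 + (kp T * η) ^ 2))⁻¹)) MeasurableSet.univ
      (fun x _ => (hasDerivAt_uu (kp T) x).hasDerivWithinAt) (injOn_uu hk)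
      (fun u => ENNReal.ofReal (u ^ m * (b u ^ (m + 1))⁻¹))
    rw [image_uu hk] at h
    rw [h, Measure.restrict_univ]
    refine lintegral_congr fun η => ?_
    have hu := uu_pos (kp T) η
    have h0 : 0 ≤ uu (kp T) η * (kp T * (√(1 + (kp T * η) ^ 2))⁻¹) := by positivity
    rw [abs_of_nonneg h0, ← ENNReal.ofReal_mul h0]
  rw [s1, s2, s3, s4]
  have s5 : ENNReal.ofReal (kp T ^ (m + 1)) * ∫⁻ η, ENNReal.ofReal (uu (kp T) η
        * (kp T * (√(1 + (kp T * η) ^ 2))⁻¹) * (uu (kp T) η ^ m * (b (uu (kp T) η) ^ (m + 1))⁻¹))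
      = ENNReal.ofReal ((2 ^ (m + 1))⁻¹) * ∫⁻ η, ENNReal.ofReal (mix m T s η) := by
    rw [← lintegral_const_mul' _ _ ENNReal.ofReal_ne_top,
      ← lintegral_const_mul' _ _ ENNReal.ofReal_ne_top]
    refine lintegral_congr fun η => ?_
    rw [← ENNReal.ofReal_mul (by positivity), ← ENNReal.ofReal_mul (by positivity)]
    congr 1
    exact key_eq hT hs m η
  rw [← mul_assoc, s5]
  ring

/-- the constant of the mixture -/
noncomputable def Km (m : ℕ) : ℝ := (2 ^ (m + 1))⁻¹ * (Jm m).toReal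

lemma Km_pos (m : ℕ) : 0 < Km m :=
  mul_pos (by positivity) (ENNReal.toReal_pos (Jm_pos m).ne' (Jm_ne_top m))

lemma gw_nonneg' {m : ℕ} {T s : ℝ} : ∀ᵐ z ∂rm, 0 ≤ gw m T s z := by
  have h : ∀ᵐ z ∂rm, z ∈ Ioi (0 : ℝ) ×ˢ Ioi (0 : ℝ) := by
    unfold rm
    rw [Measure.prod_restrict]
    exact ae_restrict_mem (measurableSet_Ioi.prod measurableSet_Ioi)
  filter_upwards [h] with z hz
  have h1 : (0 : ℝ) < z.1 := hz.1
  have h2 : (0 : ℝ) < z.2 := hz.2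
  unfold gw
  positivity

/-- **The Gaussian weight integrated over the radii is a mixture of conformal kernels.** -/
theorem gw_int (m : ℕ) {T s : ℝ} (hT : T ∈ Ico (0 : ℝ) 1) (hs : s ∈ Icc (-1 : ℝ) 1) :
    Integrable (gw m T s) rm ∧ Integrable (mix m T s) ∧
      kp T ^ (m + 1) * ∫ z, gw m T s z ∂rm = Km m * ∫ η, mix m T s η := by
  have hk := kp_pos hT
  have h := lint_gw hT hs m
  have hmix := integrable_mix hT hs m
  have hR : ∫⁻ η, ENNReal.ofReal (mix m T s η) ≠ ⊤ := hmix.lintegral_lt_top.ne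
  have hR2 : ENNReal.ofReal ((2 ^ (m + 1))⁻¹) * Jm m * ∫⁻ η, ENNReal.ofReal (mix m T s η) ≠ ⊤ :=
    ENNReal.mul_ne_top (ENNReal.mul_ne_top ENNReal.ofReal_ne_top (Jm_ne_top m)) hR
  have hk0 : ENNReal.ofReal (kp T ^ (m + 1)) ≠ 0 := by
    rw [ne_eq, ENNReal.ofReal_eq_zero, not_le]
    positivity
  have hL : ∫⁻ z, ENNReal.ofReal (gw m T s z) ∂rm ≠ ⊤ := by
    intro htop
    rw [htop, ENNReal.mul_top hk0] at h
    exact hR2 h.symm
  have hgm := (measurable_gw m T s).aestronglyMeasurable (μ := rm)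
  have hint : Integrable (gw m T s) rm := by
    refine ⟨hgm, ?_⟩
    rw [hasFiniteIntegral_iff_ofReal gw_nonneg']
    exact lt_top_iff_ne_top.2 hL
  refine ⟨hint, hmix, ?_⟩
  have e1 : ∫ z, gw m T s z ∂rm = (∫⁻ z, ENNReal.ofReal (gw m T s z) ∂rm).toReal :=
    integral_eq_lintegral_of_nonneg_ae gw_nonneg' hgm
  have e2 : ∫ η, mix m T s η = (∫⁻ η, ENNReal.ofReal (mix m T s η)).toReal :=
    integral_eq_lintegral_of_nonneg_ae (Eventually.of_forall fun η => mix_nonneg hT hs m η)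
      (measurable_mix m T s).aestronglyMeasurable
  have h2 := congrArg ENNReal.toReal h
  rw [ENNReal.toReal_mul, ENNReal.toReal_mul, ENNReal.toReal_mul,
    ENNReal.toReal_ofReal (by positivity), ENNReal.toReal_ofReal (by positivity)] at h2
  rw [e1, e2, h2]
  rfl

/-- the same with an explicit integrand -/
theorem gw_int_ex (m : ℕ) : ∃ K : ℝ, 0 < K ∧ ∀ T ∈ Ico (0 : ℝ) 1, ∀ s ∈ Icc (-1 : ℝ) 1,
    Integrable (gw m T s) rm ∧
    Integrable (fun η : ℝ => (√(1 + η ^ 2) ^ (m + 2))⁻¹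
      * cw m (T / √(1 + (1 - T ^ 2) * η ^ 2)) s) ∧
    kp T ^ (m + 1) * ∫ z, gw m T s z ∂rm = K * ∫ η : ℝ, (√(1 + η ^ 2) ^ (m + 2))⁻¹
      * cw m (T / √(1 + (1 - T ^ 2) * η ^ 2)) s :=
  ⟨Km m, Km_pos m, fun _ hT _ hs => gw_int m hT hs⟩

/-- the value at level zero -/
lemma gw_zero (m : ℕ) (s : ℝ) : ∫ z, gw m 0 s z ∂rm = im m ^ 2 := by
  have e : ∀ z : ℝ × ℝ, gw m 0 s z = (z.1 ^ m * Real.exp (-z.1 ^ 2 / 2))
      * (z.2 ^ m * Real.exp (-z.2 ^ 2 / 2)) := by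
    intro z
    unfold gw
    have h1 : -(z.1 ^ 2 + z.2 ^ 2) / 2 + 0 * (z.1 * z.2) * s
        = -z.1 ^ 2 / 2 + -z.2 ^ 2 / 2 := by ring
    rw [h1, Real.exp_add, mul_pow]
    ring
  simp only [e]
  unfold rm im
  rw [integral_prod_mul (μ := volume.restrict (Ioi (0 : ℝ))) (ν := volume.restrict (Ioi (0 : ℝ)))
    (fun ρ => ρ ^ m * Real.exp (-ρ ^ 2 / 2)) (fun ρ => ρ ^ m * Real.exp (-ρ ^ 2 / 2))]
  ring

lemma mix_zero (m : ℕ) (s η : ℝ) : mix m 0 s η = (√(1 + η ^ 2) ^ (m + 2))⁻¹ := by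
  unfold mix cw tau SM2.ker
  simp [kp]

/-- the mass of the mixture -/
theorem Km_int (m : ℕ) : Km m * ∫ η : ℝ, (√(1 + η ^ 2) ^ (m + 2))⁻¹ = im m ^ 2 := by
  have h := (gw_int m (T := 0) (s := 0) ⟨le_rfl, one_pos⟩ ⟨by norm_num, by norm_num⟩).2.2
  rw [kp_zero, one_pow, one_mul, gw_zero] at h
  simp only [mix_zero] at h
  exact h.symm

lemma integrable_mass (m : ℕ) : Integrable fun η : ℝ => (√(1 + η ^ 2) ^ (m + 2))⁻¹ := by
  have h := integrable_mix (T := 0) (s := 0) ⟨le_rfl, one_pos⟩ ⟨by norm_num, by norm_num⟩ m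
  refine h.congr (Eventually.of_forall fun η => ?_)
  exact mix_zero m 0 η

/-- the mixture parameter tends to one -/
lemma tendsto_tau (η : ℝ) : Tendsto (fun T => tau T η) (𝓝[<] 1) (𝓝[<] 1) := by
  have h0 : ∀ᶠ T in 𝓝[<] (1 : ℝ), T ∈ Ioo (0 : ℝ) 1 := Ioo_mem_nhdsLT one_pos
  refine tendsto_nhdsWithin_iff.2 ⟨?_, ?_⟩
  · have hc : ContinuousAt (fun T : ℝ => tau T η) 1 := by
      unfold tau
      refine ContinuousAt.div (by fun_prop) (by fun_prop) ?_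
      simp
    have h1 : tau 1 η = 1 := by
      unfold tau
      simp
    have h2 := hc.tendsto
    rw [h1] at h2
    exact h2.mono_left nhdsWithin_le_nhds
  · filter_upwards [h0] with T hT
    exact (tau_mem ⟨hT.1.le, hT.2⟩).2

end Vale.Agent.P224.UG
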