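import Vale.Agent.P224.UG.LimC
import Vale.Agent.P224.UG.FluxW

/-!
The limits of the Gaussian functionals of continuous functions of the unit data.
-/

namespace Vale.Agent.P224.UG

open MeasureTheory Set Filter Function
open Vale.Agent.P224.UE
open scoped Topology RealInnerProductSpace

set_option linter.unusedSectionVars false

lemma sfinite_rm : SFinite rm := by
  unfold rm
  infer_instance

attribute [local instance] sfinite_rm

lemma ae_rm : ∀ᵐ z ∂rm, 0 < z.1 ∧ 0 < z.2 := by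
  have h3 : ∀ᵐ z : ℝ × ℝ ∂rm, z ∈ Ioi (0 : ℝ) ×ˢ Ioi (0 : ℝ) := by
    unfold rm
    rw [Measure.prod_restrict]
    exact ae_restrict_mem (measurableSet_Ioi.prod measurableSet_Ioi)
  filter_upwards [h3] with z hz
  exact ⟨hz.1, hz.2⟩

/-- the majorant of the weight -/
noncomputable def gB (m : ℕ) (T : ℝ) (z : ℝ × ℝ) : ℝ :=
  z.1 ^ m * Real.exp (-((1 - T) / 2) * z.1 ^ 2) * (z.2 ^ m * Real.exp (-((1 - T) / 2) * z.2 ^ 2))

lemma integrable_gB (m : ℕ) {T : ℝ} (hT : T < 1) : Integrable (gB m T) rm := by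
  have hc0 : 0 < (1 - T) / 2 := by linarith
  have h1 := gauss_integrable m hc0
  exact h1.mul_prod h1

lemma gw_le_gB (m : ℕ) {T s : ℝ} (hT0 : 0 ≤ T) (hs : s ∈ Icc (-1 : ℝ) 1) {z : ℝ × ℝ}
    (hz : 0 < z.1 ∧ 0 < z.2) : |gw m T s z| ≤ gB m T z := by
  obtain ⟨hz1, hz2⟩ := hz
  unfold gw gB
  rw [abs_of_nonneg (by positivity)]
  have h4 : -(z.1 ^ 2 + z.2 ^ 2) / 2 + T * (z.1 * z.2) * s
      ≤ -((1 - T) / 2) * z.1 ^ 2 + -((1 - T) / 2) * z.2 ^ 2 := by
    have h5 : T * (z.1 * z.2) * s ≤ T * ((z.1 ^ 2 + z.2 ^ 2) / 2) := by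
      have h6 : z.1 * z.2 * s ≤ z.1 * z.2 * 1 := mul_le_mul_of_nonneg_left hs.2 (by positivity)
      have h7 : z.1 * z.2 ≤ (z.1 ^ 2 + z.2 ^ 2) / 2 := by nlinarith [sq_nonneg (z.1 - z.2)]
      have h8 : z.1 * z.2 * s ≤ (z.1 ^ 2 + z.2 ^ 2) / 2 := by linarith
      have h9 := mul_le_mul_of_nonneg_left h8 hT0
      calc T * (z.1 * z.2) * s = T * (z.1 * z.2 * s) := by ring
        _ ≤ _ := h9
    linarith
  calc (z.1 * z.2) ^ m * Real.exp (-(z.1 ^ 2 + z.2 ^ 2) / 2 + T * (z.1 * z.2) * s)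
      ≤ (z.1 * z.2) ^ m * Real.exp (-((1 - T) / 2) * z.1 ^ 2 + -((1 - T) / 2) * z.2 ^ 2) :=
        mul_le_mul_of_nonneg_left (Real.exp_le_exp.2 h4) (by positivity)
    _ = _ := by
        rw [Real.exp_add]
        ring

section

variable {Y : Type*} [MeasurableSpace Y] {ρ : Measure Y} [IsFiniteMeasure ρ] {Q s : Y → ℝ} {B : ℝ}

/-- integrability of the weight against bounded functions -/
lemma integrable_gw_prod (m : ℕ) (hQ : Measurable Q) (hB : ∀ y, |Q y| ≤ B) (hs : Measurable s)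
    (bs : ∀ y, s y ∈ Icc (-1 : ℝ) 1) {T : ℝ} (hT : T ∈ Ico (0 : ℝ) 1) :
    Integrable (fun y : Y × (ℝ × ℝ) => gw m T (s y.1) y.2 * Q y.1) (ρ.prod rm) := by
  have h1 : Integrable (fun y : Y × (ℝ × ℝ) => B * gB m T y.2) (ρ.prod rm) :=
    (integrable_const B).mul_prod (integrable_gB m hT.2)
  have hm : Measurable (fun y : Y × (ℝ × ℝ) => gw m T (s y.1) y.2 * Q y.1) := by
    have h2 : Measurable (fun y : Y × (ℝ × ℝ) => s y.1) := hs.comp measurable_fst
    have h3 : Measurable (fun y : Y × (ℝ × ℝ) => Q y.1) := hQ.comp measurable_fst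
    unfold gw
    fun_prop
  refine h1.mono' hm.aestronglyMeasurable ?_
  have h4 : ∀ᵐ y : Y × (ℝ × ℝ) ∂(ρ.prod rm), 0 < y.2.1 ∧ 0 < y.2.2 :=
    Measure.quasiMeasurePreserving_snd.ae ae_rm
  filter_upwards [h4] with y hy
  have a1 := gw_le_gB m hT.1 (bs y.1) hy
  have a2 := hB y.1
  rw [Real.norm_eq_abs, abs_mul, mul_comm B]
  exact mul_le_mul a1 a2 (abs_nonneg _) ((abs_nonneg _).trans a1)

/-- the pair integral is an iterated integral -/
lemma int_gw_prod (m : ℕ) (hQ : Measurable Q) (hB : ∀ y, |Q y| ≤ B) (hs : Measurable s)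
    (bs : ∀ y, s y ∈ Icc (-1 : ℝ) 1) {T : ℝ} (hT : T ∈ Ico (0 : ℝ) 1) :
    ∫ y : Y × (ℝ × ℝ), gw m T (s y.1) y.2 * Q y.1 ∂(ρ.prod rm)
      = ∫ y, Q y * (∫ z, gw m T (s y) z ∂rm) ∂ρ := by
  rw [integral_prod _ (integrable_gw_prod m hQ hB hs bs hT)]
  refine integral_congr_ae (Eventually.of_forall fun y => ?_)
  simp only
  rw [integral_mul_const, mul_comm]

/-- the limit for bounded functions of any sign -/
theorem gw_tendsto' [Nonempty Y] {m : ℕ} (hm : 0 < m) (hQ : Measurable Q) (hB : ∀ y, |Q y| ≤ B)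
    (hs : Measurable s) (bs : ∀ y, s y ∈ Icc (-1 : ℝ) 1) {A A1 : ℝ}
    (h : Tendsto (fun T => ∫ y, (Q y + |B|) * cv m T (s y) ∂ρ) (𝓝[<] 1) (𝓝 A))
    (h1 : Tendsto (fun T => ∫ y, |B| * cv m T (s y) ∂ρ) (𝓝[<] 1) (𝓝 A1)) :
    Tendsto (fun T => kp T ^ (m + 1) * ∫ y : Y × (ℝ × ℝ), gw m T (s y.1) y.2 * Q y.1 ∂(ρ.prod rm))
      (𝓝[<] 1) (𝓝 (im m ^ 2 * (A - A1))) := by
  have hB' : ∀ y, |Q y| ≤ |B| := fun y => (hB y).trans (le_abs_self B)
  have hd1 : PD ρ (fun y => Q y + |B|) s (2 * |B|) :=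
    ⟨hQ.add_const _, hs, fun y => by have := abs_le.1 (hB' y); linarith [this.1],
      fun y => by have := abs_le.1 (hB' y); linarith [this.2],
      fun y => (bs y).2, fun y => (bs y).1⟩
  have hd2 : PD ρ (fun _ => |B|) s |B| :=
    ⟨measurable_const, hs, fun _ => abs_nonneg _, fun _ => le_rfl,
      fun y => (bs y).2, fun y => (bs y).1⟩
  have f1 := hd1.gw_tendsto hm h
  have f2 := hd2.gw_tendsto hm h1
  have f3 := f1.sub f2
  rw [← mul_sub] at f3
  refine f3.congr' ?_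
  have h0 : ∀ᶠ T in 𝓝[<] (1 : ℝ), T ∈ Ioo (0 : ℝ) 1 := Ioo_mem_nhdsLT one_pos
  filter_upwards [h0] with T hT
  have hT' : T ∈ Ico (0 : ℝ) 1 := ⟨hT.1.le, hT.2⟩
  have hb1 : ∀ y, abs (Q y + |B|) ≤ 2 * |B| := fun y => by
    rw [abs_of_nonneg (hd1.Q0 y)]
    exact hd1.QB y
  have hb2 : ∀ _ : Y, abs |B| ≤ |B| := fun _ => by rw [abs_abs]
  rw [← int_gw_prod m (hQ.add_const _) hb1 hs bs hT',
    ← int_gw_prod m measurable_const hb2 hs bs hT', ← mul_sub,
    ← integral_sub (integrable_gw_prod m (hQ.add_const _) hb1 hs bs hT')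
      (integrable_gw_prod m measurable_const hb2 hs bs hT')]
  congr 1
  refine integral_congr_ae (Eventually.of_forall fun y => ?_)
  simp only
  ring

end

section

variable {X : Type*} [MeasurableSpace X]
  {E : Type*} [NormedAddCommGroup E]
  [InnerProductSpace ℝ E] [MeasurableSpace E] [BorelSpace E] [SecondCountableTopology E]
  {μ : Measure X} [IsFiniteMeasure μ] {m : ℕ} {p n : X → E} {C S : ℝ}

/-- a continuous function of the data is bounded -/
lemma dat_bound (hP : FV.Pts p n) (e : E) {Q : R9 → ℝ} (hQ : Continuous Q) :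
    ∃ B : ℝ, ∀ q, |Q (dat p n e q)| ≤ B := by
  obtain ⟨B, hB⟩ := (isCompact_KE (bE e)).exists_bound_of_continuousOn hQ.continuousOn
  refine ⟨B, fun q => ?_⟩
  have := hB _ (dat_mem hP e q)
  rwa [Real.norm_eq_abs] at this

/-- integrability of the Gaussian functional of a continuous function of the unit data -/
theorem integrable_EE0 (hP : FV.Pts p n) (e : E) {Q : R9 → ℝ} (hQ : Continuous Q) {T : ℝ}
    (hT : T ∈ Ico (0 : ℝ) 1) :
    Integrable (fun y : (X × X) × (ℝ × ℝ) => gw m T (dat p n e y.1 0) y.2 * Q (dat p n e y.1))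
      ((μ.prod μ).prod rm) := by
  obtain ⟨B, hB⟩ := dat_bound hP e hQ
  exact integrable_gw_prod m (hQ.measurable.comp (measurable_dat hP e)) hB (measurable_dat0 hP e)
    (dat0_mem hP e) hT

/-- the limit of the Gaussian functional of a continuous function of the unit data -/
theorem EE_tendsto [Nonempty X] (hD : EmbD μ m p n C S) (hm : 0 < m) (e : E) {h : R8 → ℝ}
    {Q : R9 → ℝ} (hQ : Continuous Q) (hh : ∀ T z d, h (cd8 T z d) = Q d) :
    Tendsto (fun T => EE μ p n e m T h) (𝓝[<] 1)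
      (𝓝 (im m ^ 2 * (S * ∫ y, Q (dat p n e (y, y)) ∂μ))) := by
  have hP := hD.toTwoG.toPts
  have hmd := measurable_dat hP e
  obtain ⟨B, hB⟩ := dat_bound hP e hQ
  have h1 := gw_tendsto' (ρ := μ.prod μ) (s := fun q => dat p n e q 0) hm
    (hQ.measurable.comp hmd) hB (measurable_dat0 hP e)
    (dat0_mem hP e) (hD.flux e (fun d => Q d + |B|) (hQ.add continuous_const))
    (hD.flux e (fun _ => |B|) continuous_const)
  have hmd1 : Measurable fun y => dat p n e (y, y) :=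
    hmd.comp (measurable_id.prodMk measurable_id)
  have hiQ : Integrable (fun y => Q (dat p n e (y, y))) μ :=
    Integrable.of_bound (hQ.measurable.comp hmd1).aestronglyMeasurable B
      (Eventually.of_forall fun y => by rw [Real.norm_eq_abs]; exact hB _)
  have e1 : S * ∫ y, (Q (dat p n e (y, y)) + |B|) ∂μ - S * ∫ _, |B| ∂μ
      = S * ∫ y, Q (dat p n e (y, y)) ∂μ := by
    rw [integral_add hiQ (integrable_const _)]
    ring
  rw [e1] at h1
  refine h1.congr fun T => ?_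
  unfold EE
  simp only [hh]
  rfl

/-- the value of the Gaussian functional at zero -/
theorem EE_zero (hP : FV.Pts p n) (e : E) {h : R8 → ℝ}
    {Q : R9 → ℝ} (hQ : Continuous Q) (hh : ∀ T z d, h (cd8 T z d) = Q d) :
    EE μ p n e m 0 h = im m ^ 2 * ∫ q, Q (dat p n e q) ∂(μ.prod μ) := by
  have hmd := measurable_dat hP e
  obtain ⟨B, hB⟩ := dat_bound hP e hQ
  unfold EE
  simp only [hh]
  rw [kp_zero, one_pow, one_mul, int_gw_prod (Q := fun q => Q (dat p n e q)) m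
    (hQ.measurable.comp hmd) hB (measurable_dat0 hP e) (dat0_mem hP e) ⟨le_rfl, one_pos⟩]
  have e1 : ∀ x : ℝ, ∫ z, gw m 0 x z ∂rm = im m ^ 2 := by
    intro x
    rw [int_gw m (by simp), zero_mul, im_sq]
  simp only [e1]
  rw [integral_mul_const, mul_comm]

end

end Vale.Agent.P224.UG
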