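import Vale.Agent.P224.UG.Def

/-!
The values of the terms of degree zero at the two ends.
-/

namespace Vale.Agent.P224.UG

open MeasureTheory Set Filter Function
open Vale.Agent.P224.UE
open Vale.Agent.P224.SM2 hiding ker
open scoped Topology RealInnerProductSpace ENNReal

set_option linter.unusedSectionVars false

/-- the function of the unit data of a term of degree zero -/
def GTerm.Q0 (t : GTerm) (d : R9) : ℝ :=
  match t.fam with
  | 0 => d 5 ^ t.k * d 8 ^ t.l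
  | 1 => 0
  | 2 => 0
  | 3 => d 3 * (d 5 ^ t.k * d 8 ^ t.l)
  | 4 => d 4 * (d 5 ^ t.k * d 8 ^ t.l)
  | 5 => 0

lemma GTerm.f_deg0 {t : GTerm} (ha : t.a = 0) (hb : t.b = 0) (hd : t.d = 0) (T : ℝ) (z : ℝ × ℝ)
    (d : R9) : t.f (cd8 T z d) = t.Q0 d := by
  obtain ⟨fam, a, b, k, d', l⟩ := t
  simp only at ha hb hd
  subst ha hb hd
  fin_cases fam <;>
  simp [GTerm.f, GTerm.Q0, GTerm.g, GTerm.w, cd8]

lemma GTerm.continuous_Q0 (t : GTerm) : Continuous t.Q0 := by
  obtain ⟨fam, a, b, k, d', l⟩ := t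
  unfold GTerm.Q0
  fin_cases fam <;> simp only <;> fun_prop

/-- selection of a moment -/
def v3 (x y z : ℝ) : ℕ → ℝ
  | 0 => x
  | 1 => y
  | 2 => z
  | _ => 0

/-- the normalized value of a term of degree zero at level zero -/
def GTerm.v0 (t : GTerm) (u r : ℝ) : ℝ :=
  match t.fam with
  | 0 => v3 1 u r t.k * u ^ t.l
  | 1 => 0
  | 2 => 0
  | 3 => v3 u r 0 t.k * u ^ t.l
  | 4 => v3 u (u ^ 2) (u * r) t.k * u ^ t.l
  | 5 => 0

/-- the normalized value of a term of degree zero at level one -/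
def GTerm.v1 (t : GTerm) (u r : ℝ) : ℝ :=
  match t.fam with
  | 0 => v3 1 u r t.k * u ^ t.l
  | 1 => 0
  | 2 => 0
  | 3 => v3 1 u r t.k * u ^ t.l
  | 4 => v3 u r 0 t.k * u ^ t.l
  | 5 => 0

/-- the terms whose value at level zero is known -/
def GTerm.k0ok (t : GTerm) : Bool :=
  match t.fam with
  | 0 => decide (t.a = 0 ∧ t.b = 0 ∧ t.d = 0 ∧ t.k ≤ 2)
  | 1 => true
  | 2 => true
  | 3 => decide (t.a = 0 ∧ t.b = 0 ∧ t.d = 0 ∧ t.k ≤ 1)
  | 4 => decide (t.a = 0 ∧ t.b = 0 ∧ t.d = 0 ∧ t.k ≤ 2)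
  | 5 => true

/-- the terms whose value at level one is known -/
def GTerm.k1ok (t : GTerm) : Bool :=
  match t.fam with
  | 0 => decide (t.a = 0 ∧ t.b = 0 ∧ t.d = 0 ∧ t.k ≤ 2)
  | 1 => true
  | 2 => true
  | 3 => decide (t.a = 0 ∧ t.b = 0 ∧ t.d = 0 ∧ t.k ≤ 2)
  | 4 => decide (t.a = 0 ∧ t.b = 0 ∧ t.d = 0 ∧ t.k ≤ 1)
  | 5 => true

section

variable {X : Type*} [MeasurableSpace X] {E : Type*} [NormedAddCommGroup E]
  [InnerProductSpace ℝ E] [MeasurableSpace E] [BorelSpace E] [SecondCountableTopology E]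
  [CompleteSpace E] {μ : Measure X} [IsFiniteMeasure μ] {m : ℕ} {p n : X → E}

/-- the values at level one -/
theorem GTerm.int1 (h : TwoG μ m p n) {e : E} (he : (μ.real univ) • e = ∫ x, n x ∂μ)
    (hA : 0 < μ.real univ) (t : GTerm) (ht : t.k1ok = true) :
    ∫ y, t.Q0 (dat p n e (y, y)) ∂μ
      = μ.real univ * t.v1 (‖e‖ ^ 2) ((∫ y, ⟪n y, e⟫ ^ 2 ∂μ) / μ.real univ) := by
  set A := μ.real univ with hAdef
  set q2 := ∫ x, ⟪n x, e⟫ ^ 2 ∂μ with hq2
  have hn1 : ∫ x, ⟪n x, e⟫ ∂μ = A * ‖e‖ ^ 2 := by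
    rw [integral_in h.mn h.nn, ← he, real_inner_smul_left, real_inner_self_eq_norm_sq]
  have hone : ∫ _x : X, (1 : ℝ) ∂μ = A := by simp [hAdef]
  have hEE : ∀ q, dat p n e q 8 = ‖e‖ ^ 2 := fun q => real_inner_self_eq_norm_sq e
  have h3 : ∀ y, dat p n e (y, y) 3 = 1 := fun y => by
    rw [dat3]
    simp only
    rw [real_inner_self_eq_norm_sq, h.nn]
    norm_num
  have hq : q2 = A * (q2 / A) := by field_simp
  obtain ⟨fam, a, b, k, d', l⟩ := t
  unfold GTerm.k1ok at ht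
  fin_cases fam
  · simp only [decide_eq_true_eq] at ht
    have hk : k = 0 ∨ k = 1 ∨ k = 2 := by omega
    rcases hk with rfl | rfl | rfl
    · simp only [GTerm.Q0, GTerm.v1, v3, hEE, pow_zero, one_mul, integral_const, smul_eq_mul,
        ← hAdef]
    · simp only [GTerm.Q0, GTerm.v1, v3, hEE, dat5, pow_one, integral_mul_const, hn1]
      ring
    · simp only [GTerm.Q0, GTerm.v1, v3, hEE, dat5, integral_mul_const, ← hq2]
      rw [← mul_assoc, ← hq]
  · simp [GTerm.Q0, GTerm.v1]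
  · simp [GTerm.Q0, GTerm.v1]
  · simp only [decide_eq_true_eq] at ht
    have hk : k = 0 ∨ k = 1 ∨ k = 2 := by omega
    rcases hk with rfl | rfl | rfl
    · simp only [GTerm.Q0, GTerm.v1, v3, hEE, h3, pow_zero, one_mul, integral_const, smul_eq_mul,
        ← hAdef]
    · simp only [GTerm.Q0, GTerm.v1, v3, hEE, h3, dat5, pow_one, one_mul, integral_mul_const, hn1]
      ring
    · simp only [GTerm.Q0, GTerm.v1, v3, hEE, h3, dat5, one_mul, integral_mul_const, ← hq2]
      rw [← mul_assoc, ← hq]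
  · simp only [decide_eq_true_eq] at ht
    have hk : k = 0 ∨ k = 1 := by omega
    rcases hk with rfl | rfl
    · simp only [GTerm.Q0, GTerm.v1, v3, hEE, dat4, pow_zero, one_mul, integral_mul_const, hn1]
      ring
    · have e1 : ∀ y, dat p n e (y, y) 4 * (dat p n e (y, y) 5 ^ 1 * (‖e‖ ^ 2) ^ l)
          = ⟪n y, e⟫ ^ 2 * (‖e‖ ^ 2) ^ l := fun y => by
        rw [dat4, dat5]
        ring
      simp only [GTerm.Q0, GTerm.v1, v3, hEE, e1, integral_mul_const, ← hq2]
      rw [← mul_assoc, ← hq]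
  · simp [GTerm.Q0, GTerm.v1]

/-- the values at level zero -/
theorem GTerm.int0 (h : TwoG μ m p n) {e : E} (he : (μ.real univ) • e = ∫ x, n x ∂μ)
    (hA : 0 < μ.real univ) (t : GTerm) (ht : t.k0ok = true) :
    ∫ q, t.Q0 (dat p n e q) ∂(μ.prod μ)
      = μ.real univ ^ 2 * t.v0 (‖e‖ ^ 2) ((∫ y, ⟪n y, e⟫ ^ 2 ∂μ) / μ.real univ) := by
  set A := μ.real univ with hAdef
  set q2 := ∫ x, ⟪n x, e⟫ ^ 2 ∂μ with hq2
  set I := ∫ x, n x ∂μ with hI
  have hn1 : ∫ x, ⟪n x, e⟫ ∂μ = A * ‖e‖ ^ 2 := by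
    rw [integral_in h.mn h.nn, ← hI, ← he, real_inner_smul_left, real_inner_self_eq_norm_sq]
  have hII : ⟪I, I⟫ = A ^ 2 * ‖e‖ ^ 2 := by
    rw [← he, real_inner_smul_left, real_inner_smul_right, real_inner_self_eq_norm_sq]
    ring
  have hone : ∫ _x : X, (1 : ℝ) ∂μ = A := by simp [hAdef]
  have hEE : ∀ q, dat p n e q 8 = ‖e‖ ^ 2 := fun q => real_inner_self_eq_norm_sq e
  have hq : q2 = A * (q2 / A) := by field_simp
  have hint : ∀ f : R9 → ℝ, Continuous f → Integrable (fun q => f (dat p n e q)) (μ.prod μ) :=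
    fun f hf => integrable_param _ (measurable_dat h.toPts e) (isCompact_KE (bE e))
      (dat_mem h.toPts e) hf.measurable hf.continuousOn
  have v0 : ∫ _q : X × X, (1 : ℝ) ∂(μ.prod μ) = A ^ 2 := by
    have := integral_prod_mul (μ := μ) (ν := μ) (fun _ : X => (1 : ℝ)) (fun _ : X => (1 : ℝ))
    rw [hone] at this
    simp only [one_mul] at this
    rw [this]
    ring
  have v3' : ∫ q, dat p n e q 3 ∂(μ.prod μ) = A ^ 2 * ‖e‖ ^ 2 := by
    rw [integral_prod_symm _ (hint (fun d => d 3) (by fun_prop))]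
    have : ∀ z, ∫ x, dat p n e (x, z) 3 ∂μ = ⟪I, n z⟫ := fun z => by
      simp only [dat3]
      exact integral_in h.mn h.nn (n z)
    simp only [this]
    rw [integral_inner (integrable_unit h.mn h.nn), hII]
  have v4 : ∫ q, dat p n e q 4 ∂(μ.prod μ) = A ^ 2 * ‖e‖ ^ 2 := by
    have := integral_prod_mul (μ := μ) (ν := μ) (fun x : X => ⟪n x, e⟫) (fun _ : X => (1 : ℝ))
    simp only [mul_one] at this
    rw [hone, hn1] at this
    simp only [dat4]
    rw [this]
    ring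
  have v5 : ∫ q, dat p n e q 5 ∂(μ.prod μ) = A ^ 2 * ‖e‖ ^ 2 := by
    have := integral_prod_mul (μ := μ) (ν := μ) (fun _ : X => (1 : ℝ)) (fun x : X => ⟪n x, e⟫)
    simp only [one_mul] at this
    rw [hone, hn1] at this
    simp only [dat5]
    rw [this]
    ring
  have v55 : ∫ q, dat p n e q 5 ^ 2 ∂(μ.prod μ) = A * q2 := by
    have := integral_prod_mul (μ := μ) (ν := μ) (fun _ : X => (1 : ℝ))
      (fun x : X => ⟪n x, e⟫ ^ 2)
    simp only [one_mul] at this
    rw [hone] at this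
    simp only [dat5]
    rw [this]
  have v45 : ∫ q, dat p n e q 4 * dat p n e q 5 ∂(μ.prod μ) = A ^ 2 * (‖e‖ ^ 2) ^ 2 := by
    have := integral_prod_mul (μ := μ) (ν := μ) (fun x : X => ⟪n x, e⟫) (fun x : X => ⟪n x, e⟫)
    rw [hn1] at this
    simp only [dat4, dat5]
    rw [this]
    ring
  have v455 : ∫ q, dat p n e q 4 * dat p n e q 5 ^ 2 ∂(μ.prod μ) = A * ‖e‖ ^ 2 * q2 := by
    have := integral_prod_mul (μ := μ) (ν := μ) (fun x : X => ⟪n x, e⟫)
      (fun x : X => ⟪n x, e⟫ ^ 2)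
    rw [hn1] at this
    simp only [dat4, dat5]
    rw [this]
  have v35 : ∫ q, dat p n e q 3 * dat p n e q 5 ∂(μ.prod μ) = A * q2 := by
    rw [integral_prod_symm _ (hint (fun d => d 3 * d 5) (by fun_prop))]
    have : ∀ z, ∫ x, dat p n e (x, z) 3 * dat p n e (x, z) 5 ∂μ = A * ⟪n z, e⟫ ^ 2 := by
      intro z
      simp only [dat3, dat5]
      rw [integral_mul_const, integral_in h.mn h.nn, ← hI, ← he, real_inner_smul_left,
        real_inner_comm]
      ring
    simp only [this]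
    rw [integral_const_mul]
  have hAq : A * q2 = A ^ 2 * (q2 / A) := by
    field_simp
  obtain ⟨fam, a, b, k, d', l⟩ := t
  unfold GTerm.k0ok at ht
  fin_cases fam
  · simp only [decide_eq_true_eq] at ht
    have hk : k = 0 ∨ k = 1 ∨ k = 2 := by omega
    rcases hk with rfl | rfl | rfl
    · simp only [GTerm.Q0, GTerm.v0, v3, hEE, pow_zero]
      rw [integral_mul_const, v0]
      ring
    · simp only [GTerm.Q0, GTerm.v0, v3, hEE, pow_one, integral_mul_const, v5]
      ring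
    · simp only [GTerm.Q0, GTerm.v0, v3, hEE, integral_mul_const, v55, hAq]
      ring
  · simp [GTerm.Q0, GTerm.v0]
  · simp [GTerm.Q0, GTerm.v0]
  · simp only [decide_eq_true_eq] at ht
    have hk : k = 0 ∨ k = 1 := by omega
    rcases hk with rfl | rfl
    · simp only [GTerm.Q0, GTerm.v0, v3, hEE, pow_zero, one_mul, integral_mul_const, v3']
      ring
    · simp only [GTerm.Q0, GTerm.v0, v3, hEE, pow_one, ← mul_assoc, integral_mul_const, v35, hAq]
      try ring
  · simp only [decide_eq_true_eq] at ht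
    have hk : k = 0 ∨ k = 1 ∨ k = 2 := by omega
    rcases hk with rfl | rfl | rfl
    · simp only [GTerm.Q0, GTerm.v0, v3, hEE, pow_zero, one_mul, integral_mul_const, v4]
      ring
    · simp only [GTerm.Q0, GTerm.v0, v3, hEE, pow_one, ← mul_assoc, integral_mul_const, v45]
      try ring
    · simp only [GTerm.Q0, GTerm.v0, v3, hEE, ← mul_assoc, integral_mul_const, v455]
      have e2 : A * ‖e‖ ^ 2 * q2 = A * ‖e‖ ^ 2 * (A * (q2 / A)) := by rw [← hq]
      rw [e2]
      ring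
  · simp [GTerm.Q0, GTerm.v0]

end

end Vale.Agent.P224.UG
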