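import Vale.Agent.P224.UG.Mono
import Vale.Agent.P224.UG.Bridge
import Vale.Agent.P224.UG.LimD
import Vale.Agent.P224.UG.Val
import Vale.Agent.P224.UG.Bdd
import Vale.Agent.P224.UG.Kern

/-!
The law of a Gaussian certificate, every dimension.
-/

namespace Vale.Agent.P224.UG

open MeasureTheory Set Filter Function
open Vale.Agent.P224.UE
open scoped Topology RealInnerProductSpace ENNReal

set_option linter.unusedSectionVars false

lemma im_pos (m : ℕ) : 0 < im m := by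
  unfold im
  have h1 : IntegrableOn (fun ρ : ℝ => ρ ^ m * Real.exp (-ρ ^ 2 / 2)) (Ioi 0) := by
    refine ((integrable_pow_mul_exp (b := 1 / 2) (by norm_num) m).integrableOn).congr_fun
      (fun r _ => ?_) measurableSet_Ioi
    simp only
    congr 2
    ring
  rw [setIntegral_pos_iff_support_of_nonneg_ae _ h1]
  · have : (support fun x : ℝ => x ^ m * Real.exp (-x ^ 2 / 2)) ∩ Ioi 0 = Ioi 0 := by
      refine inter_eq_right.2 fun x hx => ?_
      have hx' : (0 : ℝ) < x := hx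
      have : 0 < x ^ m * Real.exp (-x ^ 2 / 2) := by positivity
      exact this.ne'
    rw [this]
    simp
  · filter_upwards [ae_restrict_mem measurableSet_Ioi] with x hx
    have hx' : (0 : ℝ) < x := hx
    have : 0 < x ^ m * Real.exp (-x ^ 2 / 2) := by positivity
    exact this.le

lemma GTerm.measurable_fU (t : GTerm) : Measurable t.f := by
  obtain ⟨fam, a, b, k, d, l⟩ := t
  unfold GTerm.f GTerm.g GTerm.w
  fin_cases fam <;> simp only <;> fun_prop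

/-- the normalized value of a certificate at level zero -/
noncomputable def V0 (l : Cert) (u r : ℝ) : ℝ := (l.map fun t => t.2.1 0 * t.1.v0 u r).sum

/-- the normalized value of a certificate at level one -/
noncomputable def V1 (l : Cert) (u r : ℝ) : ℝ := (l.map fun t => t.2.1 1 * t.1.v1 u r).sum

lemma GTerm.v_null {t : GTerm} (ht : ¬ t.act) (u r : ℝ) : t.v0 u r = 0 ∧ t.v1 u r = 0 := by
  obtain ⟨fam, a, b, k, d, l⟩ := t
  unfold GTerm.act at ht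
  fin_cases fam
  · exact absurd (Or.inl rfl) ht
  · exact ⟨rfl, rfl⟩
  · exact ⟨rfl, rfl⟩
  · exact absurd (Or.inr (Or.inl rfl)) ht
  · exact absurd (Or.inr (Or.inr rfl)) ht
  · exact ⟨rfl, rfl⟩

lemma GTerm.k0_deg {t : GTerm} (ht : t.act) (h : t.k0ok = true) : t.a = 0 ∧ t.b = 0 ∧ t.d = 0 := by
  obtain ⟨fam, a, b, k, d, l⟩ := t
  unfold GTerm.act at ht
  unfold GTerm.k0ok at h
  rcases ht with hf | hf | hf <;> simp only at hf <;> subst hf <;>
    simp only [decide_eq_true_eq] at h <;> exact ⟨h.1, h.2.1, h.2.2.1⟩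

lemma GTerm.k1_deg {t : GTerm} (ht : t.act) (h : t.k1ok = true) : t.a = 0 ∧ t.b = 0 ∧ t.d = 0 := by
  obtain ⟨fam, a, b, k, d, l⟩ := t
  unfold GTerm.act at ht
  unfold GTerm.k1ok at h
  rcases ht with hf | hf | hf <;> simp only at hf <;> subst hf <;>
    simp only [decide_eq_true_eq] at h <;> exact ⟨h.1, h.2.1, h.2.2.1⟩

section

variable {X : Type*} [MeasurableSpace X] {E : Type*} [NormedAddCommGroup E]
  [InnerProductSpace ℝ E] [MeasurableSpace E] [BorelSpace E] [SecondCountableTopology E]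
  {μ : Measure X} [IsFiniteMeasure μ] {m : ℕ} {p n : X → E} {C S : ℝ}

/-- the value of the functional of a certificate at level zero -/
lemma Phi_zero [CompleteSpace E] (hD : EmbD μ m p n C S)
    (hG : GC (gam m μ) (m + 1) (cp p) (cn n)) {e : E}
    (he : (μ.real univ) • e = ∫ x, n x ∂μ) (hA : 0 < μ.real univ) (l : Cert)
    (h0 : ∀ t ∈ l, t.1.k0ok = true ∨ t.2.1 0 = 0) :
    Phi (gam m μ) (m + 1) (cp p) (cn n) e l 0
      = im m ^ 2 * (μ.real univ ^ 2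
        * V0 l (‖e‖ ^ 2) ((∫ y, ⟪n y, e⟫ ^ 2 ∂μ) / μ.real univ)) := by
  set u := ‖e‖ ^ 2 with hu
  set r := (∫ y, ⟪n y, e⟫ ^ 2 ∂μ) / μ.real univ with hr
  induction l with
  | nil => simp [Phi, V0]
  | cons t l ih =>
    have ih' := ih fun s hs => h0 s (List.mem_cons_of_mem _ hs)
    have h1 : t.2.1 0 * EK (gam m μ) (m + 1) (cp p) (cn n) e 0 t.1.f
        = im m ^ 2 * (μ.real univ ^ 2 * (t.2.1 0 * t.1.v0 u r)) := by
      by_cases ht : t.1.act
      · rcases h0 t List.mem_cons_self with hk | hz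
        · obtain ⟨ha, hb, hd⟩ := GTerm.k0_deg ht hk
          rw [EK_eq hG e 0 t.1.measurable_fU,
            EE_zero hD.toPts e t.1.continuous_Q0 (GTerm.f_deg0 ha hb hd),
            GTerm.int0 hD.toTwoG he hA t.1 hk]
          ring
        · rw [hz]
          ring
      · rw [EK_null ht, (GTerm.v_null ht u r).1]
        ring
    simp only [Phi, V0, List.map_cons, List.sum_cons] at ih' ⊢
    rw [h1, ih']
    ring

/-- the limit of the functional of a certificate at level one -/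
lemma Phi_tendsto [CompleteSpace E] [Nonempty X] (hD : EmbD μ m p n C S) (hm : 0 < m)
    (hG : GC (gam m μ) (m + 1) (cp p) (cn n)) {e : E}
    (he : (μ.real univ) • e = ∫ x, n x ∂μ) (hA : 0 < μ.real univ) (l : Cert)
    (hc : ∀ t ∈ l, t.1.act → ContinuousOn t.2.1 (Icc 0 1))
    (hbd : ∀ t : GTerm, ∃ B, ∀ T ∈ Ico (0 : ℝ) 1, |EE μ p n e m T t.f| ≤ B)
    (h1 : ∀ t ∈ l, t.1.k1ok = true ∨ t.2.1 1 = 0) :
    Tendsto (Phi (gam m μ) (m + 1) (cp p) (cn n) e l) (𝓝[<] 1)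
      (𝓝 (im m ^ 2 * (S * (μ.real univ
        * V1 l (‖e‖ ^ 2) ((∫ y, ⟪n y, e⟫ ^ 2 ∂μ) / μ.real univ))))) := by
  set u := ‖e‖ ^ 2 with hu
  set r := (∫ y, ⟪n y, e⟫ ^ 2 ∂μ) / μ.real univ with hr
  have hev : ∀ᶠ T in 𝓝[<] (1 : ℝ), T ∈ Ioo (0 : ℝ) 1 := Ioo_mem_nhdsLT one_pos
  induction l with
  | nil =>
    have e1 : Phi (gam m μ) (m + 1) (cp p) (cn n) e [] = fun _ => 0 := by
      funext T
      simp [Phi]
    rw [e1]
    simp [V1]
  | cons t l ih =>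
    have ih' := ih (fun s hs => hc s (List.mem_cons_of_mem _ hs))
      (fun s hs => h1 s (List.mem_cons_of_mem _ hs))
    have h2 : Tendsto (fun T => t.2.1 T * EK (gam m μ) (m + 1) (cp p) (cn n) e T t.1.f)
        (𝓝[<] 1) (𝓝 (im m ^ 2 * (S * (μ.real univ * (t.2.1 1 * t.1.v1 u r))))) := by
      by_cases ht : t.1.act
      · have hcont := hc t List.mem_cons_self ht
        have hφ : Tendsto t.2.1 (𝓝[<] 1) (𝓝 (t.2.1 1)) := by
          have h3 := hcont 1 ⟨zero_le_one, le_rfl⟩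
          refine h3.mono_left ?_
          rw [← nhdsWithin_Ioo_eq_nhdsLT (zero_lt_one : (0 : ℝ) < 1)]
          exact nhdsWithin_mono _ Ioo_subset_Icc_self
        have heq : ∀ T, EK (gam m μ) (m + 1) (cp p) (cn n) e T t.1.f = EE μ p n e m T t.1.f :=
          fun T => EK_eq hG e T t.1.measurable_fU
        simp only [heq]
        rcases h1 t List.mem_cons_self with hk | hz
        · obtain ⟨ha, hb, hd⟩ := GTerm.k1_deg ht hk
          have h4 := EE_tendsto hD hm e t.1.continuous_Q0 (GTerm.f_deg0 ha hb hd)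
          rw [GTerm.int1 hD.toTwoG he hA t.1 hk] at h4
          have h5 := hφ.mul h4
          refine h5.congr' ?_ |>.mono_right ?_
          · exact Eventually.of_forall fun T => rfl
          · refine le_of_eq ?_
            congr 1
            ring
        · obtain ⟨B, hB⟩ := hbd t.1
          rw [hz] at hφ ⊢
          have h5 : Tendsto (fun T => |t.2.1 T| * B) (𝓝[<] 1) (𝓝 0) := by
            have := (hφ.abs).mul_const B
            simpa using this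
          have h6 : Tendsto (fun T => t.2.1 T * EE μ p n e m T t.1.f) (𝓝[<] 1) (𝓝 0) := by
            refine squeeze_zero_norm' ?_ h5
            filter_upwards [hev] with T hT
            rw [Real.norm_eq_abs, abs_mul]
            exact mul_le_mul_of_nonneg_left (hB T ⟨hT.1.le, hT.2⟩) (abs_nonneg _)
          simpa using h6
      · simp only [EK_null ht, mul_zero, (GTerm.v_null ht u r).2]
        exact tendsto_const_nhds
    have h7 := h2.add ih'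
    have e1 : Phi (gam m μ) (m + 1) (cp p) (cn n) e (t :: l)
        = fun T => t.2.1 T * EK (gam m μ) (m + 1) (cp p) (cn n) e T t.1.f
          + Phi (gam m μ) (m + 1) (cp p) (cn n) e l T := by
      funext T
      simp only [Phi, List.map_cons, List.sum_cons]
    rw [e1]
    refine h7.mono_right (le_of_eq ?_)
    congr 1
    simp only [V1, List.map_cons, List.sum_cons]
    ring

/-- The law of a Gaussian certificate, with a bound of the functionals as a hypothesis. -/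
theorem law_U_aux [CompleteSpace E] [Nonempty X] (hD : EmbD μ m p n C S) (hm : 0 < m)
    (hG : GC (gam m μ) (m + 1) (cp p) (cn n)) {e : E}
    (he : (μ.real univ) • e = ∫ x, n x ∂μ) (hA : 0 < μ.real univ) (l : Cert)
    (hb : ∀ t ∈ l, t.1.b ≤ 2)
    (hc : ∀ t ∈ l, t.1.act → ContinuousOn t.2.1 (Icc 0 1))
    (hd : ∀ t ∈ l, t.1.act → ∀ T ∈ Ioo (0 : ℝ) 1, HasDerivAt t.2.1 (t.2.2 T) T)
    (h0 : ∀ t ∈ l, t.1.k0ok = true ∨ t.2.1 0 = 0)
    (h1 : ∀ t ∈ l, t.1.k1ok = true ∨ t.2.1 1 = 0)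
    (hbd : ∀ t : GTerm, ∃ B, ∀ T ∈ Ico (0 : ℝ) 1, |EE μ p n e m T t.f| ≤ B)
    (hpos : ∀ T ∈ Ioo (0 : ℝ) 1, ∀ N w : E, ‖N‖ = 1 → ‖w‖ = 1 → ∀ P Q Z Ξ : ℝ,
      Dsum l T ![P, Q, ⟪N, w⟫, ⟪N, e⟫, ⟪w, e⟫, Z, Ξ, ⟪e, e⟫]
        + Dsum l T (sw8 T ![P, Q, ⟪N, w⟫, ⟪N, e⟫, ⟪w, e⟫, Z, Ξ, ⟪e, e⟫]) ≤ 0) :
    ∃ r : ℝ, (‖e‖ ^ 2) ^ 2 ≤ r ∧ r ≤ ‖e‖ ^ 2 ∧
      S * V1 l (‖e‖ ^ 2) r ≤ μ.real univ * V0 l (‖e‖ ^ 2) r := by
  obtain ⟨z₀⟩ := ‹Nonempty X›
  have hT := hD.toTwoG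
  set A := μ.real univ with hAdef
  set q2 := ∫ x, ⟪n x, e⟫ ^ 2 ∂μ with hq2
  set z2 := ∫ x, ⟪p x, e⟫ ^ 2 ∂μ with hz2
  have hm1 : (0 : ℝ) < (m : ℝ) + 1 := by positivity
  have hmom := hT.moment e z₀
  rw [← hAdef, ← hz2, ← hq2] at hmom
  have hz0 : 0 ≤ z2 := integral_nonneg fun x => sq_nonneg _
  have hI1 : ⟪∫ x, n x ∂μ, e⟫ = A * ‖e‖ ^ 2 := by
    rw [← he, real_inner_smul_left, real_inner_self_eq_norm_sq]
  have hcs : (A * ‖e‖ ^ 2) ^ 2 ≤ A * q2 := by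
    have := inner_integral_sq_le (μ := μ) (n := n) (integrable_unit hT.mn hT.nn) e
      (integrable_in_sq hT.mn hT.nn e)
    rwa [hI1] at this
  refine ⟨q2 / A, ?_, ?_, ?_⟩
  · rw [le_div_iff₀ hA]
    have h3 : A * ((‖e‖ ^ 2) ^ 2 * A) ≤ A * q2 := by
      calc A * ((‖e‖ ^ 2) ^ 2 * A) = (A * ‖e‖ ^ 2) ^ 2 := by ring
        _ ≤ _ := hcs
    exact le_of_mul_le_mul_left h3 hA
  · rw [div_le_iff₀ hA]
    have := mul_nonneg hm1.le hz0
    linarith
  · have : Nonempty X := ⟨z₀⟩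
    have hanti := Phi_antitone hG e l hb hc hd hpos
    have hlim := Phi_tendsto hD hm hG he hA l hc hbd h1
    have hz := Phi_zero hD hG he hA l h0
    rw [← hAdef, ← hq2] at hlim hz
    have hle : im m ^ 2 * (S * (A * V1 l (‖e‖ ^ 2) (q2 / A)))
        ≤ Phi (gam m μ) (m + 1) (cp p) (cn n) e l 0 := by
      refine le_of_tendsto hlim ?_
      have hev : ∀ᶠ T in 𝓝[<] (1 : ℝ), T ∈ Ioo (0 : ℝ) 1 := Ioo_mem_nhdsLT one_pos
      filter_upwards [hev] with T hT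
      exact hanti ⟨le_rfl, one_pos⟩ ⟨hT.1.le, hT.2⟩ hT.1.le
    rw [hz] at hle
    have hi : 0 < im m ^ 2 := pow_pos (im_pos m) 2
    have h2 := le_of_mul_le_mul_left hle hi
    have h3 : A * (S * V1 l (‖e‖ ^ 2) (q2 / A)) ≤ A * (A * V0 l (‖e‖ ^ 2) (q2 / A)) := by
      nlinarith
    exact le_of_mul_le_mul_left h3 hA

/-- **The law of a Gaussian certificate, every dimension.** -/
theorem law_U [CompleteSpace E] [Nonempty X] (hD : EmbD μ m p n C S) (hm : 1 ≤ m)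
    (hG : GC (gam m μ) (m + 1) (cp p) (cn n)) {e : E}
    (he : (μ.real univ) • e = ∫ x, n x ∂μ) (hA : 0 < μ.real univ) (l : Cert)
    (hb : ∀ t ∈ l, t.1.b ≤ 2)
    (hc : ∀ t ∈ l, t.1.act → ContinuousOn t.2.1 (Icc 0 1))
    (hd : ∀ t ∈ l, t.1.act → ∀ T ∈ Ioo (0 : ℝ) 1, HasDerivAt t.2.1 (t.2.2 T) T)
    (h0 : ∀ t ∈ l, t.1.k0ok = true ∨ t.2.1 0 = 0)
    (h1 : ∀ t ∈ l, t.1.k1ok = true ∨ t.2.1 1 = 0)
    (hpos : ∀ T ∈ Ioo (0 : ℝ) 1, ∀ N w : E, ‖N‖ = 1 → ‖w‖ = 1 → ∀ P Q Z Ξ : ℝ,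
      Dsum l T ![P, Q, ⟪N, w⟫, ⟪N, e⟫, ⟪w, e⟫, Z, Ξ, ⟪e, e⟫]
        + Dsum l T (sw8 T ![P, Q, ⟪N, w⟫, ⟪N, e⟫, ⟪w, e⟫, Z, Ξ, ⟪e, e⟫]) ≤ 0) :
    ∃ r : ℝ, (‖e‖ ^ 2) ^ 2 ≤ r ∧ r ≤ ‖e‖ ^ 2 ∧
      S * V1 l (‖e‖ ^ 2) r ≤ μ.real univ * V0 l (‖e‖ ^ 2) r := by
  refine law_U_aux hD (by omega) hG he hA l hb hc hd h0 h1 (fun t => ?_) hpos
  obtain ⟨B, hB⟩ := GTerm.EE_bound (gw_int_ex m) hD.toTwoG hm e t
  exact ⟨B, fun T hT => (hB T hT).2⟩

end

end Vale.Agent.P224.UG
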