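import Vale.Agent.P224.UG.LimA

/-!
The limit of the radial integrals.
-/

namespace Vale.Agent.P224.UG

open MeasureTheory Set Filter Function
open Vale.Agent.P224.UE
open scoped Topology

set_option linter.unusedSectionVars false

section

variable {Y : Type*} [MeasurableSpace Y] {ρ : Measure Y} [IsFiniteMeasure ρ] {Q s : Y → ℝ} {B : ℝ}

lemma PD.measurable_Ph (hd : PD ρ Q s B) (q : ℕ) : Measurable (Ph ρ Q s q) := by
  have h1 : StronglyMeasurable (uncurry fun (h : ℝ) (y : Y) => Q y * ((h + 1 - s y) ^ q)⁻¹) := by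
    have hQ : Measurable fun z : ℝ × Y => Q z.2 := hd.mQ.comp measurable_snd
    have hs : Measurable fun z : ℝ × Y => s z.2 := hd.ms.comp measurable_snd
    have : Measurable fun z : ℝ × Y => Q z.2 * ((z.1 + 1 - s z.2) ^ q)⁻¹ :=
      hQ.mul ((((measurable_fst.add_const 1).sub hs).pow_const q).inv)
    exact this.stronglyMeasurable
  exact h1.integral_prod_right.measurable

/-- the radial integrand -/
noncomputable def gR (ρ : Measure Y) (Q s : Y → ℝ) (m q : ℕ) (T w : ℝ) : ℝ :=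
  w ^ m * ((2 * T * w) ^ q)⁻¹ * Ph ρ Q s q ((1 + w ^ 2 - 2 * T * w) / (2 * T * w))

/-- the radial integral is an integral over the line -/
lemma gR_subst (m q : ℕ) {T k : ℝ} (hk : 0 < k) :
    ∫ w in Ioi (0 : ℝ), gR ρ Q s m q T w
      = ∫ b : ℝ, k * (Ioi (0 : ℝ)).indicator (gR ρ Q s m q T) (T + k * b) := by
  rw [← integral_indicator measurableSet_Ioi, integral_const_mul]
  have h1 := Measure.integral_comp_mul_left
    (fun w => (Ioi (0 : ℝ)).indicator (gR ρ Q s m q T) (T + w)) k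
  rw [h1, integral_add_left_eq_self (μ := volume) (fun w => (Ioi (0 : ℝ)).indicator
    (gR ρ Q s m q T) w) T, abs_of_pos (inv_pos.2 hk), smul_eq_mul, ← mul_assoc,
    mul_inv_cancel₀ hk.ne', one_mul]

lemma kp_sq' {T : ℝ} (h0 : 0 ≤ T) (h1 : T < 1) : kp T ^ 2 = 1 - T ^ 2 := kp_sq ⟨h0, h1⟩

/-- the form of the integrand -/
lemma gR_form {m j : ℕ} {T b : ℝ} (h0 : 0 < T) (h1 : T < 1) (hw : 0 < T + kp T * b) :
    kp T ^ (m + 2 + 2 * j) * gR ρ Q s m (m + 1 + j) T (T + kp T * b)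
      = (T + kp T * b) ^ m * (2 * T * (T + kp T * b)) ^ (-((m : ℝ) / 2))
        * (1 + b ^ 2) ^ (-((m : ℝ) / 2 + 1 + j))
        * ((kp T ^ 2 * (1 + b ^ 2) / (2 * T * (T + kp T * b))) ^ ((m : ℝ) / 2 + 1 + j)
          * Ph ρ Q s (m + 1 + j) (kp T ^ 2 * (1 + b ^ 2) / (2 * T * (T + kp T * b)))) := by
  have hk : 0 < kp T := kp_pos ⟨h0.le, h1⟩
  set w := T + kp T * b with hwd
  have e1 : 1 + w ^ 2 - 2 * T * w = kp T ^ 2 * (1 + b ^ 2) := by
    have := kp_sq' h0.le h1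
    rw [hwd]
    linear_combination (-1 : ℝ) * this
  unfold gR
  rw [e1]
  set x := kp T ^ 2 * (1 + b ^ 2) / (2 * T * w) with hx
  have h2w : 0 < 2 * T * w := by positivity
  have hb : 0 < 1 + b ^ 2 := by positivity
  set α : ℝ := (m : ℝ) / 2 + 1 + j with hα
  have e2 : kp T ^ (m + 2 + 2 * j) = (kp T ^ 2) ^ α := by
    rw [← Real.rpow_natCast (kp T) 2, ← Real.rpow_mul hk.le, ← Real.rpow_natCast]
    congr 1
    rw [hα]
    push_cast
    ring
  have e3 : kp T ^ 2 = x * (2 * T * w) * (1 + b ^ 2)⁻¹ := by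
    rw [hx]
    field_simp
  have hx0 : 0 < x := by positivity
  have e4 : (kp T ^ 2) ^ α = x ^ α * (2 * T * w) ^ α * (1 + b ^ 2) ^ (-α) := by
    rw [e3, Real.mul_rpow (by positivity) (by positivity), Real.mul_rpow hx0.le h2w.le,
      Real.inv_rpow hb.le, Real.rpow_neg hb.le]
  have e5 : (2 * T * w) ^ α * ((2 * T * w) ^ (m + 1 + j))⁻¹ = (2 * T * w) ^ (-((m : ℝ) / 2)) := by
    rw [← Real.rpow_natCast (2 * T * w) (m + 1 + j), ← Real.rpow_neg h2w.le,
      ← Real.rpow_add h2w]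
    congr 1
    rw [hα]
    push_cast
    ring
  rw [e2, e4, ← e5]
  ring

/-- the limit of the radial integrals -/
theorem PD.radial_tendsto [Nonempty Y] (hd : PD ρ Q s B) {m j : ℕ} {c : ℝ}
    (hF : Tendsto (fun h => h ^ ((m : ℝ) / 2 + 1 + j) * Ph ρ Q s (m + 1 + j) h) (𝓝[>] 0) (𝓝 c)) :
    Tendsto (fun T => kp T ^ (m + 1 + 2 * j) * ∫ w in Ioi (0 : ℝ), gR ρ Q s m (m + 1 + j) T w)
      (𝓝[<] 1) (𝓝 (c * 2 ^ (-((m : ℝ) / 2)) * ∫ b : ℝ, (1 + b ^ 2) ^ (-((m : ℝ) / 2 + 1 + j)))) := by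
  obtain ⟨K, hK0, hK⟩ := hd.Ph_bound (α := (m : ℝ) / 2 + 1 + j) (by
    push_cast
    have : (0 : ℝ) ≤ m := Nat.cast_nonneg m
    linarith) hF
  set α : ℝ := (m : ℝ) / 2 + 1 + j with hα
  have hm0 : (0 : ℝ) ≤ m := Nat.cast_nonneg m
  have hj0 : (0 : ℝ) ≤ j := Nat.cast_nonneg j
  have h0 : ∀ᶠ T in 𝓝[<] (1 : ℝ), T ∈ Ioo (1 / 2 : ℝ) 1 := Ioo_mem_nhdsLT (by norm_num)
  -- the integrand on the line
  set G : ℝ → ℝ → ℝ := fun T b => kp T ^ (m + 1 + 2 * j) *
    (kp T * (Ioi (0 : ℝ)).indicator (gR ρ Q s m (m + 1 + j) T) (T + kp T * b)) with hG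
  have hGi : ∀ᶠ T in 𝓝[<] (1 : ℝ), ∫ b, G T b
      = kp T ^ (m + 1 + 2 * j) * ∫ w in Ioi (0 : ℝ), gR ρ Q s m (m + 1 + j) T w := by
    filter_upwards [h0] with T hT
    have hk : 0 < kp T := kp_pos ⟨by linarith [hT.1], hT.2⟩
    rw [gR_subst m (m + 1 + j) hk, ← integral_const_mul]
  have hG1 : ∀ T ∈ Ioo (1 / 2 : ℝ) 1, ∀ b : ℝ, 0 < T + kp T * b → G T b
      = (T + kp T * b) ^ m * (2 * T * (T + kp T * b)) ^ (-((m : ℝ) / 2))
        * (1 + b ^ 2) ^ (-α)
        * ((kp T ^ 2 * (1 + b ^ 2) / (2 * T * (T + kp T * b))) ^ α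
          * Ph ρ Q s (m + 1 + j) (kp T ^ 2 * (1 + b ^ 2) / (2 * T * (T + kp T * b)))) := by
    intro T hT b hw
    rw [hα, ← gR_form (by linarith [hT.1]) hT.2 hw]
    simp only [hG]
    rw [indicator_of_mem (show T + kp T * b ∈ Ioi (0 : ℝ) from hw)]
    ring
  have hG2 : ∀ T b : ℝ, ¬ 0 < T + kp T * b → G T b = 0 := by
    intro T b hw
    simp only [hG]
    rw [indicator_of_notMem (show T + kp T * b ∉ Ioi (0 : ℝ) from hw)]
    ring
  have hmG : ∀ T, AEStronglyMeasurable (G T) volume := by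
    intro T
    have h1 : Measurable (gR ρ Q s m (m + 1 + j) T) := by
      have h2 := hd.measurable_Ph (m + 1 + j)
      unfold gR
      fun_prop
    have h3 : Measurable ((Ioi (0 : ℝ)).indicator (gR ρ Q s m (m + 1 + j) T)) :=
      h1.indicator measurableSet_Ioi
    have h4 : Measurable fun b : ℝ => T + kp T * b := by fun_prop
    exact (((h3.comp h4).const_mul _).const_mul _).aestronglyMeasurable
  -- domination
  have hdom : ∀ T ∈ Ioo (1 / 2 : ℝ) 1, ∀ b : ℝ, ‖G T b‖ ≤ K * 2 ^ ((m : ℝ) / 4) * (1 + b ^ 2)⁻¹ := by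
    intro T hT b
    have hT0 : 0 < T := by linarith [hT.1]
    have hb : 0 < 1 + b ^ 2 := by positivity
    by_cases hw : 0 < T + kp T * b
    · have hk : 0 < kp T := kp_pos ⟨hT0.le, hT.2⟩
      rw [hG1 T hT b hw]
      set w := T + kp T * b with hwd
      have h2w : 0 < 2 * T * w := by positivity
      set x := kp T ^ 2 * (1 + b ^ 2) / (2 * T * w) with hx
      have hx0 : 0 < x := by positivity
      have h1 : x ^ α * Ph ρ Q s (m + 1 + j) x ≤ K := by
        have h2 := mul_le_mul_of_nonneg_left (hK x hx0) (Real.rpow_pos_of_pos hx0 α).le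
        have h3 : x ^ α * (K * x ^ (-α)) = K := by
          rw [Real.rpow_neg hx0.le]
          have : x ^ α ≠ 0 := (Real.rpow_pos_of_pos hx0 α).ne'
          field_simp
        linarith
      have h1' : 0 ≤ x ^ α * Ph ρ Q s (m + 1 + j) x :=
        mul_nonneg (Real.rpow_pos_of_pos hx0 α).le (hd.Ph_nonneg _ hx0)
      have h4 : w ^ m * (2 * T * w) ^ (-((m : ℝ) / 2)) ≤ w ^ ((m : ℝ) / 2) := by
        have h5 : (2 * T * w) ^ (-((m : ℝ) / 2)) ≤ w ^ (-((m : ℝ) / 2)) :=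
          Real.rpow_le_rpow_of_nonpos hw (by nlinarith [hT.1]) (by linarith)
        calc w ^ m * (2 * T * w) ^ (-((m : ℝ) / 2)) ≤ w ^ m * w ^ (-((m : ℝ) / 2)) :=
              mul_le_mul_of_nonneg_left h5 (by positivity)
          _ = w ^ ((m : ℝ) / 2) := by
              rw [← Real.rpow_natCast, ← Real.rpow_add hw]
              congr 1
              ring
      have hw1 : w ≤ 1 + |b| := by
        have h5 : kp T * b ≤ |b| := by
          calc kp T * b ≤ kp T * |b| := mul_le_mul_of_nonneg_left (le_abs_self b) hk.le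
            _ ≤ 1 * |b| := mul_le_mul_of_nonneg_right kp_le_one (abs_nonneg b)
            _ = |b| := one_mul _
        linarith [hT.2]
      have h6 : w ^ ((m : ℝ) / 2) ≤ 2 ^ ((m : ℝ) / 4) * (1 + b ^ 2) ^ ((m : ℝ) / 4) := by
        have h7 : w ^ 2 ≤ 2 * (1 + b ^ 2) := by
          have h8 : w ^ 2 ≤ (1 + |b|) ^ 2 := pow_le_pow_left₀ hw.le hw1 2
          have h9 : (1 + |b|) ^ 2 ≤ 2 * (1 + b ^ 2) := by
            nlinarith [sq_nonneg (1 - |b|), sq_abs b]
          exact h8.trans h9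
        have h10 : w ^ ((m : ℝ) / 2) = (w ^ 2) ^ ((m : ℝ) / 4) := by
          rw [← Real.rpow_natCast w 2, ← Real.rpow_mul hw.le]
          congr 1
          push_cast
          ring
        rw [h10, ← Real.mul_rpow (by norm_num) hb.le]
        exact Real.rpow_le_rpow (by positivity) h7 (by positivity)
      have h11 : (1 + b ^ 2) ^ ((m : ℝ) / 4) * (1 + b ^ 2) ^ (-α) ≤ (1 + b ^ 2)⁻¹ := by
        rw [← Real.rpow_add hb, ← Real.rpow_neg_one]
        refine Real.rpow_le_rpow_of_exponent_le (by nlinarith [sq_nonneg b]) ?_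
        rw [hα]
        linarith
      have hp1 : 0 ≤ (1 + b ^ 2) ^ (-α) := (Real.rpow_pos_of_pos hb _).le
      have hp2 : 0 ≤ w ^ m * (2 * T * w) ^ (-((m : ℝ) / 2)) :=
        mul_nonneg (by positivity) (Real.rpow_pos_of_pos h2w _).le
      rw [Real.norm_eq_abs, abs_of_nonneg (mul_nonneg (mul_nonneg hp2 hp1) h1')]
      calc w ^ m * (2 * T * w) ^ (-((m : ℝ) / 2)) * (1 + b ^ 2) ^ (-α)
            * (x ^ α * Ph ρ Q s (m + 1 + j) x)
          ≤ (2 ^ ((m : ℝ) / 4) * (1 + b ^ 2) ^ ((m : ℝ) / 4)) * (1 + b ^ 2) ^ (-α) * K :=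
            mul_le_mul (mul_le_mul_of_nonneg_right (h4.trans h6) hp1) h1 h1'
              (mul_nonneg (by positivity) hp1)
        _ = K * 2 ^ ((m : ℝ) / 4) * ((1 + b ^ 2) ^ ((m : ℝ) / 4) * (1 + b ^ 2) ^ (-α)) := by ring
        _ ≤ K * 2 ^ ((m : ℝ) / 4) * (1 + b ^ 2)⁻¹ :=
            mul_le_mul_of_nonneg_left h11 (by positivity)
    · rw [hG2 T b hw, norm_zero]
      positivity
  have hbint : Integrable (fun b : ℝ => K * 2 ^ ((m : ℝ) / 4) * (1 + b ^ 2)⁻¹) volume :=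
    integrable_inv_one_add_sq.const_mul _
  -- pointwise limit
  have hlim : ∀ b : ℝ, Tendsto (fun T => G T b) (𝓝[<] 1)
      (𝓝 (c * 2 ^ (-((m : ℝ) / 2)) * (1 + b ^ 2) ^ (-α))) := by
    intro b
    have hb : 0 < 1 + b ^ 2 := by positivity
    have hkc : Tendsto kp (𝓝[<] 1) (𝓝 0) := tendsto_kp
    have hTc : Tendsto (fun T : ℝ => T) (𝓝[<] 1) (𝓝 1) := tendsto_id.mono_left nhdsWithin_le_nhds
    have hwt : Tendsto (fun T => T + kp T * b) (𝓝[<] 1) (𝓝 1) := by
      have := hTc.add (hkc.mul_const b)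
      rwa [zero_mul, add_zero] at this
    have hwpos : ∀ᶠ T in 𝓝[<] (1 : ℝ), 0 < T + kp T * b := hwt.eventually (lt_mem_nhds one_pos)
    have h2t : Tendsto (fun T => 2 * T * (T + kp T * b)) (𝓝[<] 1) (𝓝 2) := by
      have := (hTc.const_mul 2).mul hwt
      rwa [mul_one, mul_one] at this
    have hxt : Tendsto (fun T => kp T ^ 2 * (1 + b ^ 2) / (2 * T * (T + kp T * b))) (𝓝[<] 1)
        (𝓝[>] 0) := by
      refine tendsto_nhdsWithin_iff.2 ⟨?_, ?_⟩
      · have h1 := ((hkc.pow 2).mul_const (1 + b ^ 2)).div h2t (by norm_num)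
        have e1 : (0 : ℝ) ^ 2 * (1 + b ^ 2) / 2 = 0 := by norm_num
        rw [e1] at h1
        exact h1
      · filter_upwards [h0, hwpos] with T hT hw
        have hk : 0 < kp T := kp_pos ⟨by linarith [hT.1], hT.2⟩
        have hT0 : 0 < T := by linarith [hT.1]
        have hd1 : 0 < kp T ^ 2 * (1 + b ^ 2) := by positivity
        have hd2 : 0 < 2 * T * (T + kp T * b) := by positivity
        exact div_pos hd1 hd2
    have h1 := hF.comp hxt
    have h2 : Tendsto (fun T => (T + kp T * b) ^ m * (2 * T * (T + kp T * b)) ^ (-((m : ℝ) / 2))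
        * (1 + b ^ 2) ^ (-α)) (𝓝[<] 1) (𝓝 (1 ^ m * 2 ^ (-((m : ℝ) / 2)) * (1 + b ^ 2) ^ (-α))) := by
      refine ((hwt.pow m).mul ?_).mul_const _
      exact h2t.rpow_const (Or.inl (by norm_num))
    have h3 := h2.mul h1
    have e1 : 1 ^ m * 2 ^ (-((m : ℝ) / 2)) * (1 + b ^ 2) ^ (-α) * c
        = c * 2 ^ (-((m : ℝ) / 2)) * (1 + b ^ 2) ^ (-α) := by ring
    rw [e1] at h3
    refine h3.congr' ?_
    filter_upwards [h0, hwpos] with T hT hw
    rw [hG1 T hT b hw]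
    rfl
  have hfin := tendsto_integral_filter_of_dominated_convergence
    (fun b : ℝ => K * 2 ^ ((m : ℝ) / 4) * (1 + b ^ 2)⁻¹) (Eventually.of_forall hmG)
    (by filter_upwards [h0] with T hT using Eventually.of_forall (hdom T hT)) hbint
    (Eventually.of_forall hlim)
  rw [integral_const_mul] at hfin
  exact hfin.congr' hGi

end

end Vale.Agent.P224.UG
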