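import Vale.Agent.P224.UG.Def

/-!
The radial integrals of the Gaussian weight.
-/

namespace Vale.Agent.P224.UG

open MeasureTheory Set Filter Function
open scoped Topology

lemma gauss_integrable (k : ℕ) {b : ℝ} (hb : 0 < b) :
    Integrable (fun x : ℝ => x ^ k * Real.exp (-b * x ^ 2)) (volume.restrict (Ioi 0)) := by
  have h := integrableOn_rpow_mul_exp_neg_mul_sq hb (s := (k : ℝ))
    (by have : (0 : ℝ) ≤ k := Nat.cast_nonneg k
        linarith)
  refine IntegrableOn.congr_fun h (fun x _ => ?_) measurableSet_Ioi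
  simp only [Real.rpow_natCast]

lemma gauss_int (m : ℕ) {b : ℝ} (hb : 0 < b) :
    ∫ x in Ioi (0 : ℝ), x ^ (2 * m + 1) * Real.exp (-b * x ^ 2)
      = (m.factorial : ℝ) / 2 * (b ^ (m + 1))⁻¹ := by
  have h := integral_rpow_mul_exp_neg_mul_rpow (p := 2) (q := ((2 * m + 1 : ℕ) : ℝ)) (by norm_num)
    (by have : (0 : ℝ) ≤ ((2 * m + 1 : ℕ) : ℝ) := Nat.cast_nonneg _
        linarith) hb
  have e1 : ∫ x in Ioi (0 : ℝ), x ^ (2 * m + 1) * Real.exp (-b * x ^ 2)
      = ∫ x in Ioi (0 : ℝ), x ^ (((2 * m + 1 : ℕ) : ℝ)) * Real.exp (-b * x ^ (2 : ℝ)) := by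
    refine setIntegral_congr_fun measurableSet_Ioi fun x _ => ?_
    rw [Real.rpow_natCast, Real.rpow_two]
  rw [e1, h]
  have e2 : (((2 * m + 1 : ℕ) : ℝ) + 1) / 2 = (m : ℝ) + 1 := by
    push_cast
    ring
  have e3 : -(((2 * m + 1 : ℕ) : ℝ) + 1) / 2 = -(((m + 1 : ℕ) : ℝ)) := by
    push_cast
    ring
  rw [e2, e3, Real.Gamma_nat_eq_factorial, Real.rpow_neg hb.le, Real.rpow_natCast]
  ring

/-- the quadratic form -/
lemma quad_ge {v w : ℝ} : (1 - |v|) * (1 + w ^ 2) ≤ 1 + w ^ 2 - 2 * v * w := by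
  have h1 : 2 * v * w ≤ |v| * (1 + w ^ 2) := by
    calc 2 * v * w ≤ |2 * v * w| := le_abs_self _
      _ = |v| * (2 * |w|) := by
          rw [abs_mul, abs_mul, abs_of_pos (by norm_num : (0 : ℝ) < 2)]
          ring
      _ ≤ |v| * (1 + w ^ 2) := by
          refine mul_le_mul_of_nonneg_left ?_ (abs_nonneg v)
          nlinarith [sq_nonneg (1 - |w|), sq_abs w]
  linarith

lemma quad_pos {v w : ℝ} (hv : |v| < 1) : 0 < 1 + w ^ 2 - 2 * v * w := by
  have h1 := quad_ge (v := v) (w := w)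
  have h2 : 0 < (1 - |v|) * (1 + w ^ 2) := by
    have : 0 < 1 - |v| := by linarith
    positivity
  linarith

/-- the integrand after the substitution -/
noncomputable def wk (m : ℕ) (v w : ℝ) : ℝ := w ^ m * ((1 + w ^ 2 - 2 * v * w) ^ (m + 1))⁻¹

lemma measurable_wk (m : ℕ) : Measurable (uncurry (wk m)) := by
  have : uncurry (wk m) = fun x : ℝ × ℝ => x.2 ^ m * ((1 + x.2 ^ 2 - 2 * x.1 * x.2) ^ (m + 1))⁻¹ :=
    rfl
  rw [this]
  fun_prop

lemma wk_nonneg {m : ℕ} {v w : ℝ} (hv : |v| < 1) (hw : 0 ≤ w) : 0 ≤ wk m v w := by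
  have := quad_pos (w := w) hv
  unfold wk
  positivity

lemma wk_le {m : ℕ} {v w : ℝ} (hv : |v| < 1) (hw : 0 ≤ w) :
    wk m v w ≤ ((1 - |v|) ^ (m + 1))⁻¹ * (1 + w ^ 2)⁻¹ := by
  have h0 : 0 < 1 - |v| := by linarith
  have h1 := quad_ge (v := v) (w := w)
  have h2 : 0 < 1 + w ^ 2 := by positivity
  have h3 : ((1 + w ^ 2 - 2 * v * w) ^ (m + 1))⁻¹ ≤ (((1 - |v|) * (1 + w ^ 2)) ^ (m + 1))⁻¹ :=
    inv_anti₀ (by positivity) (pow_le_pow_left₀ (by positivity) h1 _)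
  have h4 : w ^ m ≤ (1 + w ^ 2) ^ m := by
    refine pow_le_pow_left₀ hw ?_ _
    nlinarith [sq_nonneg (w - 1)]
  unfold wk
  calc w ^ m * ((1 + w ^ 2 - 2 * v * w) ^ (m + 1))⁻¹
      ≤ (1 + w ^ 2) ^ m * (((1 - |v|) * (1 + w ^ 2)) ^ (m + 1))⁻¹ :=
        mul_le_mul h4 h3 (by have := quad_pos (w := w) hv; positivity) (by positivity)
    _ = _ := by
        rw [mul_pow, pow_succ (1 + w ^ 2)]
        field_simp

lemma integrable_wk (m : ℕ) {v : ℝ} (hv : |v| < 1) :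
    Integrable (wk m v) (volume.restrict (Ioi 0)) := by
  have h1 : Integrable (fun w : ℝ => ((1 - |v|) ^ (m + 1))⁻¹ * (1 + w ^ 2)⁻¹)
      (volume.restrict (Ioi 0)) := (integrable_inv_one_add_sq.const_mul _).restrict
  have hm : Measurable (wk m v) := (measurable_wk m).comp (measurable_const.prodMk measurable_id)
  refine h1.mono' hm.aestronglyMeasurable ?_
  rw [ae_restrict_iff' measurableSet_Ioi]
  refine Eventually.of_forall fun w hw => ?_
  have hw' : (0 : ℝ) < w := hw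
  rw [Real.norm_eq_abs, abs_of_nonneg (wk_nonneg hv hw'.le)]
  exact wk_le hv hw'.le

lemma integrable_gw (m : ℕ) {T s : ℝ} (hv : |T * s| < 1) : Integrable (gw m T s) rm := by
  set c : ℝ := (1 - |T * s|) / 2 with hc
  have hc0 : 0 < c := by rw [hc]; linarith
  have h1 := gauss_integrable m hc0
  have h2 := h1.mul_prod h1
  have hm : Measurable (gw m T s) := by
    unfold gw
    fun_prop
  unfold rm
  refine h2.mono' hm.aestronglyMeasurable ?_
  have h3 : ∀ᵐ z : ℝ × ℝ ∂(volume.restrict (Ioi (0 : ℝ))).prod (volume.restrict (Ioi (0 : ℝ))),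
      z ∈ Ioi (0 : ℝ) ×ˢ Ioi (0 : ℝ) := by
    rw [Measure.prod_restrict]
    exact ae_restrict_mem (measurableSet_Ioi.prod measurableSet_Ioi)
  filter_upwards [h3] with z hz
  have hz1 : 0 < z.1 := hz.1
  have hz2 : 0 < z.2 := hz.2
  unfold gw
  rw [Real.norm_eq_abs, abs_of_nonneg (by positivity)]
  have h4 : -(z.1 ^ 2 + z.2 ^ 2) / 2 + T * (z.1 * z.2) * s ≤ -c * z.1 ^ 2 + -c * z.2 ^ 2 := by
    have h5 : T * (z.1 * z.2) * s ≤ |T * s| * ((z.1 ^ 2 + z.2 ^ 2) / 2) := by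
      calc T * (z.1 * z.2) * s = (T * s) * (z.1 * z.2) := by ring
        _ ≤ |T * s| * (z.1 * z.2) :=
            mul_le_mul_of_nonneg_right (le_abs_self _) (by positivity)
        _ ≤ _ := by
            refine mul_le_mul_of_nonneg_left ?_ (abs_nonneg _)
            nlinarith [sq_nonneg (z.1 - z.2)]
    rw [hc]
    linarith
  calc (z.1 * z.2) ^ m * Real.exp (-(z.1 ^ 2 + z.2 ^ 2) / 2 + T * (z.1 * z.2) * s)
      ≤ (z.1 * z.2) ^ m * Real.exp (-c * z.1 ^ 2 + -c * z.2 ^ 2) :=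
        mul_le_mul_of_nonneg_left (Real.exp_le_exp.2 h4) (by positivity)
    _ = z.1 ^ m * Real.exp (-c * z.1 ^ 2) * (z.2 ^ m * Real.exp (-c * z.2 ^ 2)) := by
        rw [Real.exp_add]
        ring

/-- the radial integral -/
theorem int_gw (m : ℕ) {T s : ℝ} (hv : |T * s| < 1) :
    ∫ z, gw m T s z ∂rm = 2 ^ m * m.factorial * ∫ w in Ioi (0 : ℝ), wk m (T * s) w := by
  have h1 := integrable_gw m hv
  set v := T * s with hvd
  unfold rm at h1 ⊢
  rw [integral_prod _ h1]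
  -- substitution in the inner integral
  set F : ℝ → ℝ → ℝ := fun r w =>
    w ^ m * (r ^ (2 * m + 1) * Real.exp (-((1 + w ^ 2 - 2 * v * w) / 2) * r ^ 2)) with hF
  have e1 : ∀ r ∈ Ioi (0 : ℝ), ∫ σ in Ioi (0 : ℝ), gw m T s (r, σ)
      = ∫ w in Ioi (0 : ℝ), F r w := by
    intro r hr
    have hr0 : 0 < r := hr
    have h2 := integral_comp_mul_left_Ioi (fun σ => gw m T s (r, σ)) 0 hr0
    rw [mul_zero, smul_eq_mul] at h2
    have h3 : ∫ σ in Ioi (0 : ℝ), gw m T s (r, σ)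
        = r * ∫ w in Ioi (0 : ℝ), gw m T s (r, r * w) := by
      rw [h2]
      field_simp
    rw [h3, ← integral_const_mul]
    refine setIntegral_congr_fun measurableSet_Ioi fun w _ => ?_
    simp only [hF, gw]
    have e2 : -(r ^ 2 + (r * w) ^ 2) / 2 + T * (r * (r * w)) * s
        = -((1 + w ^ 2 - 2 * v * w) / 2) * r ^ 2 := by
      rw [hvd]
      ring
    rw [e2]
    ring
  rw [setIntegral_congr_fun measurableSet_Ioi e1]
  have hD : ∀ w : ℝ, 0 < (1 + w ^ 2 - 2 * v * w) / 2 := fun w => by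
    have := quad_pos (w := w) hv
    linarith
  have hin : ∀ w : ℝ, Integrable (fun r => F r w) (volume.restrict (Ioi 0)) := fun w =>
    (gauss_integrable (2 * m + 1) (hD w)).const_mul _
  have hiv : ∀ w : ℝ, ∫ r in Ioi (0 : ℝ), F r w = 2 ^ m * m.factorial * wk m v w := by
    intro w
    simp only [hF]
    rw [integral_const_mul, gauss_int m (hD w)]
    unfold wk
    rw [div_pow, inv_div, pow_succ (2 : ℝ)]
    ring
  have hFm : Measurable (uncurry F) := by
    simp only [hF, uncurry_def]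
    fun_prop
  have hint : Integrable (uncurry F)
      ((volume.restrict (Ioi (0 : ℝ))).prod (volume.restrict (Ioi (0 : ℝ)))) := by
    rw [integrable_prod_iff' hFm.aestronglyMeasurable]
    refine ⟨Eventually.of_forall fun w => hin w, ?_⟩
    refine ((integrable_wk m hv).const_mul (2 ^ m * m.factorial)).congr ?_
    have : ∀ᵐ w ∂(volume.restrict (Ioi (0 : ℝ))), w ∈ Ioi (0 : ℝ) :=
      ae_restrict_mem measurableSet_Ioi
    filter_upwards [this] with w hw
    rw [← hiv w]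
    refine setIntegral_congr_fun measurableSet_Ioi fun r hr => ?_
    have hr0 : (0 : ℝ) < r := hr
    have hw0 : (0 : ℝ) < w := hw
    simp only [uncurry, hF]
    rw [Real.norm_eq_abs, abs_of_nonneg (by positivity)]
  rw [integral_integral_swap hint, ← integral_const_mul]
  exact integral_congr_ae (Eventually.of_forall hiv)

/-! ### the constant -/

/-- the substitution on the line -/
lemma int_line (g : ℝ → ℝ) :
    ∫ b : ℝ, g b = ∫ w in Ioi (0 : ℝ), (1 + (w ^ 2)⁻¹) / 2 * g ((w - w⁻¹) / 2) := by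
  have hd : ∀ w ∈ Ioi (0 : ℝ), HasDerivWithinAt (fun w : ℝ => (w - w⁻¹) / 2)
      ((1 + (w ^ 2)⁻¹) / 2) (Ioi 0) w := by
    intro w hw
    have hw0 : (0 : ℝ) < w := hw
    have h1 := ((hasDerivAt_id w).sub (hasDerivAt_inv hw0.ne')).div_const 2
    refine (h1.congr_deriv ?_).hasDerivWithinAt
    ring
  have hinj : InjOn (fun w : ℝ => (w - w⁻¹) / 2) (Ioi 0) := by
    intro a ha b hb hab
    have ha0 : (0 : ℝ) < a := ha
    have hb0 : (0 : ℝ) < b := hb
    simp only at hab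
    have h1 : (a - b) * (1 + a⁻¹ * b⁻¹) = 0 := by
      have h2 : a - a⁻¹ = b - b⁻¹ := by linarith
      field_simp at h2 ⊢
      linarith
    have h2 : 0 < 1 + a⁻¹ * b⁻¹ := by positivity
    rcases mul_eq_zero.1 h1 with h3 | h3
    · linarith
    · linarith
  have himg : (fun w : ℝ => (w - w⁻¹) / 2) '' (Ioi 0) = univ := by
    refine eq_univ_of_forall fun b => ?_
    have h1 : |b| < √(1 + b ^ 2) := by
      rw [← Real.sqrt_sq_eq_abs]
      exact Real.sqrt_lt_sqrt (sq_nonneg b) (by linarith)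
    have h2 : 0 < b + √(1 + b ^ 2) := by
      have := neg_abs_le b
      linarith
    refine ⟨b + √(1 + b ^ 2), h2, ?_⟩
    have h3 : √(1 + b ^ 2) ^ 2 = 1 + b ^ 2 := Real.sq_sqrt (by positivity)
    have h4 : (b + √(1 + b ^ 2))⁻¹ = √(1 + b ^ 2) - b :=
      inv_eq_of_mul_eq_one_right (by linear_combination h3)
    simp only
    rw [h4]
    ring
  have h := integral_image_eq_integral_abs_deriv_smul measurableSet_Ioi hd hinj g
  rw [himg, setIntegral_univ] at h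
  rw [h]
  refine setIntegral_congr_fun measurableSet_Ioi fun w hw => ?_
  have hw0 : (0 : ℝ) < w := hw
  simp only [smul_eq_mul]
  rw [abs_of_pos (by positivity)]

lemma sq_rpow (m : ℕ) {x : ℝ} (hx : 0 < x) :
    (x ^ 2) ^ (-((m : ℝ) / 2 + 1)) = (x ^ (m + 2))⁻¹ := by
  rw [← Real.rpow_natCast x 2, ← Real.rpow_mul hx.le, ← Real.rpow_natCast x (m + 2),
    ← Real.rpow_neg hx.le]
  congr 1
  push_cast
  ring

/-- the integral on the line at zero -/
lemma int_J (m : ℕ) :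
    ∫ b : ℝ, (1 + b ^ 2) ^ (-((m : ℝ) / 2 + 1)) = 2 ^ (m + 1) * ∫ w in Ioi (0 : ℝ), wk m 0 w := by
  rw [int_line, ← integral_const_mul]
  refine setIntegral_congr_fun measurableSet_Ioi fun w hw => ?_
  have hw0 : (0 : ℝ) < w := hw
  have e1 : 1 + ((w - w⁻¹) / 2) ^ 2 = ((1 + w ^ 2) / (2 * w)) ^ 2 := by
    field_simp
    ring
  have h1 : 0 < (1 + w ^ 2) / (2 * w) := by positivity
  have e2 := sq_rpow m h1
  rw [e1, e2]
  unfold wk
  rw [div_pow, inv_div, mul_pow, mul_zero, zero_mul, sub_zero]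
  have e3 : (1 + (w ^ 2)⁻¹) / 2 = (1 + w ^ 2) / (2 * w ^ 2) := by
    field_simp
    ring
  rw [e3]
  have h2 : (1 + w ^ 2) ≠ 0 := by positivity
  rw [pow_succ (2 : ℝ) (m + 1), pow_add w m 2, pow_succ (1 + w ^ 2) (m + 1)]
  field_simp

lemma im_sq (m : ℕ) : im m ^ 2 = 2 ^ m * m.factorial * ∫ w in Ioi (0 : ℝ), wk m 0 w := by
  have h1 := int_gw m (T := 0) (s := 0) (by norm_num)
  rw [zero_mul] at h1
  rw [← h1]
  unfold rm
  have e1 : ∀ z : ℝ × ℝ, gw m 0 0 z
      = (z.1 ^ m * Real.exp (-z.1 ^ 2 / 2)) * (z.2 ^ m * Real.exp (-z.2 ^ 2 / 2)) := by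
    intro z
    unfold gw
    have : -(z.1 ^ 2 + z.2 ^ 2) / 2 + 0 * (z.1 * z.2) * 0 = -z.1 ^ 2 / 2 + -z.2 ^ 2 / 2 := by ring
    rw [this, Real.exp_add]
    ring
  simp only [e1]
  rw [integral_prod_mul (fun x : ℝ => x ^ m * Real.exp (-x ^ 2 / 2))
    (fun x : ℝ => x ^ m * Real.exp (-x ^ 2 / 2))]
  unfold im
  ring

/-- the constant of the limit -/
theorem const_eq (m : ℕ) :
    (m.factorial : ℝ) / 2 * ∫ b : ℝ, (1 + b ^ 2) ^ (-((m : ℝ) / 2 + 1)) = im m ^ 2 := by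
  rw [int_J, im_sq, pow_succ]
  ring

end Vale.Agent.P224.UG
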