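import Vale.Agent.P224.UG.LimB
import Vale.Agent.P224.UG.RadI

/-!
The limit of the Gaussian pair integrals.
-/

namespace Vale.Agent.P224.UG

open MeasureTheory Set Filter Function
open Vale.Agent.P224.UE
open scoped Topology

set_option linter.unusedSectionVars false

section

variable {Y : Type*} [MeasurableSpace Y] {ρ : Measure Y} [IsFiniteMeasure ρ] {Q s : Y → ℝ} {B : ℝ}

lemma abs_Ts {T x : ℝ} (h0 : 0 ≤ T) (h1 : T < 1) (hx : x ∈ Icc (-1 : ℝ) 1) : |T * x| < 1 := by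
  rw [abs_mul, abs_of_nonneg h0]
  have h2 : |x| ≤ 1 := abs_le.2 hx
  calc T * |x| ≤ T * 1 := mul_le_mul_of_nonneg_left h2 h0
    _ < 1 := by linarith

/-- the Gaussian integral in terms of the Stieltjes integrals -/
lemma PD.int_gw_eq (hd : PD ρ Q s B) (m : ℕ) {T : ℝ} (h0 : 0 < T) (h1 : T < 1) :
    ∫ y, Q y * (∫ z, gw m T (s y) z ∂rm) ∂ρ
      = 2 ^ m * m.factorial * ∫ w in Ioi (0 : ℝ), gR ρ Q s m (m + 1) T w := by
  have hTs : ∀ y, |T * s y| < 1 := fun y => abs_Ts h0.le h1 ⟨hd.s0 y, hd.s1 y⟩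
  have e1 : ∀ y, Q y * (∫ z, gw m T (s y) z ∂rm)
      = 2 ^ m * m.factorial * ∫ w in Ioi (0 : ℝ), Q y * wk m (T * s y) w := by
    intro y
    rw [int_gw m (hTs y), integral_const_mul]
    ring
  simp only [e1]
  rw [integral_const_mul]
  congr 1
  have hm1 : Measurable fun z : Y × ℝ => Q z.1 * wk m (T * s z.1) z.2 := by
    have h2 : Measurable fun z : Y × ℝ => wk m (T * s z.1) z.2 :=
      (measurable_wk m).comp (((hd.ms.comp measurable_fst).const_mul T).prodMk measurable_snd)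
    exact (hd.mQ.comp measurable_fst).mul h2
  have hint : Integrable (uncurry fun (y : Y) (w : ℝ) => Q y * wk m (T * s y) w)
      (ρ.prod (volume.restrict (Ioi (0 : ℝ)))) := by
    have h2 : Integrable (fun z : Y × ℝ => B * (((1 - T) ^ (m + 1))⁻¹ * (1 + z.2 ^ 2)⁻¹))
        (ρ.prod (volume.restrict (Ioi (0 : ℝ)))) :=
      (integrable_const B).mul_prod (integrable_inv_one_add_sq.const_mul _).restrict
    refine h2.mono' hm1.aestronglyMeasurable ?_
    have h3 : ∀ᵐ z : Y × ℝ ∂(ρ.prod (volume.restrict (Ioi (0 : ℝ)))), z.2 ∈ Ioi (0 : ℝ) := by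
      have : ∀ᵐ w ∂(volume.restrict (Ioi (0 : ℝ))), w ∈ Ioi (0 : ℝ) :=
        ae_restrict_mem measurableSet_Ioi
      exact Measure.quasiMeasurePreserving_snd.ae this
    filter_upwards [h3] with z hz
    have hz0 : (0 : ℝ) < z.2 := hz
    have h4 := wk_nonneg (m := m) (hTs z.1) hz0.le
    have h5 := wk_le (m := m) (hTs z.1) hz0.le
    have h6 : ((1 - |T * s z.1|) ^ (m + 1))⁻¹ ≤ ((1 - T) ^ (m + 1))⁻¹ := by
      refine inv_anti₀ (pow_pos (by linarith) _) (pow_le_pow_left₀ (by linarith) ?_ _)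
      have h7 : |T * s z.1| ≤ T := by
        rw [abs_mul, abs_of_pos h0]
        have : |s z.1| ≤ 1 := abs_le.2 ⟨hd.s0 _, hd.s1 _⟩
        calc T * |s z.1| ≤ T * 1 := mul_le_mul_of_nonneg_left this h0.le
          _ = T := mul_one T
      linarith
    simp only [uncurry]
    rw [Real.norm_eq_abs, abs_of_nonneg (mul_nonneg (hd.Q0 _) h4)]
    refine mul_le_mul (hd.QB _) (h5.trans ?_) h4 ((hd.Q0 z.1).trans (hd.QB _))
    exact mul_le_mul_of_nonneg_right h6 (by positivity)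
  rw [integral_integral_swap hint]
  refine setIntegral_congr_fun measurableSet_Ioi fun w hw => ?_
  have hw0 : (0 : ℝ) < w := hw
  unfold gR Ph
  rw [← integral_const_mul]
  refine integral_congr_ae (Eventually.of_forall fun y => ?_)
  simp only
  have e2 : (1 + w ^ 2 - 2 * T * w) / (2 * T * w) + 1 - s y
      = (2 * T * w)⁻¹ * (1 + w ^ 2 - 2 * (T * s y) * w) := by
    field_simp
    ring
  have e3 : (2 * T * w) ^ (m + 1) ≠ 0 := by positivity
  unfold wk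
  rw [e2, mul_pow (2 * T * w)⁻¹, mul_inv, inv_pow, inv_inv]
  field_simp

/-- the limit of the Gaussian integrals -/
theorem PD.gw_tendsto [Nonempty Y] (hd : PD ρ Q s B) {m : ℕ} (hm : 0 < m) {A : ℝ}
    (h : Tendsto (fun T => ∫ y, Q y * cv m T (s y) ∂ρ) (𝓝[<] 1) (𝓝 A)) :
    Tendsto (fun T => kp T ^ (m + 1) * ∫ y, Q y * (∫ z, gw m T (s y) z ∂rm) ∂ρ) (𝓝[<] 1)
      (𝓝 (im m ^ 2 * A)) := by
  have hm' : (m : ℝ) ≠ 0 := by
    have : (0 : ℝ) < m := by exact_mod_cast hm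
    exact this.ne'
  have h1 := hd.Ph_succ hm (Ph_of_cv h)
  have h2 := hd.radial_tendsto (m := m) (j := 0)
    (c := (m : ℝ) / 2 * (2 ^ (-((m : ℝ) / 2)) * A) / m) (by simpa using h1)
  have h3 := h2.const_mul (2 ^ m * (m.factorial : ℝ))
  have e1 : 2 ^ m * (m.factorial : ℝ) * ((m : ℝ) / 2 * (2 ^ (-((m : ℝ) / 2)) * A) / m
      * 2 ^ (-((m : ℝ) / 2)) * ∫ b : ℝ, (1 + b ^ 2) ^ (-((m : ℝ) / 2 + 1 + ((0 : ℕ) : ℝ))))
      = im m ^ 2 * A := by
    rw [← const_eq m, Nat.cast_zero, add_zero]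
    have e2 : (2 : ℝ) ^ (-((m : ℝ) / 2)) * 2 ^ (-((m : ℝ) / 2)) * 2 ^ m = 1 := by
      rw [← Real.rpow_natCast 2 m, ← Real.rpow_add (by norm_num), ← Real.rpow_add (by norm_num)]
      have : -((m : ℝ) / 2) + -((m : ℝ) / 2) + m = 0 := by ring
      rw [this, Real.rpow_zero]
    generalize (2 : ℝ) ^ (-((m : ℝ) / 2)) = a at e2 ⊢
    generalize ∫ b : ℝ, (1 + b ^ 2) ^ (-((m : ℝ) / 2 + 1)) = J
    field_simp
    linear_combination A * J * e2
  rw [e1] at h3
  refine h3.congr' ?_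
  have h0 : ∀ᶠ T in 𝓝[<] (1 : ℝ), T ∈ Ioo (0 : ℝ) 1 := Ioo_mem_nhdsLT one_pos
  filter_upwards [h0] with T hT
  rw [hd.int_gw_eq m hT.1 hT.2]
  simp only [Nat.mul_zero, Nat.add_zero]
  ring

end

end Vale.Agent.P224.UG
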