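import Vale.Agent.P224.UG.Term

/-!
Monotonicity of the functional of a certificate over a Gaussian cone.
-/

namespace Vale.Agent.P224.UG

open MeasureTheory Set Filter Function
open Vale.Agent.P224.UE
open scoped Topology RealInnerProductSpace ENNReal

set_option linter.unusedSectionVars false

lemma c8_sw9 {T : ℝ} (hT : T ∈ Ico (0 : ℝ) 1) (d : R9) : c8 T (sw9 d) = sw8 T (c8 T d) := by
  have hk2 : kp T ^ 2 = 1 - T ^ 2 := kp_sq hT
  unfold c8 sw8 sw9
  ext i
  fin_cases i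
  · simp
  · simp
  · simp
  · simp
  · simp
  · simp
    linear_combination (-(d 7)) * hk2
  · simp
    ring
  · simp

section

variable {X : Type*} [MeasurableSpace X] {E : Type*} [NormedAddCommGroup E]
  [InnerProductSpace ℝ E] [MeasurableSpace E] [BorelSpace E] [SecondCountableTopology E]
  {γ : Measure X} {n : ℕ} {p ν : X → E} {e : E}

lemma sw9_zero (d : R9) : sw9 d 0 = d 0 := rfl

lemma dat_swap (q : X × X) : dat p ν e q.swap = sw9 (dat p ν e q) := by
  unfold dat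
  rw [sw_dv, Prod.fst_swap, Prod.snd_swap]

lemma KI_swap [SFinite γ] (T : ℝ) (H : R9 → ℝ) :
    KI γ p ν e T (fun d => H (sw9 d)) = KI γ p ν e T H := by
  set F : X × X → ℝ := fun q => Real.exp (T * dat p ν e q 0) * H (dat p ν e q) with hF
  have h1 : ∫ q, F q.swap ∂(γ.prod γ) = ∫ q, F q ∂(γ.prod γ) := integral_prod_swap F
  have h2 : ∀ q, Real.exp (T * dat p ν e q 0) * H (sw9 (dat p ν e q)) = F q.swap := by
    intro q
    rw [hF]
    simp only
    rw [dat_swap, sw9_zero]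
  have h3 : KI γ p ν e T H = ∫ q, F q ∂(γ.prod γ) := rfl
  rw [h3, ← h1]
  exact integral_congr_ae (Eventually.of_forall h2)

/-- the terms with a functional -/
def GTerm.act (t : GTerm) : Prop := t.fam = 0 ∨ t.fam = 3 ∨ t.fam = 4

lemma GTerm.f_null {t : GTerm} (ht : ¬ t.act) : t.f = fun _ => 0 := by
  obtain ⟨fam, a, b, k, d, l⟩ := t
  unfold GTerm.act at ht
  fin_cases fam
  · exact absurd (Or.inl rfl) ht
  · rfl
  · rfl
  · exact absurd (Or.inr (Or.inl rfl)) ht
  · exact absurd (Or.inr (Or.inr rfl)) ht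
  · rfl

lemma GTerm.D_null {t : GTerm} (ht : ¬ t.act) (T φ φ' : ℝ) (v : R8) :
    t.D T φ φ' v = t.D T φ 0 v := by
  obtain ⟨fam, a, b, k, d, l⟩ := t
  unfold GTerm.act at ht
  fin_cases fam
  · exact absurd (Or.inl rfl) ht
  · rfl
  · rfl
  · exact absurd (Or.inr (Or.inl rfl)) ht
  · exact absurd (Or.inr (Or.inr rfl)) ht
  · rfl

/-- the derivative of a term, with no condition on the coefficient of a null row -/
theorem DD.term' (h : GC γ n p ν) (e : E) (t : GTerm) (hb : t.b ≤ 2) {T : ℝ}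
    (hT : T ∈ Ico (0 : ℝ) 1) {φ : ℝ → ℝ} {φ' : ℝ} (hφ : t.act → HasDerivAt φ φ' T) :
    DD γ n p ν e T (fun T d => φ T * t.f (c8 T d)) (fun d => t.D T (φ T) φ' (c8 T d)) := by
  by_cases ht : t.act
  · exact DD.term h e t hb hT (hφ ht)
  · have h1 := DD.term h e t hb hT (hasDerivAt_const T (φ T))
    refine h1.congr (fun T' q => ?_) fun q => ?_
    · rw [GTerm.f_null ht, mul_zero, mul_zero]
    · exact GTerm.D_null ht _ _ _ _

/-- the derivative of the functional of a certificate -/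
theorem DD.list (h : GC γ n p ν) (e : E) {T : ℝ} (hT : T ∈ Ico (0 : ℝ) 1) (l : Cert)
    (hb : ∀ t ∈ l, t.1.b ≤ 2) (hd : ∀ t ∈ l, t.1.act → HasDerivAt t.2.1 (t.2.2 T) T) :
    DD γ n p ν e T (fun T d => fsum l T (c8 T d)) (fun d => Dsum l T (c8 T d)) := by
  induction l with
  | nil =>
    refine DD.null (SD.const 0) ?_
    simp [KI, Dsum]
  | cons t l ih =>
    have h1 := DD.term' h e t.1 (hb t List.mem_cons_self) hT (hd t List.mem_cons_self)
    have h2 := ih (fun s hs => hb s (List.mem_cons_of_mem _ hs))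
      (fun s hs => hd s (List.mem_cons_of_mem _ hs))
    refine (DD.add h hT h1 h2).congr (fun T' q => ?_) fun q => ?_
    · simp only [fsum, List.map_cons, List.sum_cons]
    · simp only [Dsum, List.map_cons, List.sum_cons]

/-- the functional of a term is differentiable -/
lemma hasDerivAt_EK (h : GC γ n p ν) (e : E) {t : GTerm} (hb : t.b ≤ 2) {T : ℝ}
    (hT : T ∈ Ico (0 : ℝ) 1) : ∃ D, HasDerivAt (fun T => EK γ n p ν e T t.f) D T := by
  have h1 := DD.term h e t hb hT (hasDerivAt_const T (1 : ℝ))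
  have h2 := h1.2.2
  simp only [one_mul] at h2
  exact ⟨_, h2⟩

lemma sd_f (h : GC γ n p ν) (e : E) {t : GTerm} (hb : t.b ≤ 2) {T : ℝ}
    (hT : T ∈ Ico (0 : ℝ) 1) : SD p ν e (fun d => t.f (c8 T d)) := by
  have h1 := (DD.term h e t hb hT (hasDerivAt_const T (1 : ℝ))).1 T
  simpa only [one_mul] using h1

lemma sd_fsum (h : GC γ n p ν) (e : E) {T : ℝ} (hT : T ∈ Ico (0 : ℝ) 1) (l : Cert)
    (hb : ∀ t ∈ l, t.1.b ≤ 2) : SD p ν e (fun d => fsum l T (c8 T d)) := by
  induction l with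
  | nil => exact SD.const 0
  | cons t l ih =>
    have h1 := (sd_f h e (hb t List.mem_cons_self) hT).const_mul (t.2.1 T)
    have h2 := ih (fun s hs => hb s (List.mem_cons_of_mem _ hs))
    have h3 := h1.add h2
    simpa only [fsum, List.map_cons, List.sum_cons] using h3

lemma EK_null {t : GTerm} (ht : ¬ t.act) (T : ℝ) : EK γ n p ν e T t.f = 0 := by
  rw [GTerm.f_null ht]
  simp [EK, KI]

/-- the functional of a certificate -/
noncomputable def Phi (γ : Measure X) (n : ℕ) (p ν : X → E) (e : E) (l : Cert) (T : ℝ) : ℝ :=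
  (l.map fun t => t.2.1 T * EK γ n p ν e T t.1.f).sum

lemma Phi_eq (h : GC γ n p ν) (e : E) {T : ℝ} (hT : T ∈ Ico (0 : ℝ) 1) (l : Cert)
    (hb : ∀ t ∈ l, t.1.b ≤ 2) :
    kp T ^ n * KI γ p ν e T (fun d => fsum l T (c8 T d)) = Phi γ n p ν e l T := by
  have hT' : |T| < 1 := by rw [abs_of_nonneg hT.1]; exact hT.2
  induction l with
  | nil => simp [Phi, fsum, KI]
  | cons t l ih =>
    have hb' : ∀ s ∈ l, s.1.b ≤ 2 := fun s hs => hb s (List.mem_cons_of_mem _ hs)
    have h1 := (sd_f h e (hb t List.mem_cons_self) hT).const_mul (t.2.1 T)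
    have h2 := sd_fsum h e hT l hb'
    have h3 := h.KI_add h1 h2 hT'
    have h4 := ih hb'
    simp only [fsum, List.map_cons, List.sum_cons, Phi] at h3 h4 ⊢
    rw [h3, mul_add, h4, KI_const_mul]
    unfold EK
    ring

lemma continuousAt_EK (h : GC γ n p ν) (e : E) {t : GTerm} (hb : t.b ≤ 2) {T : ℝ}
    (hT : T ∈ Ico (0 : ℝ) 1) : ContinuousAt (fun T => EK γ n p ν e T t.f) T := by
  obtain ⟨D, hD⟩ := hasDerivAt_EK h e hb hT
  exact hD.continuousAt

lemma continuousOn_Phi (h : GC γ n p ν) (e : E) (l : Cert) (hb : ∀ t ∈ l, t.1.b ≤ 2)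
    (hc : ∀ t ∈ l, t.1.act → ContinuousOn t.2.1 (Icc 0 1)) :
    ContinuousOn (Phi γ n p ν e l) (Ico 0 1) := by
  induction l with
  | nil =>
    have : Phi γ n p ν e [] = fun _ => 0 := by
      funext T
      simp [Phi]
    rw [this]
    exact continuousOn_const
  | cons t l ih =>
    have h1 : ContinuousOn (fun T => t.2.1 T * EK γ n p ν e T t.1.f) (Ico 0 1) := by
      by_cases ht : t.1.act
      · exact ((hc t List.mem_cons_self ht).mono Ico_subset_Icc_self).mul
          fun T hT => (continuousAt_EK h e (hb t List.mem_cons_self) hT).continuousWithinAt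
      · simp only [EK_null ht, mul_zero]
        exact continuousOn_const
    have h2 := ih (fun s hs => hb s (List.mem_cons_of_mem _ hs))
      (fun s hs => hc s (List.mem_cons_of_mem _ hs))
    have h3 := h1.add h2
    have h4 : Phi γ n p ν e (t :: l)
        = fun T => t.2.1 T * EK γ n p ν e T t.1.f + Phi γ n p ν e l T := by
      funext T
      simp only [Phi, List.map_cons, List.sum_cons]
    rw [h4]
    exact h3

/-- the sign of the derivative -/
lemma deriv_nonpos (h : GC γ n p ν) (e : E) {T : ℝ} (hT : T ∈ Ico (0 : ℝ) 1) {G : R8 → ℝ}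
    (hG : SD p ν e (fun d => G (c8 T d)))
    (hpos : ∀ q, G (c8 T (dat p ν e q)) + G (sw8 T (c8 T (dat p ν e q))) ≤ 0) :
    kp T ^ n * KI γ p ν e T (fun d => G (c8 T d)) ≤ 0 := by
  have := h.finite
  have hT' : |T| < 1 := by rw [abs_of_nonneg hT.1]; exact hT.2
  have hk := kp_pos hT
  have hG' : SD p ν e (fun d => G (c8 T (sw9 d))) := by
    unfold SD at hG ⊢
    have h1 : (fun q : X × X => G (c8 T (sw9 (dat p ν e q))))
        = fun q => (fun q : X × X => G (c8 T (dat p ν e q))) q.swap := by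
      funext q
      simp only [dat_swap]
    rw [h1]
    refine ⟨hG.1.comp measurable_swap, fun ε hε => ?_⟩
    obtain ⟨C, hC⟩ := hG.2 ε hε
    refine ⟨C, fun q => ?_⟩
    have h2 := hC q.swap
    simp only [Prod.fst_swap, Prod.snd_swap] at h2
    rwa [add_comm (‖p q.2‖ ^ 2)] at h2
  have h1 := KI_swap (γ := γ) (p := p) (ν := ν) (e := e) T (fun d => G (c8 T d))
  have h2 := h.KI_add hG hG' hT'
  have h3 : KI γ p ν e T (fun d => G (c8 T d) + G (c8 T (sw9 d))) ≤ 0 := by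
    unfold KI
    refine integral_nonpos fun q => ?_
    have h4 := hpos q
    rw [← c8_sw9 hT] at h4
    exact mul_nonpos_of_nonneg_of_nonpos (Real.exp_pos _).le h4
  rw [h1] at h2
  have h5 : KI γ p ν e T (fun d => G (c8 T d)) ≤ 0 := by linarith
  exact mul_nonpos_of_nonneg_of_nonpos (by positivity) h5

/-- **The functional of a certificate is decreasing.** -/
theorem Phi_antitone (h : GC γ n p ν) (e : E) (l : Cert) (hb : ∀ t ∈ l, t.1.b ≤ 2)
    (hc : ∀ t ∈ l, t.1.act → ContinuousOn t.2.1 (Icc 0 1))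
    (hd : ∀ t ∈ l, t.1.act → ∀ T ∈ Ioo (0 : ℝ) 1, HasDerivAt t.2.1 (t.2.2 T) T)
    (hpos : ∀ T ∈ Ioo (0 : ℝ) 1, ∀ N w : E, ‖N‖ = 1 → ‖w‖ = 1 → ∀ P Q Z Ξ : ℝ,
      Dsum l T ![P, Q, ⟪N, w⟫, ⟪N, e⟫, ⟪w, e⟫, Z, Ξ, ⟪e, e⟫]
        + Dsum l T (sw8 T ![P, Q, ⟪N, w⟫, ⟪N, e⟫, ⟪w, e⟫, Z, Ξ, ⟪e, e⟫]) ≤ 0) :
    AntitoneOn (Phi γ n p ν e l) (Ico 0 1) := by
  have hD : ∀ T ∈ Ioo (0 : ℝ) 1, HasDerivAt (Phi γ n p ν e l)
      (kp T ^ n * KI γ p ν e T (fun d => Dsum l T (c8 T d))) T := by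
    intro T hT
    have hT' : T ∈ Ico (0 : ℝ) 1 := ⟨hT.1.le, hT.2⟩
    have h1 := (DD.list h e hT' l hb fun t ht ha => hd t ht ha T hT).2.2
    refine h1.congr_of_eventuallyEq ?_
    filter_upwards [Ioo_mem_nhds hT.1 hT.2] with T' hT''
    exact (Phi_eq h e ⟨hT''.1.le, hT''.2⟩ l hb).symm
  refine antitoneOn_of_deriv_nonpos (convex_Ico 0 1) (continuousOn_Phi h e l hb hc) ?_ ?_
  · intro T hT
    rw [interior_Ico] at hT
    exact (hD T hT).differentiableAt.differentiableWithinAt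
  · intro T hT
    rw [interior_Ico] at hT
    rw [(hD T hT).deriv]
    have hT' : T ∈ Ico (0 : ℝ) 1 := ⟨hT.1.le, hT.2⟩
    refine deriv_nonpos h e hT' (DD.list h e hT' l hb fun t ht ha => hd t ht ha T hT).2.1 fun q => ?_
    exact hpos T hT (ν q.1) (ν q.2) (h.nn _) (h.nn _) _ _ _ _

end

end Vale.Agent.P224.UG
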