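import Vale.Agent.P224.UG.Mono

/-!
Monotonicity of the functional of a certificate: the null families need no hypothesis on their
coefficient functions.
-/

namespace Vale.Agent.P224.UG

open MeasureTheory Set Filter Function
open Vale.Agent.P224.UE
open scoped Topology RealInnerProductSpace ENNReal

set_option linter.unusedSectionVars false

/-- the families whose rows are null -/
def GTerm.nul (t : GTerm) : Bool := Nat.beq t.fam.val 1 || Nat.beq t.fam.val 2 || Nat.beq t.fam.val 5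

lemma GTerm.f_nul {t : GTerm} (h : t.nul = true) (v : R8) : t.f v = 0 := by
  obtain ⟨fam, a, b, k, d, l⟩ := t
  fin_cases fam
  · exact absurd h (by simp [GTerm.nul])
  · rfl
  · rfl
  · exact absurd h (by simp [GTerm.nul])
  · exact absurd h (by simp [GTerm.nul])
  · rfl

lemma GTerm.D_nul {t : GTerm} (h : t.nul = true) (T φ φ' φ'' : ℝ) (v : R8) :
    t.D T φ φ' v = t.D T φ φ'' v := by
  obtain ⟨fam, a, b, k, d, l⟩ := t
  fin_cases fam
  · exact absurd h (by simp [GTerm.nul])
  · rfl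
  · rfl
  · exact absurd h (by simp [GTerm.nul])
  · exact absurd h (by simp [GTerm.nul])
  · rfl

section

variable {X : Type*} [MeasurableSpace X] {E : Type*} [NormedAddCommGroup E]
  [InnerProductSpace ℝ E] [MeasurableSpace E] [BorelSpace E] [SecondCountableTopology E]
  {γ : Measure X} {n : ℕ} {p ν : X → E} {e : E}

lemma EK_nul {t : GTerm} (h : t.nul = true) (T : ℝ) : EK γ n p ν e T t.f = 0 := by
  have : t.f = fun _ => 0 := by
    funext v
    exact GTerm.f_nul h v
  rw [this]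
  simp [EK, KI]

/-- The derivative of a term of a certificate. -/
theorem DD.termN (h : GC γ n p ν) (e : E) (t : GTerm) (hb : t.b ≤ 2) {T : ℝ}
    (hT : T ∈ Ico (0 : ℝ) 1) {φ : ℝ → ℝ} {φ' : ℝ} (hφ : t.nul = false → HasDerivAt φ φ' T) :
    DD γ n p ν e T (fun T d => φ T * t.f (c8 T d)) (fun d => t.D T (φ T) φ' (c8 T d)) := by
  cases ht : t.nul
  · exact DD.term h e t hb hT (hφ ht)
  · refine (DD.term h e t hb hT (hasDerivAt_const T (φ T))).congr (fun T' q => ?_) fun q => ?_
    · rw [GTerm.f_nul ht, mul_zero, mul_zero]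
    · exact GTerm.D_nul ht _ _ _ _ _

/-- the derivative of the functional of a certificate -/
theorem DD.listN (h : GC γ n p ν) (e : E) {T : ℝ} (hT : T ∈ Ico (0 : ℝ) 1) (l : Cert)
    (hb : ∀ t ∈ l, t.1.b ≤ 2)
    (hd : ∀ t ∈ l, t.1.nul = false → HasDerivAt t.2.1 (t.2.2 T) T) :
    DD γ n p ν e T (fun T d => fsum l T (c8 T d)) (fun d => Dsum l T (c8 T d)) := by
  induction l with
  | nil =>
    refine DD.null (SD.const 0) ?_
    simp [KI, Dsum]
  | cons t l ih =>
    have h1 := DD.termN h e t.1 (hb t List.mem_cons_self) hT (hd t List.mem_cons_self)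
    have h2 := ih (fun s hs => hb s (List.mem_cons_of_mem _ hs))
      (fun s hs => hd s (List.mem_cons_of_mem _ hs))
    refine (DD.add h hT h1 h2).congr (fun T' q => ?_) fun q => ?_
    · simp only [fsum, List.map_cons, List.sum_cons]
    · simp only [Dsum, List.map_cons, List.sum_cons]

lemma continuousOn_PhiN (h : GC γ n p ν) (e : E) (l : Cert) (hb : ∀ t ∈ l, t.1.b ≤ 2)
    (hc : ∀ t ∈ l, t.1.nul = false → ContinuousOn t.2.1 (Icc 0 1)) :
    ContinuousOn (Phi γ n p ν e l) (Ico 0 1) := by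
  induction l with
  | nil =>
    have : Phi γ n p ν e [] = fun _ => 0 := by
      funext T
      simp [Phi]
    rw [this]
    exact continuousOn_const
  | cons t l ih =>
    have h1 : ContinuousOn (fun T => t.2.1 T * EK γ n p ν e T t.1.f) (Ico 0 1) := by
      cases ht : t.1.nul
      · exact ((hc t List.mem_cons_self ht).mono Ico_subset_Icc_self).mul
          fun T hT => (continuousAt_EK h e (hb t List.mem_cons_self) hT).continuousWithinAt
      · simp only [EK_nul ht, mul_zero]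
        exact continuousOn_const
    have h2 := ih (fun s hs => hb s (List.mem_cons_of_mem _ hs))
      (fun s hs => hc s (List.mem_cons_of_mem _ hs))
    have h3 := h1.add h2
    have h4 : Phi γ n p ν e (t :: l)
        = fun T => t.2.1 T * EK γ n p ν e T t.1.f + Phi γ n p ν e l T := by
      funext T
      simp only [Phi, List.map_cons, List.sum_cons]
    rw [h4]
    exact h3

/-- **The functional of a certificate is decreasing.** -/
theorem Phi_antitoneN (h : GC γ n p ν) (e : E) (l : Cert) (hb : ∀ t ∈ l, t.1.b ≤ 2)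
    (hc : ∀ t ∈ l, t.1.nul = false → ContinuousOn t.2.1 (Icc 0 1))
    (hd : ∀ t ∈ l, t.1.nul = false → ∀ T ∈ Ioo (0 : ℝ) 1, HasDerivAt t.2.1 (t.2.2 T) T)
    (hpos : ∀ T ∈ Ioo (0 : ℝ) 1, ∀ N w : E, ‖N‖ = 1 → ‖w‖ = 1 → ∀ P Q Z Ξ : ℝ,
      Dsum l T ![P, Q, ⟪N, w⟫, ⟪N, e⟫, ⟪w, e⟫, Z, Ξ, ⟪e, e⟫]
        + Dsum l T (sw8 T ![P, Q, ⟪N, w⟫, ⟪N, e⟫, ⟪w, e⟫, Z, Ξ, ⟪e, e⟫]) ≤ 0) :
    AntitoneOn (Phi γ n p ν e l) (Ico 0 1) := by
  have hD : ∀ T ∈ Ioo (0 : ℝ) 1, HasDerivAt (Phi γ n p ν e l)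
      (kp T ^ n * KI γ p ν e T (fun d => Dsum l T (c8 T d))) T := by
    intro T hT
    have hT' : T ∈ Ico (0 : ℝ) 1 := ⟨hT.1.le, hT.2⟩
    have h1 := (DD.listN h e hT' l hb fun t ht htn => hd t ht htn T hT).2.2
    refine h1.congr_of_eventuallyEq ?_
    filter_upwards [Ioo_mem_nhds hT.1 hT.2] with T' hT''
    exact (Phi_eq h e ⟨hT''.1.le, hT''.2⟩ l hb).symm
  refine antitoneOn_of_deriv_nonpos (convex_Ico 0 1) (continuousOn_PhiN h e l hb hc) ?_ ?_
  · intro T hT
    rw [interior_Ico] at hT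
    exact (hD T hT).differentiableAt.differentiableWithinAt
  · intro T hT
    rw [interior_Ico] at hT
    rw [(hD T hT).deriv]
    have hT' : T ∈ Ico (0 : ℝ) 1 := ⟨hT.1.le, hT.2⟩
    refine deriv_nonpos h e hT' (DD.listN h e hT' l hb fun t ht htn => hd t ht htn T hT).2.1
      fun q => ?_
    exact hpos T hT (ν q.1) (ν q.2) (h.nn _) (h.nn _) _ _ _ _

end

end Vale.Agent.P224.UG
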