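import Vale.Agent.P224.UG.Basic

/-!
The Gaussian radial measure, the Gaussian cone measure and functions of subgaussian growth.
-/

namespace Vale.Agent.P224.UG

open MeasureTheory Set Filter Function
open scoped Topology RealInnerProductSpace ENNReal

set_option linter.unusedSectionVars false

/-- the radial measure `r ^ m e ^ (-r²/2) dr` on `(0, ∞)` -/
noncomputable def rad (m : ℕ) : Measure ℝ :=
  (volume.restrict (Ioi 0)).withDensity (fun r => ENNReal.ofReal (r ^ m * Real.exp (-(r ^ 2 / 2))))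

/-- the Gaussian cone measure -/
noncomputable def gam {M : Type*} [MeasurableSpace M] (m : ℕ) (μ : Measure M) : Measure (M × ℝ) :=
  μ.prod (rad m)

/-- the position in the cone -/
def cp {M W : Type*} [SMul ℝ W] (F : M → W) (q : M × ℝ) : W := q.2 • F q.1

/-- the normal of the cone -/
def cn {M W : Type*} (N : M → W) (q : M × ℝ) : W := N q.1

lemma measurable_den (m : ℕ) :
    Measurable (fun r : ℝ => ENNReal.ofReal (r ^ m * Real.exp (-(r ^ 2 / 2)))) := by
  fun_prop

lemma measurable_den2 {M : Type*} [MeasurableSpace M] (m : ℕ) : Measurable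
    (fun q : M × ℝ => ENNReal.ofReal (q.2 ^ m * Real.exp (-(q.2 ^ 2 / 2)))) := by
  fun_prop

lemma den_nonneg (m : ℕ) {r : ℝ} (hr : 0 < r) : 0 ≤ r ^ m * Real.exp (-(r ^ 2 / 2)) := by
  positivity

lemma integrable_rad {m : ℕ} {g : ℝ → ℝ} :
    Integrable g (rad m) ↔ IntegrableOn (fun r => r ^ m * Real.exp (-(r ^ 2 / 2)) * g r) (Ioi 0) := by
  unfold rad IntegrableOn
  rw [integrable_withDensity_iff_integrable_smul' (measurable_den m)
    (Eventually.of_forall fun r => ENNReal.ofReal_lt_top)]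
  refine integrable_congr ?_
  filter_upwards [ae_restrict_mem measurableSet_Ioi] with r hr
  rw [ENNReal.toReal_ofReal (den_nonneg m hr), smul_eq_mul]

lemma integral_rad {m : ℕ} (g : ℝ → ℝ) :
    ∫ r, g r ∂(rad m) = ∫ r in Ioi 0, r ^ m * Real.exp (-(r ^ 2 / 2)) * g r := by
  unfold rad
  rw [integral_withDensity_eq_integral_toReal_smul (measurable_den m)
    (Eventually.of_forall fun r => ENNReal.ofReal_lt_top)]
  refine integral_congr_ae ?_
  filter_upwards [ae_restrict_mem measurableSet_Ioi] with r hr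
  rw [ENNReal.toReal_ofReal (den_nonneg m hr), smul_eq_mul]

/-- Gaussian moments -/
lemma integrable_pow_mul_exp {b : ℝ} (hb : 0 < b) (k : ℕ) :
    Integrable (fun r : ℝ => r ^ k * Real.exp (-b * r ^ 2)) := by
  have h := integrable_rpow_mul_exp_neg_mul_sq hb (s := k) (by
    have : (0 : ℝ) ≤ k := Nat.cast_nonneg k
    linarith)
  refine h.congr (Eventually.of_forall fun r => ?_)
  simp only [Real.rpow_natCast]

lemma integrable_exp_rad {m : ℕ} {a : ℝ} (ha : a < 1 / 2) :
    Integrable (fun r => Real.exp (a * r ^ 2)) (rad m) := by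
  rw [integrable_rad]
  refine ((integrable_pow_mul_exp (b := 1 / 2 - a) (by linarith) m).integrableOn).congr_fun
    (fun r _ => ?_) measurableSet_Ioi
  simp only
  rw [mul_assoc, ← Real.exp_add]
  congr 2
  ring

instance (m : ℕ) : IsFiniteMeasure (rad m) := by
  have h1 := integrable_exp_rad (m := m) (a := 0) (by norm_num)
  simp only [zero_mul, Real.exp_zero] at h1
  have h2 := (integrable_const_iff (μ := rad m) (c := (1 : ℝ))).1 h1
  rcases h2 with h2 | h2
  · norm_num at h2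
  · exact h2

section

variable {M : Type*} [MeasurableSpace M]

lemma ae_pos (μ : Measure M) [SFinite μ] :
    ∀ᵐ q ∂(μ.prod (volume.restrict (Ioi (0 : ℝ)))), 0 < q.2 :=
  Measure.quasiMeasurePreserving_snd.ae
    (p := fun r : ℝ => 0 < r) (ae_restrict_mem measurableSet_Ioi)

lemma integral_gam {m : ℕ} (μ : Measure M) [SFinite μ] (g : M × ℝ → ℝ) :
    ∫ q, g q ∂(gam m μ) = ∫ q, q.2 ^ m * Real.exp (-(q.2 ^ 2 / 2)) * g q
      ∂(μ.prod (volume.restrict (Ioi (0 : ℝ)))) := by
  unfold gam rad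
  rw [prod_withDensity_right (measurable_den m),
    integral_withDensity_eq_integral_toReal_smul (measurable_den2 m)
    (Eventually.of_forall fun r => ENNReal.ofReal_lt_top)]
  refine integral_congr_ae ?_
  filter_upwards [ae_pos μ] with q hq
  rw [ENNReal.toReal_ofReal (den_nonneg m hq), smul_eq_mul]

lemma integrable_gam {m : ℕ} (μ : Measure M) [SFinite μ] {g : M × ℝ → ℝ} :
    Integrable g (gam m μ) ↔ Integrable (fun q => q.2 ^ m * Real.exp (-(q.2 ^ 2 / 2)) * g q)
      (μ.prod (volume.restrict (Ioi (0 : ℝ)))) := by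
  unfold gam rad
  rw [prod_withDensity_right (measurable_den m),
    integrable_withDensity_iff_integrable_smul' (measurable_den2 m)
    (Eventually.of_forall fun r => ENNReal.ofReal_lt_top)]
  refine integrable_congr ?_
  filter_upwards [ae_pos μ] with q hq
  rw [ENNReal.toReal_ofReal (den_nonneg m hq), smul_eq_mul]

end

section

variable {M : Type*} [TopologicalSpace M]

/-- continuous functions on the cone of subgaussian growth -/
def SR (f : M × ℝ → ℝ) : Prop :=
  Continuous f ∧ ∀ ε > 0, ∃ C, ∀ q, |f q| ≤ C * Real.exp (ε * q.2 ^ 2)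

lemma SR.nonneg_const {f : M × ℝ → ℝ} (hf : SR f) {ε : ℝ} (hε : 0 < ε) :
    ∃ C, 0 ≤ C ∧ ∀ q, |f q| ≤ C * Real.exp (ε * q.2 ^ 2) := by
  obtain ⟨C, hC⟩ := hf.2 ε hε
  refine ⟨max C 0, le_max_right _ _, fun q => (hC q).trans ?_⟩
  exact mul_le_mul_of_nonneg_right (le_max_left _ _) (Real.exp_pos _).le

lemma SR.add {f g : M × ℝ → ℝ} (hf : SR f) (hg : SR g) : SR (fun q => f q + g q) := by
  refine ⟨hf.1.add hg.1, fun ε hε => ?_⟩
  obtain ⟨C, hC⟩ := hf.2 ε hε
  obtain ⟨D, hD⟩ := hg.2 ε hε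
  refine ⟨C + D, fun q => (abs_add_le _ _).trans ?_⟩
  rw [add_mul]
  exact add_le_add (hC q) (hD q)

lemma SR.neg {f : M × ℝ → ℝ} (hf : SR f) : SR (fun q => -f q) := by
  refine ⟨hf.1.neg, fun ε hε => ?_⟩
  obtain ⟨C, hC⟩ := hf.2 ε hε
  exact ⟨C, fun q => by rw [abs_neg]; exact hC q⟩

lemma SR.sub {f g : M × ℝ → ℝ} (hf : SR f) (hg : SR g) : SR (fun q => f q - g q) := by
  simpa only [sub_eq_add_neg] using hf.add hg.neg

lemma SR.mul {f g : M × ℝ → ℝ} (hf : SR f) (hg : SR g) : SR (fun q => f q * g q) := by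
  refine ⟨hf.1.mul hg.1, fun ε hε => ?_⟩
  obtain ⟨C, hC0, hC⟩ := hf.nonneg_const (half_pos hε)
  obtain ⟨D, hD0, hD⟩ := hg.nonneg_const (half_pos hε)
  refine ⟨C * D, fun q => ?_⟩
  rw [abs_mul]
  calc |f q| * |g q| ≤ (C * Real.exp (ε / 2 * q.2 ^ 2)) * (D * Real.exp (ε / 2 * q.2 ^ 2)) :=
        mul_le_mul (hC q) (hD q) (abs_nonneg _) (mul_nonneg hC0 (Real.exp_pos _).le)
    _ = C * D * Real.exp (ε * q.2 ^ 2) := by
        rw [mul_mul_mul_comm, ← Real.exp_add]
        congr 2
        ring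

/-- continuous functions on a compact space -/
lemma SR.cont [CompactSpace M] {g : M → ℝ} (hg : Continuous g) :
    SR (fun q : M × ℝ => g q.1) := by
  refine ⟨hg.comp continuous_fst, fun ε hε => ?_⟩
  obtain ⟨C, hC⟩ := isCompact_univ.exists_bound_of_continuousOn hg.continuousOn
  refine ⟨max C 0, fun q => ?_⟩
  have h1 : 1 ≤ Real.exp (ε * q.2 ^ 2) := Real.one_le_exp (by positivity)
  have h2 := hC q.1 (mem_univ _)
  rw [Real.norm_eq_abs] at h2
  calc |g q.1| ≤ max C 0 * 1 := by rw [mul_one]; exact h2.trans (le_max_left _ _)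
    _ ≤ _ := mul_le_mul_of_nonneg_left h1 (le_max_right _ _)

lemma SR.const (a : ℝ) : SR (fun _ : M × ℝ => a) := by
  refine ⟨continuous_const, fun ε hε => ⟨|a|, fun q => ?_⟩⟩
  have h1 : 1 ≤ Real.exp (ε * q.2 ^ 2) := Real.one_le_exp (by positivity)
  nlinarith [abs_nonneg a]

lemma SR.rad : SR (fun q : M × ℝ => q.2) :=
  ⟨continuous_snd, fun ε hε => ⟨1 + 1 / ε, fun q => le_exp_sq hε q.2⟩⟩

lemma SR.pow {f : M × ℝ → ℝ} (hf : SR f) (k : ℕ) : SR (fun q => f q ^ k) := by
  induction k with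
  | zero => simpa using SR.const (M := M) 1
  | succ k ih => simpa only [pow_succ] using ih.mul hf

/-- exponentials of functions which are linear in the radius -/
lemma SR.exp [CompactSpace M] {g : M → ℝ} (hg : Continuous g) :
    SR (fun q : M × ℝ => Real.exp (q.2 * g q.1)) := by
  refine ⟨by fun_prop, fun ε hε => ?_⟩
  obtain ⟨C, hC⟩ := isCompact_univ.exists_bound_of_continuousOn hg.continuousOn
  refine ⟨Real.exp (C ^ 2 / (4 * ε)), fun q => ?_⟩
  have h2 := hC q.1 (mem_univ _)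
  rw [Real.norm_eq_abs] at h2
  rw [abs_of_pos (Real.exp_pos _), ← Real.exp_add]
  refine Real.exp_le_exp.2 ?_
  have h3 : q.2 * g q.1 ≤ |q.2| * C := by
    refine (le_abs_self _).trans ?_
    rw [abs_mul]
    exact mul_le_mul_of_nonneg_left h2 (abs_nonneg _)
  have h4 : C ^ 2 / (4 * ε) + ε * q.2 ^ 2 - |q.2| * C = (2 * ε * |q.2| - C) ^ 2 / (4 * ε) := by
    rw [← sq_abs q.2]
    field_simp
    ring
  have h5 : 0 ≤ (2 * ε * |q.2| - C) ^ 2 / (4 * ε) := by positivity
  linarith

end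

section

variable {M : Type*} [TopologicalSpace M] [MeasurableSpace M] [BorelSpace M]

/-- integrability of functions of subgaussian growth -/
lemma SR.integrable {f : M × ℝ → ℝ} (hf : SR f) (μ : Measure M) [IsFiniteMeasure μ] (k : ℕ) :
    Integrable (fun q => q.2 ^ k * Real.exp (-(q.2 ^ 2 / 2)) * f q)
      (μ.prod (volume.restrict (Ioi (0 : ℝ)))) := by
  obtain ⟨C, hC0, hC⟩ := hf.nonneg_const (ε := 1 / 4) (by norm_num)
  have h1 : Integrable (fun r : ℝ => C * (r ^ k * Real.exp (-(1 / 4) * r ^ 2)))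
      (volume.restrict (Ioi (0 : ℝ))) :=
    ((integrable_pow_mul_exp (b := 1 / 4) (by norm_num) k).const_mul C).integrableOn
  have h2 : Integrable (fun q : M × ℝ => C * (q.2 ^ k * Real.exp (-(1 / 4) * q.2 ^ 2)))
      (μ.prod (volume.restrict (Ioi (0 : ℝ)))) := h1.comp_snd μ
  have hc : Continuous (fun q : M × ℝ => q.2 ^ k * Real.exp (-(q.2 ^ 2 / 2)) * f q) := by
    have := hf.1
    fun_prop
  refine h2.mono' hc.aestronglyMeasurable ?_
  filter_upwards [ae_pos μ] with q hq
  have h3 := den_nonneg k hq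
  rw [Real.norm_eq_abs, abs_mul, abs_of_nonneg h3]
  calc q.2 ^ k * Real.exp (-(q.2 ^ 2 / 2)) * |f q|
      ≤ q.2 ^ k * Real.exp (-(q.2 ^ 2 / 2)) * (C * Real.exp (1 / 4 * q.2 ^ 2)) :=
        mul_le_mul_of_nonneg_left (hC q) h3
    _ = C * (q.2 ^ k * Real.exp (-(1 / 4) * q.2 ^ 2)) := by
        have : Real.exp (-(q.2 ^ 2 / 2)) * Real.exp (1 / 4 * q.2 ^ 2)
            = Real.exp (-(1 / 4) * q.2 ^ 2) := by
          rw [← Real.exp_add]
          congr 1
          ring
        rw [← this]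
        ring

/-- integrability in the radius -/
lemma SR.integrableOn {f : M × ℝ → ℝ} (hf : SR f) (x : M) (k : ℕ) :
    IntegrableOn (fun r => r ^ k * Real.exp (-(r ^ 2 / 2)) * f (x, r)) (Ioi (0 : ℝ)) := by
  obtain ⟨C, hC0, hC⟩ := hf.nonneg_const (ε := 1 / 4) (by norm_num)
  have h1 : Integrable (fun r : ℝ => C * (r ^ k * Real.exp (-(1 / 4) * r ^ 2)))
      (volume.restrict (Ioi (0 : ℝ))) :=
    ((integrable_pow_mul_exp (b := 1 / 4) (by norm_num) k).const_mul C).integrableOn
  have hc : Continuous (fun r : ℝ => r ^ k * Real.exp (-(r ^ 2 / 2)) * f (x, r)) := by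
    have := hf.1
    fun_prop
  refine h1.mono' hc.aestronglyMeasurable ?_
  filter_upwards [ae_restrict_mem measurableSet_Ioi] with r hr
  have h3 := den_nonneg k hr
  rw [Real.norm_eq_abs, abs_mul, abs_of_nonneg h3]
  calc r ^ k * Real.exp (-(r ^ 2 / 2)) * |f (x, r)|
      ≤ r ^ k * Real.exp (-(r ^ 2 / 2)) * (C * Real.exp (1 / 4 * r ^ 2)) :=
        mul_le_mul_of_nonneg_left (hC (x, r)) h3
    _ = C * (r ^ k * Real.exp (-(1 / 4) * r ^ 2)) := by
        have : Real.exp (-(r ^ 2 / 2)) * Real.exp (1 / 4 * r ^ 2)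
            = Real.exp (-(1 / 4) * r ^ 2) := by
          rw [← Real.exp_add]
          congr 1
          ring
        rw [← this]
        ring

end

/-- the integral of a derivative on the half line -/
lemma integral_deriv_zero {u u' : ℝ → ℝ} (hd : ∀ r, HasDerivAt u (u' r) r) (h0 : u 0 = 0)
    (hu : IntegrableOn u (Ioi 0)) (hu' : IntegrableOn u' (Ioi 0)) : ∫ r in Ioi 0, u' r = 0 := by
  have h1 := tendsto_zero_of_hasDerivAt_of_integrableOn_Ioi (fun r _ => hd r) hu' hu
  rw [integral_Ioi_of_hasDerivAt_of_tendsto (hd 0).continuousAt.continuousWithinAt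
    (fun r _ => hd r) hu' h1, h0, sub_zero]

end Vale.Agent.P224.UG
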