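import Vale.Agent.P224.Bdl.B1

/-!
Upper bounds for the ratio of the least Clifford volume and the volume of the sphere, in every
dimension.
-/

namespace Vale.Agent.P224.UG

open Vale.Agent.P224 Filter
open scoped Topology

/-- the even ratio through three values of the Gamma function -/
lemma evenRatio_eq (k : ℕ) : evenRatio k = Real.sqrt 2 * (Real.Gamma (((k : ℝ) + 1) / 2 - 1 / 4)
    * Real.Gamma (((k : ℝ) + 1) / 2 + 1 / 4)) / Real.Gamma (((k : ℝ) + 1) / 2) ^ 2 := by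
  have hd := Real.Gamma_mul_Gamma_add_half (((k : ℝ) + 1) / 2 - 1 / 4)
  have e1 : ((k : ℝ) + 1) / 2 - 1 / 4 + 1 / 2 = ((k : ℝ) + 1) / 2 + 1 / 4 := by ring
  have e2 : 2 * (((k : ℝ) + 1) / 2 - 1 / 4) = (k : ℝ) + 1 / 2 := by ring
  rw [e1, e2] at hd
  rw [hd]
  unfold evenRatio
  have h2 : Real.sqrt 2 = 2 ^ (1 / 2 : ℝ) := Real.sqrt_eq_rpow 2
  have h3 : (2 : ℝ) / 2 ^ k = 2 ^ (1 / 2 : ℝ) * 2 ^ (1 - ((k : ℝ) + 1 / 2)) := by
    rw [← Real.rpow_add (by norm_num), show 1 / 2 + (1 - ((k : ℝ) + 1 / 2)) = 1 - (k : ℝ) by ring,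
      Real.rpow_sub (by norm_num), Real.rpow_one, Real.rpow_natCast]
  rw [h3, h2]
  ring

/-- upper bound by log-convexity of the Gamma function -/
lemma evenRatio_upper {k : ℕ} (hk : 2 ≤ k) :
    evenRatio k ≤ Real.sqrt 2 * (((k : ℝ) + 1) / (k - 1)) ^ (1 / 4 : ℝ) := by
  have hk' : (2 : ℝ) ≤ k := by exact_mod_cast hk
  rw [evenRatio_eq]
  set z : ℝ := ((k : ℝ) + 1) / 2 with hz
  have hz1 : 0 < z - 1 := by rw [hz]; linarith
  have hz0 : 0 < z := by linarith
  have g0 : 0 < Real.Gamma z := Real.Gamma_pos_of_pos hz0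
  have g1 : 0 < Real.Gamma (z - 1) := Real.Gamma_pos_of_pos hz1
  have r1 : Real.Gamma (z + 1) = z * Real.Gamma z := Real.Gamma_add_one hz0.ne'
  have r2 : Real.Gamma z = (z - 1) * Real.Gamma (z - 1) := by
    have := Real.Gamma_add_one hz1.ne'
    rwa [sub_add_cancel] at this
  have a1 : Real.Gamma (z + 1 / 4) ≤ Real.Gamma z * z ^ (1 / 4 : ℝ) := by
    have h := Real.Gamma_mul_add_mul_le_rpow_Gamma_mul_rpow_Gamma (s := z) (t := z + 1)
      (a := 3 / 4) (b := 1 / 4) hz0 (by linarith) (by norm_num) (by norm_num) (by norm_num)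
    rw [show 3 / 4 * z + 1 / 4 * (z + 1) = z + 1 / 4 by ring, r1,
      Real.mul_rpow hz0.le g0.le] at h
    refine h.trans (le_of_eq ?_)
    rw [mul_left_comm, ← Real.rpow_add g0]
    norm_num
    ring
  have a2 : Real.Gamma (z - 1 / 4) ≤ Real.Gamma z * ((z - 1) ^ (1 / 4 : ℝ))⁻¹ := by
    have h := Real.Gamma_mul_add_mul_le_rpow_Gamma_mul_rpow_Gamma (s := z) (t := z - 1)
      (a := 3 / 4) (b := 1 / 4) hz0 hz1 (by norm_num) (by norm_num) (by norm_num)
    rw [show 3 / 4 * z + 1 / 4 * (z - 1) = z - 1 / 4 by ring] at h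
    refine h.trans (le_of_eq ?_)
    have h5 : Real.Gamma (z - 1) = Real.Gamma z / (z - 1) := by
      rw [r2]; field_simp
    rw [h5, Real.div_rpow g0.le hz1.le, mul_div_assoc', ← Real.rpow_add g0]
    norm_num
    rw [div_eq_mul_inv]
  have hb1 : 0 < z ^ (1 / 4 : ℝ) := Real.rpow_pos_of_pos hz0 _
  have hb2 : 0 < (z - 1) ^ (1 / 4 : ℝ) := Real.rpow_pos_of_pos hz1 _
  have g2 : 0 < Real.Gamma (z - 1 / 4) := Real.Gamma_pos_of_pos (by linarith)
  have g3 : 0 < Real.Gamma (z + 1 / 4) := Real.Gamma_pos_of_pos (by linarith)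
  have e3 : ((k : ℝ) + 1) / (k - 1) = z / (z - 1) := by
    have h0 : (k : ℝ) - 1 ≠ 0 := by linarith
    rw [div_eq_div_iff h0 hz1.ne', hz]
    ring
  rw [e3, Real.div_rpow hz0.le hz1.le, mul_div_assoc]
  have hm : Real.Gamma (z - 1 / 4) * Real.Gamma (z + 1 / 4)
      ≤ (Real.Gamma z * ((z - 1) ^ (1 / 4 : ℝ))⁻¹) * (Real.Gamma z * z ^ (1 / 4 : ℝ)) :=
    mul_le_mul a2 a1 g3.le (by positivity)
  have : Real.Gamma (z - 1 / 4) * Real.Gamma (z + 1 / 4) / Real.Gamma z ^ 2
      ≤ z ^ (1 / 4 : ℝ) / (z - 1) ^ (1 / 4 : ℝ) := by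
    rw [div_le_iff₀ (by positivity)]
    refine hm.trans (le_of_eq ?_)
    field_simp
  gcongr

/-- the corrected even ratio increases -/
lemma evenRatio_step {k : ℕ} (hk : 1 ≤ k) :
    evenRatio k * Real.exp (-(1 / (8 * k))) ≤
      evenRatio (k + 2) * Real.exp (-(1 / (8 * ((k + 2 : ℕ) : ℝ)))) := by
  have hk' : (1 : ℝ) ≤ k := by exact_mod_cast hk
  have hp := evenRatio_pos k
  rw [evenRatio_rec]
  have hy : (0 : ℝ) < ((k : ℝ) + 1) ^ 2 := by positivity
  have h1 : Real.exp (-(1 / (4 * ((k : ℝ) + 1) ^ 2 - 1)))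
      ≤ ((k : ℝ) + 3 / 2) * ((k : ℝ) + 1 / 2) / ((k : ℝ) + 1) ^ 2 := by
    have h4 : 0 < 4 * ((k : ℝ) + 1) ^ 2 - 1 := by nlinarith
    have h2 := Real.add_one_le_exp (1 / (4 * ((k : ℝ) + 1) ^ 2 - 1))
    rw [Real.exp_neg, inv_le_comm₀ (Real.exp_pos _) (by positivity)]
    refine le_trans (le_of_eq ?_) h2
    have h5 : ((k : ℝ) + 3 / 2) * ((k : ℝ) + 1 / 2) ≠ 0 := by positivity
    rw [inv_div, div_eq_iff h5, div_add_one h4.ne', div_mul_eq_mul_div, eq_div_iff h4.ne']
    ring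
  have h2 : Real.exp (-(1 / (8 * (k : ℝ)))) ≤
      Real.exp (-(1 / (4 * ((k : ℝ) + 1) ^ 2 - 1))) * Real.exp (-(1 / (8 * ((k + 2 : ℕ) : ℝ)))) := by
    rw [← Real.exp_add]
    refine Real.exp_le_exp.2 ?_
    push_cast
    have h4 : 0 < 4 * ((k : ℝ) + 1) ^ 2 - 1 := by nlinarith
    have h5 : 1 / (4 * ((k : ℝ) + 1) ^ 2 - 1) ≤ 1 / (4 * ((k : ℝ) * (k + 2))) := by
      apply one_div_le_one_div_of_le (by positivity)
      nlinarith
    have h6 : 1 / (8 * (k : ℝ)) - 1 / (8 * ((k : ℝ) + 2)) = 1 / (4 * ((k : ℝ) * (k + 2))) := by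
      field_simp
      ring
    linarith
  calc evenRatio k * Real.exp (-(1 / (8 * (k : ℝ))))
      ≤ evenRatio k * (Real.exp (-(1 / (4 * ((k : ℝ) + 1) ^ 2 - 1)))
        * Real.exp (-(1 / (8 * ((k + 2 : ℕ) : ℝ))))) := by gcongr
    _ ≤ evenRatio k * ((((k : ℝ) + 3 / 2) * ((k : ℝ) + 1 / 2) / ((k : ℝ) + 1) ^ 2)
        * Real.exp (-(1 / (8 * ((k + 2 : ℕ) : ℝ))))) := by gcongr
    _ = _ := by ring

lemma evenRatio_steps {k : ℕ} (hk : 1 ≤ k) (n : ℕ) :
    evenRatio k * Real.exp (-(1 / (8 * k))) ≤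
      evenRatio (k + 2 * n) * Real.exp (-(1 / (8 * ((k + 2 * n : ℕ) : ℝ)))) := by
  induction n with
  | zero => simp
  | succ n ih =>
    have := evenRatio_step (k := k + 2 * n) (by omega)
    rw [show k + 2 * (n + 1) = k + 2 * n + 2 by ring]
    exact ih.trans this

/-- the even ratio, sharp first correction -/
theorem evenRatio_le {k : ℕ} (hk : 1 ≤ k) :
    evenRatio k ≤ Real.sqrt 2 * Real.exp (1 / (8 * k)) := by
  have hlim : Tendsto (fun n : ℕ => Real.sqrt 2 *
      ((((k + 2 * n : ℕ) : ℝ) + 1) / (((k + 2 * n : ℕ) : ℝ) - 1)) ^ (1 / 4 : ℝ)) atTop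
      (𝓝 (Real.sqrt 2 * 1 ^ (1 / 4 : ℝ))) := by
    have h1 : Tendsto (fun n : ℕ => ((k + 2 * n : ℕ) : ℝ)) atTop atTop := by
      apply tendsto_natCast_atTop_atTop.comp
      exact tendsto_atTop_mono (fun n => by simp only [id_eq]; omega) tendsto_id
    have h2 : Tendsto (fun x : ℝ => (x + 1) / (x - 1)) atTop (𝓝 1) := by
      have h3 : Tendsto (fun x : ℝ => 1 + 2 * (x - 1)⁻¹) atTop (𝓝 (1 + 2 * 0)) := by
        refine Tendsto.const_add _ (Tendsto.const_mul _ ?_)
        exact tendsto_inv_atTop_zero.comp (tendsto_atTop_add_const_right _ _ tendsto_id)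
      rw [mul_zero, add_zero] at h3
      refine h3.congr' ?_
      filter_upwards [eventually_gt_atTop (1 : ℝ)] with x hx
      have : x - 1 ≠ 0 := by linarith
      field_simp
      ring
    have h4 := (h2.comp h1).rpow_const (p := (1 / 4 : ℝ)) (Or.inl one_ne_zero)
    exact h4.const_mul _
  rw [Real.one_rpow, mul_one] at hlim
  have hle : evenRatio k * Real.exp (-(1 / (8 * k))) ≤ Real.sqrt 2 := by
    refine ge_of_tendsto hlim ?_
    filter_upwards [eventually_ge_atTop 1] with n hn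
    have h5 := evenRatio_steps hk n
    have h6 := evenRatio_upper (k := k + 2 * n) (by omega)
    have h7 : Real.exp (-(1 / (8 * ((k + 2 * n : ℕ) : ℝ)))) ≤ 1 := by
      rw [Real.exp_le_one_iff]
      have : (0 : ℝ) ≤ 1 / (8 * ((k + 2 * n : ℕ) : ℝ)) := by positivity
      linarith
    have h8 := evenRatio_pos (k + 2 * n)
    calc _ ≤ _ := h5
      _ ≤ evenRatio (k + 2 * n) * 1 := by gcongr
      _ = evenRatio (k + 2 * n) := mul_one _
      _ ≤ _ := h6
  have h9 : evenRatio k = evenRatio k * Real.exp (-(1 / (8 * k))) * Real.exp (1 / (8 * k)) := by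
    rw [mul_assoc, ← Real.exp_add]
    simp
  rw [h9]
  gcongr

/-- the odd ratio -/
theorem oddRatio_le' (k : ℕ) : oddRatio k ≤ Real.sqrt 2 *
    Real.exp ((1 / (2 * (k : ℝ) + 1) + 1 / (2 * (k : ℝ) + 1) ^ 2) / 4) := by
  have h := oddRatio_pow_four_le k
  refine le_of_pow_le_pow_left₀ (n := 4) (by norm_num) (by positivity) (h.trans (le_of_eq ?_))
  rw [mul_pow, ← Real.exp_nat_mul]
  have : Real.sqrt 2 ^ 4 = 4 := by
    rw [show (4 : ℕ) = 2 * 2 by norm_num, pow_mul, Real.sq_sqrt (by norm_num)]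
    norm_num
  rw [this]
  congr 2
  push_cast
  ring

/-- The least Clifford volume in every dimension. -/
theorem leastClifford_le_all {m : ℕ} (hm : 2 ≤ m) : leastClifford m ≤
    Real.sqrt 2 * Real.exp ((1 / (m : ℝ) + 1 / (m : ℝ) ^ 2) / 4) * sphereVol m := by
  rcases Nat.even_or_odd' m with ⟨k, hk | hk⟩
  · subst hk
    refine even_bound (by omega) ((evenRatio_le (by omega)).trans ?_)
    have hk' : (0 : ℝ) < k := by exact_mod_cast (by omega : 0 < k)
    refine mul_le_mul_of_nonneg_left (Real.exp_le_exp.2 ?_) (Real.sqrt_nonneg 2)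
    push_cast
    have h1 : 1 / (8 * (k : ℝ)) = 1 / (2 * k) / 4 := by ring
    have h2 : 0 ≤ 1 / (2 * (k : ℝ)) ^ 2 := by positivity
    rw [h1]
    linarith
  · subst hk
    refine odd_bound (by omega) ((oddRatio_le' k).trans (le_of_eq ?_))
    push_cast
    rfl

/-- Numerical form for dimensions at least thirteen. -/
theorem leastClifford_le_13 {m : ℕ} (hm : 13 ≤ m) :
    leastClifford m ≤ 1.4433 * sphereVol m := by
  have hs2 : Real.sqrt 2 ≤ 1.41422 := by
    rw [Real.sqrt_le_left (by norm_num)]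
    norm_num
  rcases Nat.lt_or_ge m 14 with h | h
  · have : m = 2 * 6 + 1 := by omega
    subst this
    refine odd_bound (by norm_num) ?_
    have h4 := oddRatio_pow_four 6
    refine le_of_pow_le_pow_left₀ (n := 4) (by norm_num) (by norm_num) ?_
    rw [h4]
    norm_num
  · refine (leastClifford_le_all (by omega)).trans ?_
    have hm' : (14 : ℝ) ≤ m := by exact_mod_cast h
    have h1 : 1 / (m : ℝ) ≤ 1 / 14 := one_div_le_one_div_of_le (by norm_num) hm'
    have h2 : 1 / (m : ℝ) ^ 2 ≤ 1 / 14 ^ 2 := by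
      apply one_div_le_one_div_of_le (by norm_num)
      gcongr
    have h3 : Real.exp ((1 / (m : ℝ) + 1 / (m : ℝ) ^ 2) / 4) ≤ 1.0194 := by
      refine (Real.exp_le_exp.2 (by linarith : (1 / (m : ℝ) + 1 / (m : ℝ) ^ 2) / 4
        ≤ (1 / 14 + 1 / 14 ^ 2) / 4)).trans ?_
      apply exp_le_of 4 (by norm_num) (by norm_num) (by norm_num) _ (by norm_num)
      norm_num
    have h5 : Real.sqrt 2 * Real.exp ((1 / (m : ℝ) + 1 / (m : ℝ) ^ 2) / 4) ≤ 1.4433 := by
      calc Real.sqrt 2 * Real.exp ((1 / (m : ℝ) + 1 / (m : ℝ) ^ 2) / 4) ≤ 1.41422 * 1.0194 :=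
            mul_le_mul hs2 h3 (Real.exp_pos _).le (by norm_num)
        _ ≤ 1.4433 := by norm_num
    have := (sphereVol_pos' m).le
    gcongr

/-- A lower bound by a multiple of the volume of the sphere as a fraction of the least Clifford
volume, in dimension at least thirteen. -/
theorem frac_13 {m : ℕ} (hm : 13 ≤ m) {v c q : ℝ} (hv : c * sphereVol m ≤ v) (hq : 0 ≤ q)
    (hc : q * 1.4433 ≤ c) : q * leastClifford m ≤ v := by
  have h1 := leastClifford_le_13 hm
  have hs := (sphereVol_pos' m).le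
  calc q * leastClifford m ≤ q * (1.4433 * sphereVol m) := by gcongr
    _ = (q * 1.4433) * sphereVol m := by ring
    _ ≤ c * sphereVol m := by gcongr
    _ ≤ v := hv

/-- The asymptotic form: the fraction tends to `c / √2`. -/
theorem frac_all {m : ℕ} (hm : 2 ≤ m) {v c : ℝ} (hv : c * sphereVol m ≤ v) (hc : 0 ≤ c) :
    c / Real.sqrt 2 * Real.exp (-((1 / (m : ℝ) + 1 / (m : ℝ) ^ 2) / 4)) * leastClifford m ≤ v := by
  have h1 := leastClifford_le_all hm
  have h2 : (0 : ℝ) < Real.sqrt 2 := by positivity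
  have h3 : Real.exp (-((1 / (m : ℝ) + 1 / (m : ℝ) ^ 2) / 4))
      * Real.exp ((1 / (m : ℝ) + 1 / (m : ℝ) ^ 2) / 4) = 1 := by
    rw [← Real.exp_add, neg_add_cancel, Real.exp_zero]
  calc _ ≤ c / Real.sqrt 2 * Real.exp (-((1 / (m : ℝ) + 1 / (m : ℝ) ^ 2) / 4)) *
        (Real.sqrt 2 * Real.exp ((1 / (m : ℝ) + 1 / (m : ℝ) ^ 2) / 4) * sphereVol m) := by gcongr
    _ = (c / Real.sqrt 2 * Real.sqrt 2) * (Real.exp (-((1 / (m : ℝ) + 1 / (m : ℝ) ^ 2) / 4))
        * Real.exp ((1 / (m : ℝ) + 1 / (m : ℝ) ^ 2) / 4)) * sphereVol m := by ring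
    _ = c * sphereVol m := by rw [h3, mul_one, div_mul_cancel₀ _ h2.ne']
    _ ≤ v := hv

/-- numerical evaluation of the general bound -/
lemma leastClifford_le_num {m : ℕ} (hm : 2 ≤ m) (n : ℕ) (hn : 2 ≤ n) (hnm : n ≤ m) {E B : ℝ}
    (hE : 0 < E) (h : 1 ≤ E * (1 - (1 / (n : ℝ) + 1 / (n : ℝ) ^ 2) / 4 / 4) ^ 4)
    (hB : 1.414214 * E ≤ B) : leastClifford m ≤ B * sphereVol m := by
  have hs2 : Real.sqrt 2 ≤ 1.414214 := by
    rw [Real.sqrt_le_left (by norm_num)]
    norm_num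
  refine (leastClifford_le_all hm).trans ?_
  have hn' : (2 : ℝ) ≤ n := by exact_mod_cast hn
  have hm' : (n : ℝ) ≤ m := by exact_mod_cast hnm
  have h1 : 1 / (m : ℝ) ≤ 1 / n := one_div_le_one_div_of_le (by linarith) hm'
  have h2 : 1 / (m : ℝ) ^ 2 ≤ 1 / (n : ℝ) ^ 2 := by
    apply one_div_le_one_div_of_le (by positivity)
    gcongr
  have h4 : 1 / (n : ℝ) ≤ 1 / 2 := one_div_le_one_div_of_le (by norm_num) hn'
  have h5 : 1 / (n : ℝ) ^ 2 ≤ 1 / 2 ^ 2 := by
    apply one_div_le_one_div_of_le (by norm_num)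
    gcongr
  have h3 : Real.exp ((1 / (m : ℝ) + 1 / (m : ℝ) ^ 2) / 4) ≤ E := by
    refine (Real.exp_le_exp.2 (by linarith : (1 / (m : ℝ) + 1 / (m : ℝ) ^ 2) / 4
      ≤ (1 / (n : ℝ) + 1 / (n : ℝ) ^ 2) / 4)).trans ?_
    refine exp_le_of 4 (by positivity) ?_ (by norm_num) ?_ hE
    · push_cast
      linarith
    · push_cast
      exact h
  have h6 : Real.sqrt 2 * Real.exp ((1 / (m : ℝ) + 1 / (m : ℝ) ^ 2) / 4) ≤ B :=
    (mul_le_mul hs2 h3 (Real.exp_pos _).le (by norm_num)).trans hB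
  have := (sphereVol_pos' m).le
  gcongr

/-- dimensions at least thirteen (`a_13 / |S^13| = 1.441701..`) -/
theorem leastClifford_le_13' {m : ℕ} (hm : 13 ≤ m) :
    leastClifford m ≤ 1.44171 * sphereVol m := by
  rcases Nat.lt_or_ge m 14 with h | h
  · have : m = 2 * 6 + 1 := by omega
    subst this
    refine odd_bound (by norm_num) ?_
    have h4 := oddRatio_pow_four 6
    refine le_of_pow_le_pow_left₀ (n := 4) (by norm_num) (by norm_num) ?_
    rw [h4]
    norm_num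
  · exact leastClifford_le_num (by omega) 14 (by norm_num) h (E := 1.01942) (by norm_num)
      (by norm_num) (by norm_num)

/-- dimensions at least fifteen (`a_15 / |S^15| = 1.437999..`) -/
theorem leastClifford_le_15 {m : ℕ} (hm : 15 ≤ m) :
    leastClifford m ≤ 1.438 * sphereVol m := by
  rcases Nat.lt_or_ge m 16 with h | h
  · have : m = 2 * 7 + 1 := by omega
    subst this
    refine odd_bound (by norm_num) ?_
    have h4 := oddRatio_pow_four 7
    refine le_of_pow_le_pow_left₀ (n := 4) (by norm_num) (by norm_num) ?_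
    rw [h4]
    norm_num
  · exact leastClifford_le_num (by omega) 16 (by norm_num) h (E := 1.01679) (by norm_num)
      (by norm_num) (by norm_num)

/-- dimensions at least seventeen (`a_17 / |S^17| = 1.435177..`) -/
theorem leastClifford_le_17 {m : ℕ} (hm : 17 ≤ m) :
    leastClifford m ≤ 1.4352 * sphereVol m := by
  rcases Nat.lt_or_ge m 18 with h | h
  · have : m = 2 * 8 + 1 := by omega
    subst this
    refine odd_bound (by norm_num) ?_
    have h4 := oddRatio_pow_four 8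
    refine le_of_pow_le_pow_left₀ (n := 4) (by norm_num) (by norm_num) ?_
    rw [h4]
    norm_num
  · exact leastClifford_le_num (by omega) 18 (by norm_num) h (E := 1.0148) (by norm_num)
      (by norm_num) (by norm_num)

/-- from a multiple of the volume of the sphere to a fraction of the least Clifford volume -/
theorem frac_of {m : ℕ} {a v c q : ℝ} (h1 : leastClifford m ≤ a * sphereVol m)
    (hv : c * sphereVol m ≤ v) (hq : 0 ≤ q) (hc : q * a ≤ c) : q * leastClifford m ≤ v := by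
  have hs := (sphereVol_pos' m).le
  calc q * leastClifford m ≤ q * (a * sphereVol m) := by gcongr
    _ = (q * a) * sphereVol m := by ring
    _ ≤ c * sphereVol m := by gcongr
    _ ≤ v := hv

/-- `C = 1.41`, every dimension at least thirteen: `.978` of the least Clifford volume. -/
theorem frac141_13 {m : ℕ} (hm : 13 ≤ m) {v : ℝ} (hv : 1.41 * sphereVol m ≤ v) :
    0.978 * leastClifford m ≤ v :=
  frac_of (leastClifford_le_13' hm) hv (by norm_num) (by norm_num)

/-- `C = 1.41`, every dimension at least fifteen: `.9805` of the least Clifford volume. -/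
theorem frac141_15 {m : ℕ} (hm : 15 ≤ m) {v : ℝ} (hv : 1.41 * sphereVol m ≤ v) :
    0.9805 * leastClifford m ≤ v :=
  frac_of (leastClifford_le_15 hm) hv (by norm_num) (by norm_num)

/-- `C = 1.41`, every dimension at least seventeen: `.9824` of the least Clifford volume. -/
theorem frac141_17 {m : ℕ} (hm : 17 ≤ m) {v : ℝ} (hv : 1.41 * sphereVol m ≤ v) :
    0.9824 * leastClifford m ≤ v :=
  frac_of (leastClifford_le_17 hm) hv (by norm_num) (by norm_num)

/-- `C = 1.41`: the fraction tends to `1.41 / √2 > .997`. -/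
theorem frac141_all {m : ℕ} (hm : 2 ≤ m) {v : ℝ} (hv : 1.41 * sphereVol m ≤ v) :
    0.997 * Real.exp (-((1 / (m : ℝ) + 1 / (m : ℝ) ^ 2) / 4)) * leastClifford m ≤ v := by
  have h := frac_all hm hv (by norm_num)
  refine le_trans ?_ h
  have h1 : 0 ≤ leastClifford m := by
    unfold leastClifford
    exact Real.sInf_nonneg (fun x hx => by
      obtain ⟨k, -, rfl⟩ := hx
      exact cliffordVol_nonneg' m k)
  have h2 : (0.997 : ℝ) ≤ 1.41 / Real.sqrt 2 := by
    rw [le_div_iff₀ (by positivity)]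
    have hs2 : Real.sqrt 2 ≤ 1.414214 := by
      rw [Real.sqrt_le_left (by norm_num)]
      norm_num
    nlinarith
  gcongr

end Vale.Agent.P224.UG
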