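import Vale.Agent.P224.UG.Basic

/-!
The identities of pair integrals over a Gaussian cone.
-/

namespace Vale.Agent.P224.UG

open MeasureTheory Set Filter Function
open Vale.Agent.P224.UE
open scoped Topology RealInnerProductSpace

set_option linter.unusedSectionVars false

/-- the monomials `Q ^ i ξ ^ j η ^ l n_y ^ k` of the pair data -/
def mG (i j l k : ℕ) (d : R9) : ℝ := d 1 ^ i * d 6 ^ j * (d 7 ^ l * d 5 ^ k)

/-- the derivative of the monomials with respect to `Q` -/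
def mQ (i j l k : ℕ) (d : R9) : ℝ := i * d 1 ^ (i - 1) * d 6 ^ j * (d 7 ^ l * d 5 ^ k)

/-- the derivative of the monomials with respect to `ξ` -/
def mX (i j l k : ℕ) (d : R9) : ℝ := d 1 ^ i * (j * d 6 ^ (j - 1)) * (d 7 ^ l * d 5 ^ k)

section

variable {X : Type*} [MeasurableSpace X] {E : Type*} [NormedAddCommGroup E]
  [InnerProductSpace ℝ E] [MeasurableSpace E] [BorelSpace E] [SecondCountableTopology E]
  {γ : Measure X} {n : ℕ} {p ν : X → E}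

/-- the pair integral of a function of pair data -/
noncomputable def KI (γ : Measure X) (p ν : X → E) (e : E) (T : ℝ) (f : R9 → ℝ) : ℝ :=
  ∫ q, Real.exp (T * dat p ν e q 0) * f (dat p ν e q) ∂(γ.prod γ)

/-- functions of pair data of subgaussian growth -/
def SD (p ν : X → E) (e : E) (f : R9 → ℝ) : Prop := SG p (fun q => f (dat p ν e q))

lemma GC.sd (h : GC γ n p ν) (e : E) (i : Fin 9) : SD p ν e (fun d => d i) := h.sg_dat e i

lemma SD.add {e : E} {f g : R9 → ℝ} (hf : SD p ν e f) (hg : SD p ν e g) :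
    SD p ν e (fun d => f d + g d) := SG.add hf hg

lemma SD.sub {e : E} {f g : R9 → ℝ} (hf : SD p ν e f) (hg : SD p ν e g) :
    SD p ν e (fun d => f d - g d) := SG.sub hf hg

lemma SD.neg {e : E} {f : R9 → ℝ} (hf : SD p ν e f) : SD p ν e (fun d => -f d) := SG.neg hf

lemma SD.mul {e : E} {f g : R9 → ℝ} (hf : SD p ν e f) (hg : SD p ν e g) :
    SD p ν e (fun d => f d * g d) := SG.mul hf hg

lemma SD.pow {e : E} {f : R9 → ℝ} (hf : SD p ν e f) (k : ℕ) :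
    SD p ν e (fun d => f d ^ k) := SG.pow hf k

lemma SD.const {e : E} (a : ℝ) : SD p ν e (fun _ => a) := SG.const a

lemma SD.const_mul {e : E} {f : R9 → ℝ} (hf : SD p ν e f) (a : ℝ) :
    SD p ν e (fun d => a * f d) := SG.const_mul hf a

lemma GC.sd_mG (h : GC γ n p ν) (e : E) (i j l k : ℕ) : SD p ν e (mG i j l k) :=
  (((h.sd e 1).pow i).mul ((h.sd e 6).pow j)).mul (((h.sd e 7).pow l).mul ((h.sd e 5).pow k))

lemma GC.sd_mQ (h : GC γ n p ν) (e : E) (i j l k : ℕ) : SD p ν e (mQ i j l k) :=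
  ((((h.sd e 1).pow (i - 1)).const_mul i).mul ((h.sd e 6).pow j)).mul
    (((h.sd e 7).pow l).mul ((h.sd e 5).pow k))

lemma GC.sd_mX (h : GC γ n p ν) (e : E) (i j l k : ℕ) : SD p ν e (mX i j l k) :=
  (((h.sd e 1).pow i).mul (((h.sd e 6).pow (j - 1)).const_mul j)).mul
    (((h.sd e 7).pow l).mul ((h.sd e 5).pow k))

lemma GC.intKI (h : GC γ n p ν) {e : E} {f : R9 → ℝ} (hf : SD p ν e f) {T : ℝ} (hT : |T| < 1) :
    Integrable (fun q => Real.exp (T * dat p ν e q 0) * f (dat p ν e q)) (γ.prod γ) :=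
  h.integrable hf hT

lemma GC.KI_add (h : GC γ n p ν) {e : E} {f g : R9 → ℝ} (hf : SD p ν e f) (hg : SD p ν e g)
    {T : ℝ} (hT : |T| < 1) :
    KI γ p ν e T (fun d => f d + g d) = KI γ p ν e T f + KI γ p ν e T g := by
  unfold KI
  rw [← integral_add (h.intKI hf hT) (h.intKI hg hT)]
  refine integral_congr_ae (Eventually.of_forall fun q => ?_)
  simp only
  ring

lemma GC.KI_sub (h : GC γ n p ν) {e : E} {f g : R9 → ℝ} (hf : SD p ν e f) (hg : SD p ν e g)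
    {T : ℝ} (hT : |T| < 1) :
    KI γ p ν e T (fun d => f d - g d) = KI γ p ν e T f - KI γ p ν e T g := by
  unfold KI
  rw [← integral_sub (h.intKI hf hT) (h.intKI hg hT)]
  refine integral_congr_ae (Eventually.of_forall fun q => ?_)
  simp only
  ring

lemma KI_const_mul (e : E) (f : R9 → ℝ) (a T : ℝ) :
    KI γ p ν e T (fun d => a * f d) = a * KI γ p ν e T f := by
  unfold KI
  rw [← integral_const_mul]
  refine integral_congr_ae (Eventually.of_forall fun q => ?_)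
  simp only
  ring

lemma GC.hasDerivAt_KI (h : GC γ n p ν) {e : E} {f : R9 → ℝ} (hf : SD p ν e f) {T : ℝ}
    (hT : |T| < 1) :
    HasDerivAt (fun T => KI γ p ν e T f) (KI γ p ν e T (fun d => d 0 * f d)) T :=
  h.hasDerivAt hf hT

/-- vanishing of the integral over the first point -/
lemma GC.zero_left (h : GC γ n p ν) {f : X × X → ℝ} (hf : SG p f) {T : ℝ} (hT : |T| < 1)
    (hz : ∀ z, ∫ x, Real.exp (T * ⟪p x, p z⟫) * f (x, z) ∂γ = 0) :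
    ∫ q, Real.exp (T * ⟪p q.1, p q.2⟫) * f q ∂(γ.prod γ) = 0 := by
  have := h.finite
  rw [integral_prod_symm _ (h.integrable hf hT)]
  simp only [hz, integral_zero]

/-- vanishing of the integral over the second point -/
lemma GC.zero_right (h : GC γ n p ν) {f : X × X → ℝ} (hf : SG p f) {T : ℝ} (hT : |T| < 1)
    (hz : ∀ z, ∫ x, Real.exp (T * ⟪p z, p x⟫) * f (z, x) ∂γ = 0) :
    ∫ q, Real.exp (T * ⟪p q.1, p q.2⟫) * f q ∂(γ.prod γ) = 0 := by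
  have := h.finite
  rw [integral_prod _ (h.integrable hf hT)]
  simp only [hz, integral_zero]

/-- the square of the norm of the second position has subgaussian growth -/
lemma GC.sg_B (h : GC γ n p ν) : SG p (fun q => ‖p q.2‖ ^ 2) := (SG.norm2 h.mp).pow 2

/-- radial row in the second point -/
lemma GC.rowR (h : GC γ n p ν) (e : E) (i l k u v : ℕ) (j : ℕ) {T : ℝ} (hT : |T| < 1) :
    ∫ q, Real.exp (T * ⟪p q.1, p q.2⟫) * ((n + T * ⟪p q.1, p q.2⟫ + l - ‖p q.2‖ ^ 2)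
      * (dat p ν e q 3 ^ u * dat p ν e q 4 ^ v * mG i j l k (dat p ν e q))) ∂(γ.prod γ) = 0 := by
  have hS : SG p (fun q : X × X => ⟪p q.1, p q.2⟫) := h.sg_dat e 0
  have hsg : SG p (fun q : X × X => (n + T * ⟪p q.1, p q.2⟫ + l - ‖p q.2‖ ^ 2)
      * (dat p ν e q 3 ^ u * dat p ν e q 4 ^ v * mG i j l k (dat p ν e q))) :=
    ((((SG.const (n : ℝ)).add (hS.const_mul T)).add (SG.const (l : ℝ))).sub h.sg_B).mul
      ((((h.sg_dat e 3).pow u).mul ((h.sg_dat e 4).pow v)).mul (h.sd_mG e i j l k))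
  refine h.zero_right hsg hT fun z => ?_
  have hψ : Continuous (fun y : E => ⟪ν z, y⟫ ^ u * ⟪p z, y⟫ ^ i * ⟪y, e⟫ ^ k) := by fun_prop
  have h1 := h.r0 (T • p z) e l _ hψ
  have h2 : ∫ x, ⟪ν z, e⟫ ^ v * ⟪p z, e⟫ ^ j * ((n + ⟪p x, T • p z⟫ + l - ‖p x‖ ^ 2)
      * (Real.exp ⟪p x, T • p z⟫ * ⟪p x, e⟫ ^ l
        * (⟪ν z, ν x⟫ ^ u * ⟪p z, ν x⟫ ^ i * ⟪ν x, e⟫ ^ k))) ∂γ = 0 := by
    rw [integral_const_mul, h1, mul_zero]
  rw [← h2]
  refine integral_congr_ae (Eventually.of_forall fun x => ?_)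
  have e1 : ⟪p x, T • p z⟫ = T * ⟪p z, p x⟫ := by
    rw [real_inner_smul_right, real_inner_comm]
  have e2 : dat p ν e (z, x) 3 = ⟪ν z, ν x⟫ := rfl
  have e3 : dat p ν e (z, x) 4 = ⟪ν z, e⟫ := rfl
  have e4 : mG i j l k (dat p ν e (z, x))
      = ⟪p z, ν x⟫ ^ i * ⟪p z, e⟫ ^ j * (⟪p x, e⟫ ^ l * ⟪ν x, e⟫ ^ k) := rfl
  simp only [e1, e2, e3, e4]
  ring

/-- field row in the first point, with a direction depending on the second point -/
lemma GC.rowF (h : GC γ n p ν) (e : E) (i j l k : ℕ) {T : ℝ} (hT : |T| < 1)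
    {f : X × X → ℝ} (hf : SG p f) (w : X → E)
    (hfw : ∀ x z, Real.exp (T * ⟪p x, p z⟫) * f (x, z) = (⟪p z, e⟫ ^ l * ⟪ν z, e⟫ ^ k)
      * (tD (T • p z) (ν z) e i j (w z) (p x)
        - ⟪ν x, w z⟫ * tD (T • p z) (ν z) e i j (ν x) (p x)
        - ⟪p x, w z⟫ * tf (T • p z) (ν z) e i j (p x))) :
    ∫ q, Real.exp (T * ⟪p q.1, p q.2⟫) * f q ∂(γ.prod γ) = 0 := by
  refine h.zero_left hf hT fun z => ?_
  simp only [hfw]
  rw [integral_const_mul, h.r1, mul_zero]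

/-- closed row in the first point -/
lemma GC.rowC (h : GC γ n p ν) (e : E) (i j l k : ℕ) {T : ℝ} (hT : |T| < 1)
    {f : X × X → ℝ} (hf : SG p f) (w y : X → E)
    (hfw : ∀ x z, Real.exp (T * ⟪p x, p z⟫) * f (x, z) = (⟪p z, e⟫ ^ l * ⟪ν z, e⟫ ^ k)
      * (⟪ν x, y z⟫ * tD (T • p z) (ν z) e i j (w z) (p x)
        - ⟪ν x, w z⟫ * tD (T • p z) (ν z) e i j (y z) (p x)
        - (⟪ν x, y z⟫ * ⟪p x, w z⟫ - ⟪ν x, w z⟫ * ⟪p x, y z⟫)
          * tf (T • p z) (ν z) e i j (p x))) :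
    ∫ q, Real.exp (T * ⟪p q.1, p q.2⟫) * f q ∂(γ.prod γ) = 0 := by
  refine h.zero_left hf hT fun z => ?_
  simp only [hfw]
  rw [integral_const_mul, h.r2, mul_zero]

/-- the integrand of the field row in the direction of the second position -/
lemma GC.rowB1 (h : GC γ n p ν) (e : E) (i j l k : ℕ) {T : ℝ} (hT : |T| < 1) :
    ∫ q, Real.exp (T * ⟪p q.1, p q.2⟫) * (T * (‖p q.2‖ ^ 2 * mG i j l k (dat p ν e q))
      + (dat p ν e q 7 * mX i j l k (dat p ν e q)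
      - dat p ν e q 2 * (T * (dat p ν e q 2 * mG i j l k (dat p ν e q))
        + dat p ν e q 3 * mQ i j l k (dat p ν e q) + dat p ν e q 4 * mX i j l k (dat p ν e q)))
      - dat p ν e q 0 * mG i j l k (dat p ν e q)) ∂(γ.prod γ) = 0 := by
  have g := h.sd_mG e i j l k
  have gq := h.sd_mQ e i j l k
  have gx := h.sd_mX e i j l k
  refine h.rowF e i j l k hT ?_ p ?_
  · exact ((((h.sg_B.mul g).const_mul T).add (((h.sg_dat e 7).mul gx).sub ((h.sg_dat e 2).mul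
      (((((h.sg_dat e 2).mul g).const_mul T).add ((h.sg_dat e 3).mul gq)).add
        ((h.sg_dat e 4).mul gx))))).sub ((h.sg_dat e 0).mul g))
  · intro x z
    have d0 : dat p ν e (x, z) 0 = ⟪p x, p z⟫ := rfl
    have d2 : dat p ν e (x, z) 2 = ⟪ν x, p z⟫ := rfl
    have d3 : dat p ν e (x, z) 3 = ⟪ν x, ν z⟫ := rfl
    have d4 : dat p ν e (x, z) 4 = ⟪ν x, e⟫ := rfl
    have d7 : dat p ν e (x, z) 7 = ⟪p z, e⟫ := rfl
    have dg : mG i j l k (dat p ν e (x, z))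
      = ⟪p x, ν z⟫ ^ i * ⟪p x, e⟫ ^ j * (⟪p z, e⟫ ^ l * ⟪ν z, e⟫ ^ k) := rfl
    have dq : mQ i j l k (dat p ν e (x, z))
      = i * ⟪p x, ν z⟫ ^ (i - 1) * ⟪p x, e⟫ ^ j * (⟪p z, e⟫ ^ l * ⟪ν z, e⟫ ^ k) := rfl
    have dx : mX i j l k (dat p ν e (x, z))
      = ⟪p x, ν z⟫ ^ i * (j * ⟪p x, e⟫ ^ (j - 1)) * (⟪p z, e⟫ ^ l * ⟪ν z, e⟫ ^ k) := rfl
    have hB : ⟪p z, p z⟫ = ‖p z‖ ^ 2 := real_inner_self_eq_norm_sq _
    simp only [d0, d2, d3, d4, d7, dg, dq, dx, tD, tf, real_inner_smul_right, h.pn z, hB]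
    ring

/-- the integrand of the field row in the direction of the second normal -/
theorem GC.rowN1 (h : GC γ n p ν) (e : E) (i j l k : ℕ) {T : ℝ} (hT : |T| < 1) :
    KI γ p ν e T (fun d => (1 - d 3 ^ 2) * mQ i j l k d + (d 5 - d 3 * d 4) * mX i j l k d
      - (d 1 + T * (d 2 * d 3)) * mG i j l k d) = 0 := by
  have g := h.sd_mG e i j l k
  have gq := h.sd_mQ e i j l k
  have gx := h.sd_mX e i j l k
  refine h.rowF e i j l k hT
    (f := fun q => (fun d : R9 => (1 - d 3 ^ 2) * mQ i j l k d + (d 5 - d 3 * d 4) * mX i j l k d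
      - (d 1 + T * (d 2 * d 3)) * mG i j l k d) (dat p ν e q)) ?_ ν ?_
  · exact (((SG.const 1).sub ((h.sg_dat e 3).pow 2)).mul gq).add
      (((h.sg_dat e 5).sub ((h.sg_dat e 3).mul (h.sg_dat e 4))).mul gx) |>.sub
      (((h.sg_dat e 1).add (((h.sg_dat e 2).mul (h.sg_dat e 3)).const_mul T)).mul g)
  · intro x z
    have d0 : dat p ν e (x, z) 0 = ⟪p x, p z⟫ := rfl
    have d1 : dat p ν e (x, z) 1 = ⟪p x, ν z⟫ := rfl
    have d2 : dat p ν e (x, z) 2 = ⟪ν x, p z⟫ := rfl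
    have d3 : dat p ν e (x, z) 3 = ⟪ν x, ν z⟫ := rfl
    have d4 : dat p ν e (x, z) 4 = ⟪ν x, e⟫ := rfl
    have d5 : dat p ν e (x, z) 5 = ⟪ν z, e⟫ := rfl
    have dg : mG i j l k (dat p ν e (x, z))
      = ⟪p x, ν z⟫ ^ i * ⟪p x, e⟫ ^ j * (⟪p z, e⟫ ^ l * ⟪ν z, e⟫ ^ k) := rfl
    have dq : mQ i j l k (dat p ν e (x, z))
      = i * ⟪p x, ν z⟫ ^ (i - 1) * ⟪p x, e⟫ ^ j * (⟪p z, e⟫ ^ l * ⟪ν z, e⟫ ^ k) := rfl
    have dx : mX i j l k (dat p ν e (x, z))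
      = ⟪p x, ν z⟫ ^ i * (j * ⟪p x, e⟫ ^ (j - 1)) * (⟪p z, e⟫ ^ l * ⟪ν z, e⟫ ^ k) := rfl
    have hz : ⟪ν z, p z⟫ = 0 := by rw [real_inner_comm]; exact h.pn z
    have hn : ⟪ν z, ν z⟫ = 1 := by rw [real_inner_self_eq_norm_sq, h.nn]; norm_num
    simp only [d1, d2, d3, d4, d5, dg, dq, dx, tD, tf, real_inner_smul_right, hz, hn]
    ring

/-- the integrand of the field row in the fixed direction -/
theorem GC.rowN2 (h : GC γ n p ν) (e : E) (i j l k : ℕ) {T : ℝ} (hT : |T| < 1) :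
    KI γ p ν e T (fun d => (d 5 - d 3 * d 4) * mQ i j l k d + (d 8 - d 4 ^ 2) * mX i j l k d
      - (d 6 - T * d 7 + T * (d 2 * d 4)) * mG i j l k d) = 0 := by
  have g := h.sd_mG e i j l k
  have gq := h.sd_mQ e i j l k
  have gx := h.sd_mX e i j l k
  refine h.rowF e i j l k hT
    (f := fun q => (fun d : R9 => (d 5 - d 3 * d 4) * mQ i j l k d
      + (d 8 - d 4 ^ 2) * mX i j l k d
      - (d 6 - T * d 7 + T * (d 2 * d 4)) * mG i j l k d) (dat p ν e q)) ?_ (fun _ => e) ?_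
  · exact (((h.sg_dat e 5).sub ((h.sg_dat e 3).mul (h.sg_dat e 4))).mul gq).add
      (((h.sg_dat e 8).sub ((h.sg_dat e 4).pow 2)).mul gx) |>.sub
      ((((h.sg_dat e 6).sub ((h.sg_dat e 7).const_mul T)).add
        (((h.sg_dat e 2).mul (h.sg_dat e 4)).const_mul T)).mul g)
  · intro x z
    have d0 : dat p ν e (x, z) 0 = ⟪p x, p z⟫ := rfl
    have d2 : dat p ν e (x, z) 2 = ⟪ν x, p z⟫ := rfl
    have d3 : dat p ν e (x, z) 3 = ⟪ν x, ν z⟫ := rfl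
    have d4 : dat p ν e (x, z) 4 = ⟪ν x, e⟫ := rfl
    have d5 : dat p ν e (x, z) 5 = ⟪ν z, e⟫ := rfl
    have d6 : dat p ν e (x, z) 6 = ⟪p x, e⟫ := rfl
    have d7 : dat p ν e (x, z) 7 = ⟪p z, e⟫ := rfl
    have d8 : dat p ν e (x, z) 8 = ⟪e, e⟫ := rfl
    have dg : mG i j l k (dat p ν e (x, z))
      = ⟪p x, ν z⟫ ^ i * ⟪p x, e⟫ ^ j * (⟪p z, e⟫ ^ l * ⟪ν z, e⟫ ^ k) := rfl
    have dq : mQ i j l k (dat p ν e (x, z))
      = i * ⟪p x, ν z⟫ ^ (i - 1) * ⟪p x, e⟫ ^ j * (⟪p z, e⟫ ^ l * ⟪ν z, e⟫ ^ k) := rfl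
    have dx : mX i j l k (dat p ν e (x, z))
      = ⟪p x, ν z⟫ ^ i * (j * ⟪p x, e⟫ ^ (j - 1)) * (⟪p z, e⟫ ^ l * ⟪ν z, e⟫ ^ k) := rfl
    have c1 : ⟪e, p z⟫ = ⟪p z, e⟫ := real_inner_comm _ _
    have c2 : ⟪e, ν z⟫ = ⟪ν z, e⟫ := real_inner_comm _ _
    simp only [d2, d3, d4, d5, d6, d7, d8, dg, dq, dx, tD, tf, real_inner_smul_right, c1, c2]
    ring

/-- the closed row in the second normal and the fixed direction -/
theorem GC.rowN3 (h : GC γ n p ν) (e : E) (i j l k : ℕ) {T : ℝ} (hT : |T| < 1) :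
    KI γ p ν e T (fun d => d 4 * (mQ i j l k d + d 5 * mX i j l k d - d 1 * mG i j l k d)
      - d 3 * (d 5 * mQ i j l k d + d 8 * mX i j l k d - (d 6 - T * d 7) * mG i j l k d)) = 0 := by
  have g := h.sd_mG e i j l k
  have gq := h.sd_mQ e i j l k
  have gx := h.sd_mX e i j l k
  refine h.rowC e i j l k hT
    (f := fun q => (fun d : R9 => d 4 * (mQ i j l k d + d 5 * mX i j l k d - d 1 * mG i j l k d)
      - d 3 * (d 5 * mQ i j l k d + d 8 * mX i j l k d - (d 6 - T * d 7) * mG i j l k d))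
      (dat p ν e q)) ?_ ν (fun _ => e) ?_
  · exact ((h.sg_dat e 4).mul ((SG.add gq ((h.sg_dat e 5).mul gx)).sub ((h.sg_dat e 1).mul g))).sub
      ((h.sg_dat e 3).mul ((((h.sg_dat e 5).mul gq).add ((h.sg_dat e 8).mul gx)).sub
        (((h.sg_dat e 6).sub ((h.sg_dat e 7).const_mul T)).mul g)))
  · intro x z
    have d0 : dat p ν e (x, z) 0 = ⟪p x, p z⟫ := rfl
    have d1 : dat p ν e (x, z) 1 = ⟪p x, ν z⟫ := rfl
    have d3 : dat p ν e (x, z) 3 = ⟪ν x, ν z⟫ := rfl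
    have d4 : dat p ν e (x, z) 4 = ⟪ν x, e⟫ := rfl
    have d5 : dat p ν e (x, z) 5 = ⟪ν z, e⟫ := rfl
    have d6 : dat p ν e (x, z) 6 = ⟪p x, e⟫ := rfl
    have d7 : dat p ν e (x, z) 7 = ⟪p z, e⟫ := rfl
    have d8 : dat p ν e (x, z) 8 = ⟪e, e⟫ := rfl
    have dg : mG i j l k (dat p ν e (x, z))
      = ⟪p x, ν z⟫ ^ i * ⟪p x, e⟫ ^ j * (⟪p z, e⟫ ^ l * ⟪ν z, e⟫ ^ k) := rfl
    have dq : mQ i j l k (dat p ν e (x, z))
      = i * ⟪p x, ν z⟫ ^ (i - 1) * ⟪p x, e⟫ ^ j * (⟪p z, e⟫ ^ l * ⟪ν z, e⟫ ^ k) := rfl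
    have dx : mX i j l k (dat p ν e (x, z))
      = ⟪p x, ν z⟫ ^ i * (j * ⟪p x, e⟫ ^ (j - 1)) * (⟪p z, e⟫ ^ l * ⟪ν z, e⟫ ^ k) := rfl
    have c1 : ⟪e, p z⟫ = ⟪p z, e⟫ := real_inner_comm _ _
    have c2 : ⟪e, ν z⟫ = ⟪ν z, e⟫ := real_inner_comm _ _
    have hz : ⟪ν z, p z⟫ = 0 := by rw [real_inner_comm]; exact h.pn z
    have hn : ⟪ν z, ν z⟫ = 1 := by rw [real_inner_self_eq_norm_sq, h.nn]; norm_num
    simp only [d1, d3, d4, d5, d6, d7, d8, dg, dq, dx, tD, tf, real_inner_smul_right, c1, c2,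
      hz, hn]
    ring

/-- the closed row in the second position and normal -/
lemma GC.rowB2 (h : GC γ n p ν) (e : E) (i j l k : ℕ) {T : ℝ} (hT : |T| < 1) :
    ∫ q, Real.exp (T * ⟪p q.1, p q.2⟫) * (T * (‖p q.2‖ ^ 2 * (dat p ν e q 3
        * mG i j l k (dat p ν e q)))
      + (dat p ν e q 3 * (dat p ν e q 7 * mX i j l k (dat p ν e q))
      - dat p ν e q 2 * (mQ i j l k (dat p ν e q) + dat p ν e q 5 * mX i j l k (dat p ν e q)
        - dat p ν e q 1 * mG i j l k (dat p ν e q)))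
      - dat p ν e q 0 * (dat p ν e q 3 * mG i j l k (dat p ν e q))) ∂(γ.prod γ) = 0 := by
  have g := h.sd_mG e i j l k
  have gq := h.sd_mQ e i j l k
  have gx := h.sd_mX e i j l k
  refine h.rowC e i j l k hT ?_ p ν ?_
  · exact (((h.sg_B.mul ((h.sg_dat e 3).mul g)).const_mul T).add
      (((h.sg_dat e 3).mul ((h.sg_dat e 7).mul gx)).sub ((h.sg_dat e 2).mul
      ((SG.add gq ((h.sg_dat e 5).mul gx)).sub ((h.sg_dat e 1).mul g))))).sub
      ((h.sg_dat e 0).mul ((h.sg_dat e 3).mul g))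
  · intro x z
    have d0 : dat p ν e (x, z) 0 = ⟪p x, p z⟫ := rfl
    have d1 : dat p ν e (x, z) 1 = ⟪p x, ν z⟫ := rfl
    have d2 : dat p ν e (x, z) 2 = ⟪ν x, p z⟫ := rfl
    have d3 : dat p ν e (x, z) 3 = ⟪ν x, ν z⟫ := rfl
    have d5 : dat p ν e (x, z) 5 = ⟪ν z, e⟫ := rfl
    have d7 : dat p ν e (x, z) 7 = ⟪p z, e⟫ := rfl
    have dg : mG i j l k (dat p ν e (x, z))
      = ⟪p x, ν z⟫ ^ i * ⟪p x, e⟫ ^ j * (⟪p z, e⟫ ^ l * ⟪ν z, e⟫ ^ k) := rfl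
    have dq : mQ i j l k (dat p ν e (x, z))
      = i * ⟪p x, ν z⟫ ^ (i - 1) * ⟪p x, e⟫ ^ j * (⟪p z, e⟫ ^ l * ⟪ν z, e⟫ ^ k) := rfl
    have dx : mX i j l k (dat p ν e (x, z))
      = ⟪p x, ν z⟫ ^ i * (j * ⟪p x, e⟫ ^ (j - 1)) * (⟪p z, e⟫ ^ l * ⟪ν z, e⟫ ^ k) := rfl
    have hB : ⟪p z, p z⟫ = ‖p z‖ ^ 2 := real_inner_self_eq_norm_sq _
    have hz : ⟪ν z, p z⟫ = 0 := by rw [real_inner_comm]; exact h.pn z
    have hn : ⟪ν z, ν z⟫ = 1 := by rw [real_inner_self_eq_norm_sq, h.nn]; norm_num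
    simp only [d0, d1, d2, d3, d5, d7, dg, dq, dx, tD, tf, real_inner_smul_right, h.pn z, hB, hz,
      hn]
    ring

/-- the closed row in the second position and the fixed direction -/
lemma GC.rowB3 (h : GC γ n p ν) (e : E) (i j l k : ℕ) {T : ℝ} (hT : |T| < 1) :
    ∫ q, Real.exp (T * ⟪p q.1, p q.2⟫) * (T * (‖p q.2‖ ^ 2 * (dat p ν e q 4
        * mG i j l k (dat p ν e q)))
      + (dat p ν e q 4 * (dat p ν e q 7 * mX i j l k (dat p ν e q))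
      - dat p ν e q 2 * (dat p ν e q 5 * mQ i j l k (dat p ν e q)
        + dat p ν e q 8 * mX i j l k (dat p ν e q)
        - (dat p ν e q 6 - T * dat p ν e q 7) * mG i j l k (dat p ν e q)))
      - dat p ν e q 0 * (dat p ν e q 4 * mG i j l k (dat p ν e q))) ∂(γ.prod γ) = 0 := by
  have g := h.sd_mG e i j l k
  have gq := h.sd_mQ e i j l k
  have gx := h.sd_mX e i j l k
  refine h.rowC e i j l k hT ?_ p (fun _ => e) ?_
  · exact (((h.sg_B.mul ((h.sg_dat e 4).mul g)).const_mul T).add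
      (((h.sg_dat e 4).mul ((h.sg_dat e 7).mul gx)).sub ((h.sg_dat e 2).mul
      ((((h.sg_dat e 5).mul gq).add ((h.sg_dat e 8).mul gx)).sub
        (((h.sg_dat e 6).sub ((h.sg_dat e 7).const_mul T)).mul g))))).sub
      ((h.sg_dat e 0).mul ((h.sg_dat e 4).mul g))
  · intro x z
    have d0 : dat p ν e (x, z) 0 = ⟪p x, p z⟫ := rfl
    have d2 : dat p ν e (x, z) 2 = ⟪ν x, p z⟫ := rfl
    have d4 : dat p ν e (x, z) 4 = ⟪ν x, e⟫ := rfl
    have d5 : dat p ν e (x, z) 5 = ⟪ν z, e⟫ := rfl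
    have d6 : dat p ν e (x, z) 6 = ⟪p x, e⟫ := rfl
    have d7 : dat p ν e (x, z) 7 = ⟪p z, e⟫ := rfl
    have d8 : dat p ν e (x, z) 8 = ⟪e, e⟫ := rfl
    have dg : mG i j l k (dat p ν e (x, z))
      = ⟪p x, ν z⟫ ^ i * ⟪p x, e⟫ ^ j * (⟪p z, e⟫ ^ l * ⟪ν z, e⟫ ^ k) := rfl
    have dq : mQ i j l k (dat p ν e (x, z))
      = i * ⟪p x, ν z⟫ ^ (i - 1) * ⟪p x, e⟫ ^ j * (⟪p z, e⟫ ^ l * ⟪ν z, e⟫ ^ k) := rfl
    have dx : mX i j l k (dat p ν e (x, z))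
      = ⟪p x, ν z⟫ ^ i * (j * ⟪p x, e⟫ ^ (j - 1)) * (⟪p z, e⟫ ^ l * ⟪ν z, e⟫ ^ k) := rfl
    have hB : ⟪p z, p z⟫ = ‖p z‖ ^ 2 := real_inner_self_eq_norm_sq _
    have c1 : ⟪e, p z⟫ = ⟪p z, e⟫ := real_inner_comm _ _
    have c2 : ⟪e, ν z⟫ = ⟪ν z, e⟫ := real_inner_comm _ _
    simp only [d0, d2, d4, d5, d6, d7, d8, dg, dq, dx, tD, tf, real_inner_smul_right, h.pn z, hB,
      c1, c2]
    ring

end

end Vale.Agent.P224.UG
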