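import Vale.Agent.P224.UG.Der
import Vale.Agent.P224.UG.Rad
import Vale.Agent.P224.UG.Def

/-!
The derivatives of the terms of a certificate over a Gaussian cone.
-/

namespace Vale.Agent.P224.UG

open MeasureTheory Set Filter Function
open Vale.Agent.P224.UE
open scoped Topology RealInnerProductSpace

set_option linter.unusedSectionVars false
set_option linter.unusedSimpArgs false

/-- the cone data as a function of the pair data of the cone -/
noncomputable def c8 (T : ℝ) (d : R9) : R8 :=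
  ![d 2, d 1, d 3, d 4, d 5, d 6 - T * d 7, kp T * d 7, d 8]

section

variable {X : Type*} [MeasurableSpace X] {E : Type*} [NormedAddCommGroup E]
  [InnerProductSpace ℝ E] [MeasurableSpace E] [BorelSpace E] [SecondCountableTopology E]
  {γ : Measure X} {n : ℕ} {p ν : X → E} {e : E}

@[simp] lemma c8_0 (T : ℝ) (d : R9) : c8 T d 0 = d 2 := rfl
@[simp] lemma c8_1 (T : ℝ) (d : R9) : c8 T d 1 = d 1 := rfl
@[simp] lemma c8_2 (T : ℝ) (d : R9) : c8 T d 2 = d 3 := rfl
@[simp] lemma c8_3 (T : ℝ) (d : R9) : c8 T d 3 = d 4 := rfl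
@[simp] lemma c8_4 (T : ℝ) (d : R9) : c8 T d 4 = d 5 := rfl
@[simp] lemma c8_5 (T : ℝ) (d : R9) : c8 T d 5 = d 6 - T * d 7 := rfl
@[simp] lemma c8_6 (T : ℝ) (d : R9) : c8 T d 6 = kp T * d 7 := rfl
@[simp] lemma c8_7 (T : ℝ) (d : R9) : c8 T d 7 = d 8 := rfl

/-- the functional on a Gaussian cone -/
noncomputable def EK (γ : Measure X) (n : ℕ) (p ν : X → E) (e : E) (T : ℝ) (h : R8 → ℝ) : ℝ :=
  kp T ^ n * KI γ p ν e T (fun d => h (c8 T d))

lemma KI_congr {T : ℝ} {f g : R9 → ℝ} (h : ∀ q, f (dat p ν e q) = g (dat p ν e q)) :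
    KI γ p ν e T f = KI γ p ν e T g := by
  unfold KI
  refine integral_congr_ae (Eventually.of_forall fun q => ?_)
  simp only [h q]

/-- a functional depending on the level together with its derivative -/
def DD (γ : Measure X) (n : ℕ) (p ν : X → E) (e : E) (T : ℝ) (H : ℝ → R9 → ℝ) (D : R9 → ℝ) :
    Prop :=
  (∀ T', SD p ν e (H T')) ∧ SD p ν e D ∧
    HasDerivAt (fun T => kp T ^ n * KI γ p ν e T (H T)) (kp T ^ n * KI γ p ν e T D) T

lemma DD.add (h : GC γ n p ν) {T : ℝ} (hT : T ∈ Ico (0 : ℝ) 1) {H₁ H₂ : ℝ → R9 → ℝ}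
    {D₁ D₂ : R9 → ℝ} (h1 : DD γ n p ν e T H₁ D₁) (h2 : DD γ n p ν e T H₂ D₂) :
    DD γ n p ν e T (fun T d => H₁ T d + H₂ T d) (fun d => D₁ d + D₂ d) := by
  have hT' : |T| < 1 := by rw [abs_of_nonneg hT.1]; exact hT.2
  refine ⟨fun T' => (h1.1 T').add (h2.1 T'), h1.2.1.add h2.2.1, ?_⟩
  rw [h.KI_add h1.2.1 h2.2.1 hT', mul_add]
  refine (h1.2.2.add h2.2.2).congr_of_eventuallyEq ?_
  filter_upwards [Ioo_mem_nhds (by linarith [hT.1] : (-1 : ℝ) < T) hT.2] with T' hT''
  have hT3 : |T'| < 1 := abs_lt.2 hT''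
  simp only [Pi.add_apply]
  rw [h.KI_add (h1.1 T') (h2.1 T') hT3, mul_add]

lemma DD.mul {T : ℝ} (h : GC γ n p ν) (hT : T ∈ Ico (0 : ℝ) 1) {H : ℝ → R9 → ℝ}
    {D : R9 → ℝ} (h1 : DD γ n p ν e T H D) {φ : ℝ → ℝ} {φ' : ℝ} (hφ : HasDerivAt φ φ' T) :
    DD γ n p ν e T (fun T d => φ T * H T d) (fun d => φ' * H T d + φ T * D d) := by
  have hT' : |T| < 1 := by rw [abs_of_nonneg hT.1]; exact hT.2
  refine ⟨fun T' => (h1.1 T').const_mul _, ((h1.1 T).const_mul _).add (h1.2.1.const_mul _), ?_⟩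
  rw [h.KI_add ((h1.1 T).const_mul _) (h1.2.1.const_mul _) hT', KI_const_mul, KI_const_mul]
  have h2 := hφ.fun_mul h1.2.2
  have h3 : (fun T => kp T ^ n * KI γ p ν e T (fun d => φ T * H T d))
      = fun T => φ T * (kp T ^ n * KI γ p ν e T (H T)) := by
    funext T
    rw [KI_const_mul]
    ring
  rw [h3]
  refine h2.congr_deriv ?_
  ring

lemma DD.congr {T : ℝ} {H H' : ℝ → R9 → ℝ} {D D' : R9 → ℝ} (h1 : DD γ n p ν e T H D)
    (hH : ∀ T' q, H' T' (dat p ν e q) = H T' (dat p ν e q))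
    (hD : ∀ q, D' (dat p ν e q) = D (dat p ν e q)) : DD γ n p ν e T H' D' := by
  refine ⟨fun T' => ?_, ?_, ?_⟩
  · have := h1.1 T'
    unfold SD at this ⊢
    simpa only [hH] using this
  · have := h1.2.1
    unfold SD at this ⊢
    simpa only [hD] using this
  · have h3 : (fun T => kp T ^ n * KI γ p ν e T (H' T))
      = fun T => kp T ^ n * KI γ p ν e T (H T) := by
      funext T
      rw [KI_congr (hH T)]
    rw [h3, KI_congr hD]
    exact h1.2.2

lemma DD.null {T : ℝ} {D : R9 → ℝ} (hD : SD p ν e D)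
    (h0 : KI γ p ν e T D = 0) : DD γ n p ν e T (fun _ _ => 0) D := by
  refine ⟨fun _ => SD.const 0, hD, ?_⟩
  have h3 : (fun T => kp T ^ n * KI γ p ν e T (fun _ => 0)) = fun _ => 0 := by
    funext T
    simp [KI]
  rw [h3, h0, mul_zero]
  exact hasDerivAt_const _ _

lemma one_sub_ne {T : ℝ} (hT : T ∈ Ico (0 : ℝ) 1) : (1 - T ^ 2) ≠ 0 :=
  (one_sub_sq_pos hT).ne'

lemma DD.A (h : GC γ n p ν) (e : E) (i j l k : ℕ) {T : ℝ} (hT : T ∈ Ico (0 : ℝ) 1) :
    DD γ n p ν e T (fun _ => mG i j l k) (fun d => (1 - T ^ 2)⁻¹ * dA i j l k T d) := by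
  refine ⟨fun _ => h.sd_mG e i j l k, (h.sd_dA e i j l k T).const_mul _, ?_⟩
  rw [KI_const_mul]
  refine (h.derA e i j l k hT).congr_deriv ?_
  ring

lemma DD.B (h : GC γ n p ν) (e : E) (i j l k : ℕ) {T : ℝ} (hT : T ∈ Ico (0 : ℝ) 1) :
    DD γ n p ν e T (fun _ d => d 3 * mG i j l k d) (fun d => (1 - T ^ 2)⁻¹ * dB i j l k T d) := by
  refine ⟨fun _ => (h.sd e 3).mul (h.sd_mG e i j l k), (h.sd_dB e i j l k T).const_mul _, ?_⟩
  rw [KI_const_mul]
  refine (h.derB e i j l k hT).congr_deriv ?_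
  ring

lemma DD.C (h : GC γ n p ν) (e : E) (i j l k : ℕ) {T : ℝ} (hT : T ∈ Ico (0 : ℝ) 1) :
    DD γ n p ν e T (fun _ d => d 4 * mG i j l k d) (fun d => (1 - T ^ 2)⁻¹ * dC i j l k T d) := by
  refine ⟨fun _ => (h.sd e 4).mul (h.sd_mG e i j l k), (h.sd_dC e i j l k T).const_mul _, ?_⟩
  rw [KI_const_mul]
  refine (h.derC e i j l k hT).congr_deriv ?_
  ring

/-- the integrands of the null rows -/
def nA (i j l k : ℕ) (T : ℝ) (d : R9) : ℝ :=
  (1 - d 3 ^ 2) * mQ i j l k d + (d 5 - d 3 * d 4) * mX i j l k d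
      - (d 1 + T * (d 2 * d 3)) * mG i j l k d

def nB (i j l k : ℕ) (T : ℝ) (d : R9) : ℝ :=
  (d 5 - d 3 * d 4) * mQ i j l k d + (d 8 - d 4 ^ 2) * mX i j l k d
      - (d 6 - T * d 7 + T * (d 2 * d 4)) * mG i j l k d

def nC (i j l k : ℕ) (T : ℝ) (d : R9) : ℝ :=
  -(d 4 * (mQ i j l k d + d 5 * mX i j l k d - d 1 * mG i j l k d)
      - d 3 * (d 5 * mQ i j l k d + d 8 * mX i j l k d - (d 6 - T * d 7) * mG i j l k d))

lemma DD.NA (h : GC γ n p ν) (e : E) (i j l k : ℕ) {T : ℝ} (hT : T ∈ Ico (0 : ℝ) 1) :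
    DD γ n p ν e T (fun _ _ => 0) (nA i j l k T) := by
  have hT' : |T| < 1 := by rw [abs_of_nonneg hT.1]; exact hT.2
  have g := h.sd_mG e i j l k
  have gq := h.sd_mQ e i j l k
  have gx := h.sd_mX e i j l k
  exact DD.null (((((SD.const 1).sub ((h.sd e 3).pow 2)).mul gq).add
    (((h.sd e 5).sub ((h.sd e 3).mul (h.sd e 4))).mul gx)).sub
    (((h.sd e 1).add (((h.sd e 2).mul (h.sd e 3)).const_mul T)).mul g)) (h.rowN1 e i j l k hT')

lemma DD.NB (h : GC γ n p ν) (e : E) (i j l k : ℕ) {T : ℝ} (hT : T ∈ Ico (0 : ℝ) 1) :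
    DD γ n p ν e T (fun _ _ => 0) (nB i j l k T) := by
  have hT' : |T| < 1 := by rw [abs_of_nonneg hT.1]; exact hT.2
  have g := h.sd_mG e i j l k
  have gq := h.sd_mQ e i j l k
  have gx := h.sd_mX e i j l k
  exact DD.null (((((h.sd e 5).sub ((h.sd e 3).mul (h.sd e 4))).mul gq).add
    (((h.sd e 8).sub ((h.sd e 4).pow 2)).mul gx)).sub
    ((((h.sd e 6).sub ((h.sd e 7).const_mul T)).add
      (((h.sd e 2).mul (h.sd e 4)).const_mul T)).mul g)) (h.rowN2 e i j l k hT')

lemma DD.NC (h : GC γ n p ν) (e : E) (i j l k : ℕ) {T : ℝ} (hT : T ∈ Ico (0 : ℝ) 1) :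
    DD γ n p ν e T (fun _ _ => 0) (nC i j l k T) := by
  have hT' : |T| < 1 := by rw [abs_of_nonneg hT.1]; exact hT.2
  have g := h.sd_mG e i j l k
  have gq := h.sd_mQ e i j l k
  have gx := h.sd_mX e i j l k
  refine DD.null (((h.sd e 4).mul ((gq.add ((h.sd e 5).mul gx)).sub ((h.sd e 1).mul g))).sub
      ((h.sd e 3).mul ((((h.sd e 5).mul gq).add ((h.sd e 8).mul gx)).sub
        (((h.sd e 6).sub ((h.sd e 7).const_mul T)).mul g)))).neg ?_
  have h3 := h.rowN3 e i j l k hT'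
  unfold KI at h3 ⊢
  simp only [nC, mul_neg, integral_neg, neg_eq_zero]
  exact h3

/-- The derivative of a term of a certificate. -/
theorem DD.term (h : GC γ n p ν) (e : E) (t : GTerm) (hb : t.b ≤ 2) {T : ℝ}
    (hT : T ∈ Ico (0 : ℝ) 1) {φ : ℝ → ℝ} {φ' : ℝ} (hφ : HasDerivAt φ φ' T) :
    DD γ n p ν e T (fun T d => φ T * t.f (c8 T d)) (fun d => t.D T (φ T) φ' (c8 T d)) := by
  obtain ⟨fam, a, b, k, d, l⟩ := t
  simp only at hb
  have hκ := one_sub_ne hT
  have hk0 : kp T ≠ 0 := (kp_pos hT).ne'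
  have hk2 : kp T ^ 2 = 1 - T ^ 2 := kp_sq hT
  set E0 : ℝ := ⟪e, e⟫ ^ l with hE0
  -- the coefficient
  have hkd : HasDerivAt (fun T => kp T ^ d) (-(d * T * (1 - T ^ 2)⁻¹) * kp T ^ d) T := by
    refine (hasDerivAt_kp_pow hT d).congr_deriv ?_
    field_simp
  have hu : HasDerivAt (fun T => φ T * (kp T ^ d * E0))
      ((φ' - φ T * (d * T * (1 - T ^ 2)⁻¹)) * (kp T ^ d * E0)) T := by
    refine (hφ.fun_mul (hkd.mul_const E0)).congr_deriv ?_
    ring
  have hu1 : HasDerivAt (fun T => -(T * (φ T * (kp T ^ d * E0))))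
      (-(φ T * (kp T ^ d * E0) + T * ((φ' - φ T * (d * T * (1 - T ^ 2)⁻¹)) * (kp T ^ d * E0)))) T := by
    refine (((hasDerivAt_id T).fun_mul hu).fun_neg).congr_deriv ?_
    simp only [id, one_mul]
  have hu2 : HasDerivAt (fun T => -(2 * T * (φ T * (kp T ^ d * E0))))
      (-(2 * (φ T * (kp T ^ d * E0)) + 2 * T * ((φ' - φ T * (d * T * (1 - T ^ 2)⁻¹))
        * (kp T ^ d * E0)))) T := by
    refine ((((hasDerivAt_id T).const_mul 2).fun_mul hu).fun_neg).congr_deriv ?_
    simp only [id, mul_one]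
  have hu3 : HasDerivAt (fun T => T ^ 2 * (φ T * (kp T ^ d * E0)))
      (2 * T * (φ T * (kp T ^ d * E0)) + T ^ 2 * ((φ' - φ T * (d * T * (1 - T ^ 2)⁻¹))
        * (kp T ^ d * E0))) T := by
    refine ((hasDerivAt_pow 2 T).fun_mul hu).congr_deriv ?_
    simp
  have hE : ∀ q, dat p ν e q 8 ^ l = E0 := fun q => rfl
  have hcase : b = 0 ∨ b = 1 ∨ b = 2 := by omega
  fin_cases fam
  · rcases hcase with rfl | rfl | rfl
    · refine DD.congr (DD.mul h hT (DD.A h e a 0 d k hT) hu) (fun T' q => ?_) fun q => ?_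
      · simp only [GTerm.f, GTerm.g, GTerm.w, c8_1, c8_2, c8_3, c8_4, c8_5, c8_6, c8_7, mG, mul_zero,
          mul_pow, pow_zero, mul_one, pow_one]
        try rw [hE q]
        try ring
      · simp only [GTerm.D, GTerm.g, GTerm.gQ, GTerm.gZ, GTerm.w, c8_0, c8_1, c8_2, c8_3, c8_4, c8_5,
          c8_6, c8_7, mG, mQ, mX, dA, dB, dC, nA, nB, nC, mul_pow, pow_zero, mul_one, pow_one,
          Nat.cast_zero, Nat.cast_one, Nat.cast_ofNat, zero_mul, mul_zero, Nat.sub_self,
          Nat.add_one_sub_one, Nat.reduceSub, Nat.cast_add]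
        try rw [hE q]
        field_simp
        try ring
    · refine DD.congr (DD.add h hT (DD.mul h hT (DD.A h e a 1 d k hT) hu)
        (DD.mul h hT (DD.A h e a 0 (d + 1) k hT) hu1)) (fun T' q => ?_) fun q => ?_
      · simp only [GTerm.f, GTerm.g, GTerm.w, c8_1, c8_2, c8_3, c8_4, c8_5, c8_6, c8_7, mG, mul_zero,
          mul_pow, pow_zero, mul_one, pow_one]
        try rw [hE q]
        try ring
      · simp only [GTerm.D, GTerm.g, GTerm.gQ, GTerm.gZ, GTerm.w, c8_0, c8_1, c8_2, c8_3, c8_4, c8_5,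
          c8_6, c8_7, mG, mQ, mX, dA, dB, dC, nA, nB, nC, mul_pow, pow_zero, mul_one, pow_one,
          Nat.cast_zero, Nat.cast_one, Nat.cast_ofNat, zero_mul, mul_zero, Nat.sub_self,
          Nat.add_one_sub_one, Nat.reduceSub, Nat.cast_add]
        try rw [hE q]
        field_simp
        try ring
    · refine DD.congr (DD.add h hT (DD.add h hT (DD.mul h hT (DD.A h e a 2 d k hT) hu)
        (DD.mul h hT (DD.A h e a 1 (d + 1) k hT) hu2))
        (DD.mul h hT (DD.A h e a 0 (d + 2) k hT) hu3)) (fun T' q => ?_) fun q => ?_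
      · simp only [GTerm.f, GTerm.g, GTerm.w, c8_1, c8_2, c8_3, c8_4, c8_5, c8_6, c8_7, mG, mul_zero,
          mul_pow, pow_zero, mul_one, pow_one]
        try rw [hE q]
        try ring
      · simp only [GTerm.D, GTerm.g, GTerm.gQ, GTerm.gZ, GTerm.w, c8_0, c8_1, c8_2, c8_3, c8_4, c8_5,
          c8_6, c8_7, mG, mQ, mX, dA, dB, dC, nA, nB, nC, mul_pow, pow_zero, mul_one, pow_one,
          Nat.cast_zero, Nat.cast_one, Nat.cast_ofNat, zero_mul, mul_zero, Nat.sub_self,
          Nat.add_one_sub_one, Nat.reduceSub, Nat.cast_add]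
        try rw [hE q]
        field_simp
        try ring
  · rcases hcase with rfl | rfl | rfl
    · refine DD.congr (DD.mul h hT (DD.NA h e a 0 d k hT) hu) (fun T' q => ?_) fun q => ?_
      · simp only [GTerm.f, GTerm.g, GTerm.w, c8_1, c8_2, c8_3, c8_4, c8_5, c8_6, c8_7, mG, mul_zero,
          mul_pow, pow_zero, mul_one, pow_one]
        try rw [hE q]
        try ring
      · simp only [GTerm.D, GTerm.g, GTerm.gQ, GTerm.gZ, GTerm.w, c8_0, c8_1, c8_2, c8_3, c8_4, c8_5,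
          c8_6, c8_7, mG, mQ, mX, dA, dB, dC, nA, nB, nC, mul_pow, pow_zero, mul_one, pow_one,
          Nat.cast_zero, Nat.cast_one, Nat.cast_ofNat, zero_mul, mul_zero, Nat.sub_self,
          Nat.add_one_sub_one, Nat.reduceSub, Nat.cast_add]
        try rw [hE q]
        field_simp
        try ring
    · refine DD.congr (DD.add h hT (DD.mul h hT (DD.NA h e a 1 d k hT) hu)
        (DD.mul h hT (DD.NA h e a 0 (d + 1) k hT) hu1)) (fun T' q => ?_) fun q => ?_
      · simp only [GTerm.f, GTerm.g, GTerm.w, c8_1, c8_2, c8_3, c8_4, c8_5, c8_6, c8_7, mG, mul_zero,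
          mul_pow, pow_zero, mul_one, pow_one]
        try rw [hE q]
        try ring
      · simp only [GTerm.D, GTerm.g, GTerm.gQ, GTerm.gZ, GTerm.w, c8_0, c8_1, c8_2, c8_3, c8_4, c8_5,
          c8_6, c8_7, mG, mQ, mX, dA, dB, dC, nA, nB, nC, mul_pow, pow_zero, mul_one, pow_one,
          Nat.cast_zero, Nat.cast_one, Nat.cast_ofNat, zero_mul, mul_zero, Nat.sub_self,
          Nat.add_one_sub_one, Nat.reduceSub, Nat.cast_add]
        try rw [hE q]
        field_simp
        try ring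
    · refine DD.congr (DD.add h hT (DD.add h hT (DD.mul h hT (DD.NA h e a 2 d k hT) hu)
        (DD.mul h hT (DD.NA h e a 1 (d + 1) k hT) hu2))
        (DD.mul h hT (DD.NA h e a 0 (d + 2) k hT) hu3)) (fun T' q => ?_) fun q => ?_
      · simp only [GTerm.f, GTerm.g, GTerm.w, c8_1, c8_2, c8_3, c8_4, c8_5, c8_6, c8_7, mG, mul_zero,
          mul_pow, pow_zero, mul_one, pow_one]
        try rw [hE q]
        try ring
      · simp only [GTerm.D, GTerm.g, GTerm.gQ, GTerm.gZ, GTerm.w, c8_0, c8_1, c8_2, c8_3, c8_4, c8_5,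
          c8_6, c8_7, mG, mQ, mX, dA, dB, dC, nA, nB, nC, mul_pow, pow_zero, mul_one, pow_one,
          Nat.cast_zero, Nat.cast_one, Nat.cast_ofNat, zero_mul, mul_zero, Nat.sub_self,
          Nat.add_one_sub_one, Nat.reduceSub, Nat.cast_add]
        try rw [hE q]
        field_simp
        try ring
  · rcases hcase with rfl | rfl | rfl
    · refine DD.congr (DD.mul h hT (DD.NB h e a 0 d k hT) hu) (fun T' q => ?_) fun q => ?_
      · simp only [GTerm.f, GTerm.g, GTerm.w, c8_1, c8_2, c8_3, c8_4, c8_5, c8_6, c8_7, mG, mul_zero,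
          mul_pow, pow_zero, mul_one, pow_one]
        try rw [hE q]
        try ring
      · simp only [GTerm.D, GTerm.g, GTerm.gQ, GTerm.gZ, GTerm.w, c8_0, c8_1, c8_2, c8_3, c8_4, c8_5,
          c8_6, c8_7, mG, mQ, mX, dA, dB, dC, nA, nB, nC, mul_pow, pow_zero, mul_one, pow_one,
          Nat.cast_zero, Nat.cast_one, Nat.cast_ofNat, zero_mul, mul_zero, Nat.sub_self,
          Nat.add_one_sub_one, Nat.reduceSub, Nat.cast_add]
        try rw [hE q]
        field_simp
        try ring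
    · refine DD.congr (DD.add h hT (DD.mul h hT (DD.NB h e a 1 d k hT) hu)
        (DD.mul h hT (DD.NB h e a 0 (d + 1) k hT) hu1)) (fun T' q => ?_) fun q => ?_
      · simp only [GTerm.f, GTerm.g, GTerm.w, c8_1, c8_2, c8_3, c8_4, c8_5, c8_6, c8_7, mG, mul_zero,
          mul_pow, pow_zero, mul_one, pow_one]
        try rw [hE q]
        try ring
      · simp only [GTerm.D, GTerm.g, GTerm.gQ, GTerm.gZ, GTerm.w, c8_0, c8_1, c8_2, c8_3, c8_4, c8_5,
          c8_6, c8_7, mG, mQ, mX, dA, dB, dC, nA, nB, nC, mul_pow, pow_zero, mul_one, pow_one,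
          Nat.cast_zero, Nat.cast_one, Nat.cast_ofNat, zero_mul, mul_zero, Nat.sub_self,
          Nat.add_one_sub_one, Nat.reduceSub, Nat.cast_add]
        try rw [hE q]
        field_simp
        try ring
    · refine DD.congr (DD.add h hT (DD.add h hT (DD.mul h hT (DD.NB h e a 2 d k hT) hu)
        (DD.mul h hT (DD.NB h e a 1 (d + 1) k hT) hu2))
        (DD.mul h hT (DD.NB h e a 0 (d + 2) k hT) hu3)) (fun T' q => ?_) fun q => ?_
      · simp only [GTerm.f, GTerm.g, GTerm.w, c8_1, c8_2, c8_3, c8_4, c8_5, c8_6, c8_7, mG, mul_zero,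
          mul_pow, pow_zero, mul_one, pow_one]
        try rw [hE q]
        try ring
      · simp only [GTerm.D, GTerm.g, GTerm.gQ, GTerm.gZ, GTerm.w, c8_0, c8_1, c8_2, c8_3, c8_4, c8_5,
          c8_6, c8_7, mG, mQ, mX, dA, dB, dC, nA, nB, nC, mul_pow, pow_zero, mul_one, pow_one,
          Nat.cast_zero, Nat.cast_one, Nat.cast_ofNat, zero_mul, mul_zero, Nat.sub_self,
          Nat.add_one_sub_one, Nat.reduceSub, Nat.cast_add]
        try rw [hE q]
        field_simp
        try ring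
  · rcases hcase with rfl | rfl | rfl
    · refine DD.congr (DD.mul h hT (DD.B h e a 0 d k hT) hu) (fun T' q => ?_) fun q => ?_
      · simp only [GTerm.f, GTerm.g, GTerm.w, c8_1, c8_2, c8_3, c8_4, c8_5, c8_6, c8_7, mG, mul_zero,
          mul_pow, pow_zero, mul_one, pow_one]
        try rw [hE q]
        try ring
      · simp only [GTerm.D, GTerm.g, GTerm.gQ, GTerm.gZ, GTerm.w, c8_0, c8_1, c8_2, c8_3, c8_4, c8_5,
          c8_6, c8_7, mG, mQ, mX, dA, dB, dC, nA, nB, nC, mul_pow, pow_zero, mul_one, pow_one,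
          Nat.cast_zero, Nat.cast_one, Nat.cast_ofNat, zero_mul, mul_zero, Nat.sub_self,
          Nat.add_one_sub_one, Nat.reduceSub, Nat.cast_add]
        try rw [hE q]
        field_simp
        try ring
    · refine DD.congr (DD.add h hT (DD.mul h hT (DD.B h e a 1 d k hT) hu)
        (DD.mul h hT (DD.B h e a 0 (d + 1) k hT) hu1)) (fun T' q => ?_) fun q => ?_
      · simp only [GTerm.f, GTerm.g, GTerm.w, c8_1, c8_2, c8_3, c8_4, c8_5, c8_6, c8_7, mG, mul_zero,
          mul_pow, pow_zero, mul_one, pow_one]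
        try rw [hE q]
        try ring
      · simp only [GTerm.D, GTerm.g, GTerm.gQ, GTerm.gZ, GTerm.w, c8_0, c8_1, c8_2, c8_3, c8_4, c8_5,
          c8_6, c8_7, mG, mQ, mX, dA, dB, dC, nA, nB, nC, mul_pow, pow_zero, mul_one, pow_one,
          Nat.cast_zero, Nat.cast_one, Nat.cast_ofNat, zero_mul, mul_zero, Nat.sub_self,
          Nat.add_one_sub_one, Nat.reduceSub, Nat.cast_add]
        try rw [hE q]
        field_simp
        try ring
    · refine DD.congr (DD.add h hT (DD.add h hT (DD.mul h hT (DD.B h e a 2 d k hT) hu)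
        (DD.mul h hT (DD.B h e a 1 (d + 1) k hT) hu2))
        (DD.mul h hT (DD.B h e a 0 (d + 2) k hT) hu3)) (fun T' q => ?_) fun q => ?_
      · simp only [GTerm.f, GTerm.g, GTerm.w, c8_1, c8_2, c8_3, c8_4, c8_5, c8_6, c8_7, mG, mul_zero,
          mul_pow, pow_zero, mul_one, pow_one]
        try rw [hE q]
        try ring
      · simp only [GTerm.D, GTerm.g, GTerm.gQ, GTerm.gZ, GTerm.w, c8_0, c8_1, c8_2, c8_3, c8_4, c8_5,
          c8_6, c8_7, mG, mQ, mX, dA, dB, dC, nA, nB, nC, mul_pow, pow_zero, mul_one, pow_one,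
          Nat.cast_zero, Nat.cast_one, Nat.cast_ofNat, zero_mul, mul_zero, Nat.sub_self,
          Nat.add_one_sub_one, Nat.reduceSub, Nat.cast_add]
        try rw [hE q]
        field_simp
        try ring
  · rcases hcase with rfl | rfl | rfl
    · refine DD.congr (DD.mul h hT (DD.C h e a 0 d k hT) hu) (fun T' q => ?_) fun q => ?_
      · simp only [GTerm.f, GTerm.g, GTerm.w, c8_1, c8_2, c8_3, c8_4, c8_5, c8_6, c8_7, mG, mul_zero,
          mul_pow, pow_zero, mul_one, pow_one]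
        try rw [hE q]
        try ring
      · simp only [GTerm.D, GTerm.g, GTerm.gQ, GTerm.gZ, GTerm.w, c8_0, c8_1, c8_2, c8_3, c8_4, c8_5,
          c8_6, c8_7, mG, mQ, mX, dA, dB, dC, nA, nB, nC, mul_pow, pow_zero, mul_one, pow_one,
          Nat.cast_zero, Nat.cast_one, Nat.cast_ofNat, zero_mul, mul_zero, Nat.sub_self,
          Nat.add_one_sub_one, Nat.reduceSub, Nat.cast_add]
        try rw [hE q]
        field_simp
        try ring
    · refine DD.congr (DD.add h hT (DD.mul h hT (DD.C h e a 1 d k hT) hu)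
        (DD.mul h hT (DD.C h e a 0 (d + 1) k hT) hu1)) (fun T' q => ?_) fun q => ?_
      · simp only [GTerm.f, GTerm.g, GTerm.w, c8_1, c8_2, c8_3, c8_4, c8_5, c8_6, c8_7, mG, mul_zero,
          mul_pow, pow_zero, mul_one, pow_one]
        try rw [hE q]
        try ring
      · simp only [GTerm.D, GTerm.g, GTerm.gQ, GTerm.gZ, GTerm.w, c8_0, c8_1, c8_2, c8_3, c8_4, c8_5,
          c8_6, c8_7, mG, mQ, mX, dA, dB, dC, nA, nB, nC, mul_pow, pow_zero, mul_one, pow_one,
          Nat.cast_zero, Nat.cast_one, Nat.cast_ofNat, zero_mul, mul_zero, Nat.sub_self,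
          Nat.add_one_sub_one, Nat.reduceSub, Nat.cast_add]
        try rw [hE q]
        field_simp
        try ring
    · refine DD.congr (DD.add h hT (DD.add h hT (DD.mul h hT (DD.C h e a 2 d k hT) hu)
        (DD.mul h hT (DD.C h e a 1 (d + 1) k hT) hu2))
        (DD.mul h hT (DD.C h e a 0 (d + 2) k hT) hu3)) (fun T' q => ?_) fun q => ?_
      · simp only [GTerm.f, GTerm.g, GTerm.w, c8_1, c8_2, c8_3, c8_4, c8_5, c8_6, c8_7, mG, mul_zero,
          mul_pow, pow_zero, mul_one, pow_one]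
        try rw [hE q]
        try ring
      · simp only [GTerm.D, GTerm.g, GTerm.gQ, GTerm.gZ, GTerm.w, c8_0, c8_1, c8_2, c8_3, c8_4, c8_5,
          c8_6, c8_7, mG, mQ, mX, dA, dB, dC, nA, nB, nC, mul_pow, pow_zero, mul_one, pow_one,
          Nat.cast_zero, Nat.cast_one, Nat.cast_ofNat, zero_mul, mul_zero, Nat.sub_self,
          Nat.add_one_sub_one, Nat.reduceSub, Nat.cast_add]
        try rw [hE q]
        field_simp
        try ring
  · rcases hcase with rfl | rfl | rfl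
    · refine DD.congr (DD.mul h hT (DD.NC h e a 0 d k hT) hu) (fun T' q => ?_) fun q => ?_
      · simp only [GTerm.f, GTerm.g, GTerm.w, c8_1, c8_2, c8_3, c8_4, c8_5, c8_6, c8_7, mG, mul_zero,
          mul_pow, pow_zero, mul_one, pow_one]
        try rw [hE q]
        try ring
      · simp only [GTerm.D, GTerm.g, GTerm.gQ, GTerm.gZ, GTerm.w, c8_0, c8_1, c8_2, c8_3, c8_4, c8_5,
          c8_6, c8_7, mG, mQ, mX, dA, dB, dC, nA, nB, nC, mul_pow, pow_zero, mul_one, pow_one,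
          Nat.cast_zero, Nat.cast_one, Nat.cast_ofNat, zero_mul, mul_zero, Nat.sub_self,
          Nat.add_one_sub_one, Nat.reduceSub, Nat.cast_add]
        try rw [hE q]
        field_simp
        try ring
    · refine DD.congr (DD.add h hT (DD.mul h hT (DD.NC h e a 1 d k hT) hu)
        (DD.mul h hT (DD.NC h e a 0 (d + 1) k hT) hu1)) (fun T' q => ?_) fun q => ?_
      · simp only [GTerm.f, GTerm.g, GTerm.w, c8_1, c8_2, c8_3, c8_4, c8_5, c8_6, c8_7, mG, mul_zero,
          mul_pow, pow_zero, mul_one, pow_one]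
        try rw [hE q]
        try ring
      · simp only [GTerm.D, GTerm.g, GTerm.gQ, GTerm.gZ, GTerm.w, c8_0, c8_1, c8_2, c8_3, c8_4, c8_5,
          c8_6, c8_7, mG, mQ, mX, dA, dB, dC, nA, nB, nC, mul_pow, pow_zero, mul_one, pow_one,
          Nat.cast_zero, Nat.cast_one, Nat.cast_ofNat, zero_mul, mul_zero, Nat.sub_self,
          Nat.add_one_sub_one, Nat.reduceSub, Nat.cast_add]
        try rw [hE q]
        field_simp
        try ring
    · refine DD.congr (DD.add h hT (DD.add h hT (DD.mul h hT (DD.NC h e a 2 d k hT) hu)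
        (DD.mul h hT (DD.NC h e a 1 (d + 1) k hT) hu2))
        (DD.mul h hT (DD.NC h e a 0 (d + 2) k hT) hu3)) (fun T' q => ?_) fun q => ?_
      · simp only [GTerm.f, GTerm.g, GTerm.w, c8_1, c8_2, c8_3, c8_4, c8_5, c8_6, c8_7, mG, mul_zero,
          mul_pow, pow_zero, mul_one, pow_one]
        try rw [hE q]
        try ring
      · simp only [GTerm.D, GTerm.g, GTerm.gQ, GTerm.gZ, GTerm.w, c8_0, c8_1, c8_2, c8_3, c8_4, c8_5,
          c8_6, c8_7, mG, mQ, mX, dA, dB, dC, nA, nB, nC, mul_pow, pow_zero, mul_one, pow_one,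
          Nat.cast_zero, Nat.cast_one, Nat.cast_ofNat, zero_mul, mul_zero, Nat.sub_self,
          Nat.add_one_sub_one, Nat.reduceSub, Nat.cast_add]
        try rw [hE q]
        field_simp
        try ring

end

end Vale.Agent.P224.UG
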