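import Vale.Agent.P224.UG.Bin

/-!
The derivatives of the functionals of the terms over a Gaussian cone.
-/

namespace Vale.Agent.P224.UG

open MeasureTheory Set Filter Function
open Vale.Agent.P224.UE
open scoped Topology RealInnerProductSpace

set_option linter.unusedSectionVars false

/-- the weight in the unscaled data -/
def w0 (K : ℝ) (k d l : ℕ) (x : R9) : ℝ := x 5 ^ k * (K * x 7) ^ d * x 8 ^ l

/-- the first null row -/
def rN1 (i j l k : ℕ) (T : ℝ) (d : R9) : ℝ :=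
  (1 - d 3 ^ 2) * mQ i j l k d + (d 5 - d 3 * d 4) * mX i j l k d
      - (d 1 + T * (d 2 * d 3)) * mG i j l k d

/-- the second null row -/
def rN2 (i j l k : ℕ) (T : ℝ) (d : R9) : ℝ :=
  (d 5 - d 3 * d 4) * mQ i j l k d + (d 8 - d 4 ^ 2) * mX i j l k d
      - (d 6 - T * d 7 + T * (d 2 * d 4)) * mG i j l k d

/-- the third null row -/
def rN3 (i j l k : ℕ) (T : ℝ) (d : R9) : ℝ :=
  d 4 * (mQ i j l k d + d 5 * mX i j l k d - d 1 * mG i j l k d)
      - d 3 * (d 5 * mQ i j l k d + d 8 * mX i j l k d - (d 6 - T * d 7) * mG i j l k d)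

/-- sums of monomials -/
lemma sum_mono (b a k d l : ℕ) (T K L φ : ℝ) (x : R9) :
    φ * (L * ((x 1 ^ a * (x 6 - T * x 7) ^ b) * (x 5 ^ k * (K * x 7) ^ d * x 8 ^ l)))
      = ∑ j ∈ Finset.range (b + 1), φ * ((b.choose j : ℝ) * (-T) ^ (b - j) * K ^ d * x 8 ^ l)
        * (L * mG a j (b - j + d) k x) := by
  have h := bin0 b (x 6) (-T * x 7)
  have e : x 6 - T * x 7 = x 6 + -T * x 7 := by ring
  rw [e, ← h, Finset.mul_sum, Finset.sum_mul, Finset.mul_sum, Finset.mul_sum]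
  refine Finset.sum_congr rfl fun j _ => ?_
  simp only [mG, mul_pow, pow_add]
  ring

/-- sums of null rows -/
lemma sum_null (b a k d : ℕ) (T K c A B D : ℝ) (x : R9) :
    ∑ j ∈ Finset.range (b + 1), c * ((b.choose j : ℝ) * (-T) ^ (b - j) * K ^ d)
        * (A * mQ a j (b - j + d) k x + B * mX a j (b - j + d) k x + D * mG a j (b - j + d) k x)
      = c * (x 5 ^ k * (K * x 7) ^ d) * (A * (a * x 1 ^ (a - 1) * (x 6 - T * x 7) ^ b)
        + B * (x 1 ^ a * (b * (x 6 - T * x 7) ^ (b - 1)))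
        + D * (x 1 ^ a * (x 6 - T * x 7) ^ b)) := by
  have h := bin_sum b (x 6) (-T * x 7)
    (c * (x 5 ^ k * (K * x 7) ^ d) * (A * (a * x 1 ^ (a - 1)) + D * x 1 ^ a))
    (c * (x 5 ^ k * (K * x 7) ^ d) * (B * x 1 ^ a)) 0
  have e : x 6 - T * x 7 = x 6 + -T * x 7 := by ring
  rw [e]
  trans c * (x 5 ^ k * (K * x 7) ^ d) * (A * (a * x 1 ^ (a - 1)) + D * x 1 ^ a)
      * (x 6 + -T * x 7) ^ b
    + c * (x 5 ^ k * (K * x 7) ^ d) * (B * x 1 ^ a) * (b * (x 6 + -T * x 7) ^ (b - 1))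
    + 0 * (b * (x 6 + -T * x 7) ^ (b - 1))
  · rw [← h]
    refine Finset.sum_congr rfl fun j _ => ?_
    simp only [mG, mQ, mX, mul_pow, pow_add]
    ring
  · ring

/-- the pointwise identity of the first family -/
lemma key0 (a k d l j s : ℕ) (C φ φ' T K : ℝ) (x : R9) (hT : 1 - T ^ 2 ≠ 0) :
    (φ' * (C * (-T) ^ s * K ^ d * x 8 ^ l)
      + φ * (C * ((s : ℝ) * (-T) ^ (s - 1) * (-1) * K ^ d
        + (-T) ^ s * (-(d * T) * K ^ d / (1 - T ^ 2))) * x 8 ^ l)) * mG a j (s + d) k x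
      + φ * (C * (-T) ^ s * K ^ d * x 8 ^ l) / (1 - T ^ 2) * dA a j (s + d) k T x
    = C * ((φ' * x 1 ^ a - φ / (1 - T ^ 2) * (x 2 * (T * x 2 * x 1 ^ a
        + x 3 * (a * x 1 ^ (a - 1))))) * w0 K k d l x * (x 6 ^ j * (-T * x 7) ^ s)
      + φ / (1 - T ^ 2) * (x 7 - x 2 * x 4) * x 1 ^ a * w0 K k d l x
        * (j * x 6 ^ (j - 1) * (-T * x 7) ^ s)
      + (-φ * x 7 / (1 - T ^ 2)) * x 1 ^ a * w0 K k d l x
        * (x 6 ^ j * ((s : ℝ) * (-T * x 7) ^ (s - 1)))) := by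
  simp only [mG, dA, mQ, mX, w0, mul_pow, pow_add]
  rcases s with _ | s
  · field_simp
    push_cast
    ring
  · simp only [Nat.add_sub_cancel]
    field_simp
    push_cast
    ring

/-- the pointwise identity of the fourth family -/
lemma key3 (a k d l j s : ℕ) (C φ φ' T K : ℝ) (x : R9) (hT : 1 - T ^ 2 ≠ 0) :
    (φ' * (C * (-T) ^ s * K ^ d * x 8 ^ l)
      + φ * (C * ((s : ℝ) * (-T) ^ (s - 1) * (-1) * K ^ d
        + (-T) ^ s * (-(d * T) * K ^ d / (1 - T ^ 2))) * x 8 ^ l)) * (x 3 * mG a j (s + d) k x)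
      + φ * (C * (-T) ^ s * K ^ d * x 8 ^ l) / (1 - T ^ 2) * dB a j (s + d) k T x
    = C * ((φ' * (x 3 * x 1 ^ a) - φ / (1 - T ^ 2) * (x 2 * (a * x 1 ^ (a - 1)
        - x 1 * x 1 ^ a))) * w0 K k d l x * (x 6 ^ j * (-T * x 7) ^ s)
      + φ / (1 - T ^ 2) * (x 3 * x 7 - x 2 * x 5) * x 1 ^ a * w0 K k d l x
        * (j * x 6 ^ (j - 1) * (-T * x 7) ^ s)
      + (-φ * (x 3 * x 7) / (1 - T ^ 2)) * x 1 ^ a * w0 K k d l x
        * (x 6 ^ j * ((s : ℝ) * (-T * x 7) ^ (s - 1)))) := by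
  simp only [mG, dB, mQ, mX, w0, mul_pow, pow_add]
  rcases s with _ | s
  · field_simp
    push_cast
    ring
  · simp only [Nat.add_sub_cancel]
    field_simp
    push_cast
    ring

/-- the pointwise identity of the fifth family -/
lemma key4 (a k d l j s : ℕ) (C φ φ' T K : ℝ) (x : R9) (hT : 1 - T ^ 2 ≠ 0) :
    (φ' * (C * (-T) ^ s * K ^ d * x 8 ^ l)
      + φ * (C * ((s : ℝ) * (-T) ^ (s - 1) * (-1) * K ^ d
        + (-T) ^ s * (-(d * T) * K ^ d / (1 - T ^ 2))) * x 8 ^ l)) * (x 4 * mG a j (s + d) k x)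
      + φ * (C * (-T) ^ s * K ^ d * x 8 ^ l) / (1 - T ^ 2) * dC a j (s + d) k T x
    = C * ((φ' * (x 4 * x 1 ^ a) - φ / (1 - T ^ 2) * (x 2 * (x 5 * (a * x 1 ^ (a - 1))
        - (x 6 - T * x 7) * x 1 ^ a))) * w0 K k d l x * (x 6 ^ j * (-T * x 7) ^ s)
      + φ / (1 - T ^ 2) * (x 4 * x 7 - x 2 * x 8) * x 1 ^ a * w0 K k d l x
        * (j * x 6 ^ (j - 1) * (-T * x 7) ^ s)
      + (-φ * (x 4 * x 7) / (1 - T ^ 2)) * x 1 ^ a * w0 K k d l x
        * (x 6 ^ j * ((s : ℝ) * (-T * x 7) ^ (s - 1)))) := by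
  simp only [mG, dC, mQ, mX, w0, mul_pow, pow_add]
  rcases s with _ | s
  · field_simp
    push_cast
    ring
  · simp only [Nat.add_sub_cancel]
    field_simp
    push_cast
    ring

section

variable {X : Type*} [MeasurableSpace X] {E : Type*} [NormedAddCommGroup E]
  [InnerProductSpace ℝ E] [MeasurableSpace E] [BorelSpace E] [SecondCountableTopology E]
  {γ : Measure X} {n : ℕ} {p ν : X → E}

lemma GC.sd_rN1 (h : GC γ n p ν) (e : E) (i j l k : ℕ) (T : ℝ) : SD p ν e (rN1 i j l k T) := by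
  have g := h.sd_mG e i j l k
  have gq := h.sd_mQ e i j l k
  have gx := h.sd_mX e i j l k
  have s := h.sd e
  exact (((((SD.const 1).sub ((s 3).pow 2)).mul gq).add
    (((s 5).sub ((s 3).mul (s 4))).mul gx))).sub
      (((s 1).add (((s 2).mul (s 3)).const_mul T)).mul g)

lemma GC.sd_rN2 (h : GC γ n p ν) (e : E) (i j l k : ℕ) (T : ℝ) : SD p ν e (rN2 i j l k T) := by
  have g := h.sd_mG e i j l k
  have gq := h.sd_mQ e i j l k
  have gx := h.sd_mX e i j l k
  have s := h.sd e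
  exact ((((s 5).sub ((s 3).mul (s 4))).mul gq).add (((s 8).sub ((s 4).pow 2)).mul gx)).sub
      ((((s 6).sub ((s 7).const_mul T)).add (((s 2).mul (s 4)).const_mul T)).mul g)

lemma GC.sd_rN3 (h : GC γ n p ν) (e : E) (i j l k : ℕ) (T : ℝ) : SD p ν e (rN3 i j l k T) := by
  have g := h.sd_mG e i j l k
  have gq := h.sd_mQ e i j l k
  have gx := h.sd_mX e i j l k
  have s := h.sd e
  exact ((s 4).mul ((gq.add ((s 5).mul gx)).sub ((s 1).mul g))).sub
    ((s 3).mul ((((s 5).mul gq).add ((s 8).mul gx)).sub (((s 6).sub ((s 7).const_mul T)).mul g)))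

/-- the coefficients of the expansion -/
noncomputable def cj (E₀ : ℝ) (b d l : ℕ) (φ : ℝ → ℝ) (j : ℕ) (T : ℝ) : ℝ :=
  φ T * ((b.choose j : ℝ) * (-T) ^ (b - j) * kp T ^ d * E₀ ^ l)

/-- their derivatives -/
noncomputable def cj' (E₀ : ℝ) (b d l : ℕ) (φ : ℝ → ℝ) (φ' : ℝ) (T : ℝ) (j : ℕ) : ℝ :=
  φ' * ((b.choose j : ℝ) * (-T) ^ (b - j) * kp T ^ d * E₀ ^ l)
      + φ T * ((b.choose j : ℝ) * (((b - j : ℕ) : ℝ) * (-T) ^ (b - j - 1) * (-1) * kp T ^ d
        + (-T) ^ (b - j) * (-(d * T) * kp T ^ d / (1 - T ^ 2))) * E₀ ^ l)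

lemma hasDerivAt_cj (E₀ : ℝ) (b d l : ℕ) {φ : ℝ → ℝ} {φ' T : ℝ} (hT : T ∈ Ico (0 : ℝ) 1)
    (hφ : HasDerivAt φ φ' T) (j : ℕ) :
    HasDerivAt (cj E₀ b d l φ j) (cj' E₀ b d l φ φ' T j) T := by
  have h1 : HasDerivAt (fun T : ℝ => (-T) ^ (b - j))
      (((b - j : ℕ) : ℝ) * (-T) ^ (b - j - 1) * (-1)) T := (hasDerivAt_neg T).fun_pow (b - j)
  have h2 := hasDerivAt_kp_pow hT d
  have h3 := hφ.fun_mul (((h1.const_mul (b.choose j : ℝ)).fun_mul h2).mul_const (E₀ ^ l))
  refine h3.congr_deriv ?_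
  unfold cj'
  ring

/-- the derivative of the functional of a term -/
theorem GC.hasDerivAt_termB (h : GC γ n p ν) (e : E) (t : GTerm) {T : ℝ} (hT : T ∈ Ico (0 : ℝ) 1)
    {φ : ℝ → ℝ} {φ' : ℝ} (hφ : HasDerivAt φ φ' T) :
    HasDerivAt (fun T => kp T ^ n * KI γ p ν e T (fun d => φ T * t.f (cv8 T d)))
      (kp T ^ n * KI γ p ν e T (fun d => t.D T (φ T) φ' (cv8 T d))) T := by
  have hT' : |T| < 1 := by rw [abs_of_nonneg hT.1]; exact hT.2
  have h1 : 1 - T ^ 2 ≠ 0 := (one_sub_sq_pos hT).ne'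
  rcases t with ⟨fam, a, b, k, d, l⟩
  have hE : ∀ q, dat p ν e q 8 = ⟪e, e⟫ := fun q => rfl
  have hc := hasDerivAt_cj ⟪e, e⟫ b d l hT hφ
  have hnull : ∀ (R : ℕ → R9 → ℝ) (_ : ∀ j, SD p ν e (R j)) (_ : ∀ j, KI γ p ν e T (R j) = 0)
      (F : R9 → ℝ) (c : ℕ → ℝ) (_ : ∀ q, F (dat p ν e q)
        = ∑ j ∈ Finset.range (b + 1), c j * R j (dat p ν e q)), KI γ p ν e T F = 0 := by
    intro R hR hR0 F c hF
    rw [KI_congrB (g := fun d => ∑ j ∈ Finset.range (b + 1), c j * R j d) hF,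
      h.KI_sum hT' _ R c hR]
    simp only [hR0, mul_zero, Finset.sum_const_zero]
  have hz : ∀ (F : R9 → ℝ), KI γ p ν e T F = 0 →
      HasDerivAt (fun T => kp T ^ n * KI γ p ν e T (fun d => φ T * (0 : ℝ)))
      (kp T ^ n * KI γ p ν e T F) T := by
    intro F hF
    rw [hF, mul_zero]
    have e0 : (fun T => kp T ^ n * KI γ p ν e T (fun d => φ T * (0 : ℝ))) = fun _ => (0 : ℝ) := by
      funext S
      simp [KI]
    rw [e0]
    exact hasDerivAt_const T 0
  fin_cases fam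
  · refine h.hasDerivAt_sum hT (Finset.range (b + 1)) (fun j => h.sd_mG e a j (b - j + d) k)
      (fun j => h.sd_dA e a j (b - j + d) k T) (fun j => h.derA e a j (b - j + d) k hT) hc ?_ ?_
    · intro S q
      have h2 := sum_mono b a k d l S (kp S) 1 (φ S) (dat p ν e q)
      simp only [one_mul, hE] at h2
      exact h2
    · intro q
      have h2 := bin_sum b (dat p ν e q 6) (-T * dat p ν e q 7)
        ((φ' * dat p ν e q 1 ^ a - φ T / (1 - T ^ 2) * (dat p ν e q 2 * (T * dat p ν e q 2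
          * dat p ν e q 1 ^ a + dat p ν e q 3 * (a * dat p ν e q 1 ^ (a - 1)))))
          * w0 (kp T) k d l (dat p ν e q))
        (φ T / (1 - T ^ 2) * (dat p ν e q 7 - dat p ν e q 2 * dat p ν e q 4)
          * dat p ν e q 1 ^ a * w0 (kp T) k d l (dat p ν e q))
        ((-φ T * dat p ν e q 7 / (1 - T ^ 2)) * dat p ν e q 1 ^ a
          * w0 (kp T) k d l (dat p ν e q))
      have h3 : ∀ j ∈ Finset.range (b + 1), cj' ⟪e, e⟫ b d l φ φ' T j
          * mG a j (b - j + d) k (dat p ν e q) + cj ⟪e, e⟫ b d l φ j T / (1 - T ^ 2)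
          * dA a j (b - j + d) k T (dat p ν e q) = _ := fun j _ =>
        key0 a k d l j (b - j) (b.choose j) (φ T) φ' T (kp T) (dat p ν e q) h1
      rw [Finset.sum_congr rfl h3, h2]
      have e1 : dat p ν e q 6 + -T * dat p ν e q 7 = dat p ν e q 6 - T * dat p ν e q 7 := by ring
      rw [e1]
      change (φ' * (dat p ν e q 1 ^ a * (dat p ν e q 6 - T * dat p ν e q 7) ^ b)
        - φ T / (1 - T ^ 2) * (dat p ν e q 2 * (T * dat p ν e q 2
        * (dat p ν e q 1 ^ a * (dat p ν e q 6 - T * dat p ν e q 7) ^ b)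
        + dat p ν e q 3 * (a * dat p ν e q 1 ^ (a - 1) * (dat p ν e q 6 - T * dat p ν e q 7) ^ b)
        + dat p ν e q 4 * (dat p ν e q 1 ^ a * (b * (dat p ν e q 6
          - T * dat p ν e q 7) ^ (b - 1))))))
        * (dat p ν e q 5 ^ k * (kp T * dat p ν e q 7) ^ d * dat p ν e q 8 ^ l) = _
      simp only [w0]
      ring
  · exact hz _ (hnull (fun j => rN1 a j (b - j + d) k T)
      (fun j => h.sd_rN1 e a j (b - j + d) k T) (fun j => h.rowN1 e a j (b - j + d) k hT') _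
      (fun j => φ T * ⟪e, e⟫ ^ l * ((b.choose j : ℝ) * (-T) ^ (b - j) * kp T ^ d)) fun q => by
        have h2 := sum_null b a k d T (kp T) (φ T * ⟪e, e⟫ ^ l) (1 - dat p ν e q 3 ^ 2)
          (dat p ν e q 5 - dat p ν e q 3 * dat p ν e q 4)
          (-(dat p ν e q 1 + T * (dat p ν e q 2 * dat p ν e q 3))) (dat p ν e q)
        have h3 : ∀ j ∈ Finset.range (b + 1), φ T * ⟪e, e⟫ ^ l
            * ((b.choose j : ℝ) * (-T) ^ (b - j) * kp T ^ d)
            * rN1 a j (b - j + d) k T (dat p ν e q) = _ := fun j _ => by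
          rw [show rN1 a j (b - j + d) k T (dat p ν e q)
            = (1 - dat p ν e q 3 ^ 2) * mQ a j (b - j + d) k (dat p ν e q)
            + (dat p ν e q 5 - dat p ν e q 3 * dat p ν e q 4) * mX a j (b - j + d) k (dat p ν e q)
            + (-(dat p ν e q 1 + T * (dat p ν e q 2 * dat p ν e q 3)))
              * mG a j (b - j + d) k (dat p ν e q) by unfold rN1; ring]
        rw [Finset.sum_congr rfl h3, h2]
        change φ T * (-(dat p ν e q 1 + T * (dat p ν e q 2 * dat p ν e q 3))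
          * (dat p ν e q 1 ^ a * (dat p ν e q 6 - T * dat p ν e q 7) ^ b)
          + (1 - dat p ν e q 3 ^ 2) * (a * dat p ν e q 1 ^ (a - 1)
            * (dat p ν e q 6 - T * dat p ν e q 7) ^ b)
          + (dat p ν e q 5 - dat p ν e q 3 * dat p ν e q 4) * (dat p ν e q 1 ^ a
            * (b * (dat p ν e q 6 - T * dat p ν e q 7) ^ (b - 1))))
          * (dat p ν e q 5 ^ k * (kp T * dat p ν e q 7) ^ d * ⟪e, e⟫ ^ l) = _
        ring)
  · exact hz _ (hnull (fun j => rN2 a j (b - j + d) k T)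
      (fun j => h.sd_rN2 e a j (b - j + d) k T) (fun j => h.rowN2 e a j (b - j + d) k hT') _
      (fun j => φ T * ⟪e, e⟫ ^ l * ((b.choose j : ℝ) * (-T) ^ (b - j) * kp T ^ d)) fun q => by
        have h2 := sum_null b a k d T (kp T) (φ T * ⟪e, e⟫ ^ l)
          (dat p ν e q 5 - dat p ν e q 3 * dat p ν e q 4)
          (dat p ν e q 8 - dat p ν e q 4 ^ 2)
          (-(dat p ν e q 6 - T * dat p ν e q 7 + T * (dat p ν e q 2 * dat p ν e q 4)))
          (dat p ν e q)
        have h3 : ∀ j ∈ Finset.range (b + 1), φ T * ⟪e, e⟫ ^ l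
            * ((b.choose j : ℝ) * (-T) ^ (b - j) * kp T ^ d)
            * rN2 a j (b - j + d) k T (dat p ν e q) = _ := fun j _ => by
          rw [show rN2 a j (b - j + d) k T (dat p ν e q)
            = (dat p ν e q 5 - dat p ν e q 3 * dat p ν e q 4) * mQ a j (b - j + d) k (dat p ν e q)
            + (dat p ν e q 8 - dat p ν e q 4 ^ 2) * mX a j (b - j + d) k (dat p ν e q)
            + (-(dat p ν e q 6 - T * dat p ν e q 7 + T * (dat p ν e q 2 * dat p ν e q 4)))
              * mG a j (b - j + d) k (dat p ν e q) by unfold rN2; ring]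
        rw [Finset.sum_congr rfl h3, h2]
        change φ T * (-(dat p ν e q 6 - T * dat p ν e q 7
          + T * (dat p ν e q 2 * dat p ν e q 4))
          * (dat p ν e q 1 ^ a * (dat p ν e q 6 - T * dat p ν e q 7) ^ b)
          + (dat p ν e q 5 - dat p ν e q 3 * dat p ν e q 4) * (a * dat p ν e q 1 ^ (a - 1)
            * (dat p ν e q 6 - T * dat p ν e q 7) ^ b)
          + (dat p ν e q 8 - dat p ν e q 4 ^ 2) * (dat p ν e q 1 ^ a
            * (b * (dat p ν e q 6 - T * dat p ν e q 7) ^ (b - 1))))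
          * (dat p ν e q 5 ^ k * (kp T * dat p ν e q 7) ^ d * ⟪e, e⟫ ^ l) = _
        ring)
  · refine h.hasDerivAt_sum hT (Finset.range (b + 1))
      (fun j => (h.sd e 3).mul (h.sd_mG e a j (b - j + d) k))
      (fun j => h.sd_dB e a j (b - j + d) k T) (fun j => h.derB e a j (b - j + d) k hT) hc ?_ ?_
    · intro S q
      have h2 := sum_mono b a k d l S (kp S) (dat p ν e q 3) (φ S) (dat p ν e q)
      change φ S * (dat p ν e q 3 * (dat p ν e q 1 ^ a * (dat p ν e q 6 - S * dat p ν e q 7) ^ b)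
        * (dat p ν e q 5 ^ k * (kp S * dat p ν e q 7) ^ d * dat p ν e q 8 ^ l)) = _
      rw [mul_assoc (dat p ν e q 3), h2]
      rfl
    · intro q
      have h2 := bin_sum b (dat p ν e q 6) (-T * dat p ν e q 7)
        ((φ' * (dat p ν e q 3 * dat p ν e q 1 ^ a) - φ T / (1 - T ^ 2) * (dat p ν e q 2
          * (a * dat p ν e q 1 ^ (a - 1) - dat p ν e q 1 * dat p ν e q 1 ^ a)))
          * w0 (kp T) k d l (dat p ν e q))
        (φ T / (1 - T ^ 2) * (dat p ν e q 3 * dat p ν e q 7 - dat p ν e q 2 * dat p ν e q 5)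
          * dat p ν e q 1 ^ a * w0 (kp T) k d l (dat p ν e q))
        ((-φ T * (dat p ν e q 3 * dat p ν e q 7) / (1 - T ^ 2)) * dat p ν e q 1 ^ a
          * w0 (kp T) k d l (dat p ν e q))
      have h3 : ∀ j ∈ Finset.range (b + 1), cj' ⟪e, e⟫ b d l φ φ' T j
          * (dat p ν e q 3 * mG a j (b - j + d) k (dat p ν e q))
          + cj ⟪e, e⟫ b d l φ j T / (1 - T ^ 2)
          * dB a j (b - j + d) k T (dat p ν e q) = _ := fun j _ =>
        key3 a k d l j (b - j) (b.choose j) (φ T) φ' T (kp T) (dat p ν e q) h1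
      rw [Finset.sum_congr rfl h3, h2]
      have e1 : dat p ν e q 6 + -T * dat p ν e q 7 = dat p ν e q 6 - T * dat p ν e q 7 := by ring
      rw [e1]
      change (φ' * (dat p ν e q 3 * (dat p ν e q 1 ^ a
          * (dat p ν e q 6 - T * dat p ν e q 7) ^ b))
        + φ T / (1 - T ^ 2) * (dat p ν e q 2 * (dat p ν e q 1
        * (dat p ν e q 1 ^ a * (dat p ν e q 6 - T * dat p ν e q 7) ^ b)
        - (a * dat p ν e q 1 ^ (a - 1) * (dat p ν e q 6 - T * dat p ν e q 7) ^ b)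
        - dat p ν e q 5 * (dat p ν e q 1 ^ a * (b * (dat p ν e q 6
          - T * dat p ν e q 7) ^ (b - 1))))))
        * (dat p ν e q 5 ^ k * (kp T * dat p ν e q 7) ^ d * dat p ν e q 8 ^ l) = _
      simp only [w0]
      ring
  · refine h.hasDerivAt_sum hT (Finset.range (b + 1))
      (fun j => (h.sd e 4).mul (h.sd_mG e a j (b - j + d) k))
      (fun j => h.sd_dC e a j (b - j + d) k T) (fun j => h.derC e a j (b - j + d) k hT) hc ?_ ?_
    · intro S q
      have h2 := sum_mono b a k d l S (kp S) (dat p ν e q 4) (φ S) (dat p ν e q)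
      change φ S * (dat p ν e q 4 * (dat p ν e q 1 ^ a * (dat p ν e q 6 - S * dat p ν e q 7) ^ b)
        * (dat p ν e q 5 ^ k * (kp S * dat p ν e q 7) ^ d * dat p ν e q 8 ^ l)) = _
      rw [mul_assoc (dat p ν e q 4), h2]
      rfl
    · intro q
      have h2 := bin_sum b (dat p ν e q 6) (-T * dat p ν e q 7)
        ((φ' * (dat p ν e q 4 * dat p ν e q 1 ^ a) - φ T / (1 - T ^ 2) * (dat p ν e q 2
          * (dat p ν e q 5 * (a * dat p ν e q 1 ^ (a - 1))
            - (dat p ν e q 6 - T * dat p ν e q 7) * dat p ν e q 1 ^ a)))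
          * w0 (kp T) k d l (dat p ν e q))
        (φ T / (1 - T ^ 2) * (dat p ν e q 4 * dat p ν e q 7 - dat p ν e q 2 * dat p ν e q 8)
          * dat p ν e q 1 ^ a * w0 (kp T) k d l (dat p ν e q))
        ((-φ T * (dat p ν e q 4 * dat p ν e q 7) / (1 - T ^ 2)) * dat p ν e q 1 ^ a
          * w0 (kp T) k d l (dat p ν e q))
      have h3 : ∀ j ∈ Finset.range (b + 1), cj' ⟪e, e⟫ b d l φ φ' T j
          * (dat p ν e q 4 * mG a j (b - j + d) k (dat p ν e q))
          + cj ⟪e, e⟫ b d l φ j T / (1 - T ^ 2)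
          * dC a j (b - j + d) k T (dat p ν e q) = _ := fun j _ =>
        key4 a k d l j (b - j) (b.choose j) (φ T) φ' T (kp T) (dat p ν e q) h1
      rw [Finset.sum_congr rfl h3, h2]
      have e1 : dat p ν e q 6 + -T * dat p ν e q 7 = dat p ν e q 6 - T * dat p ν e q 7 := by ring
      rw [e1]
      change (φ' * (dat p ν e q 4 * (dat p ν e q 1 ^ a
          * (dat p ν e q 6 - T * dat p ν e q 7) ^ b))
        + φ T / (1 - T ^ 2) * (dat p ν e q 2 * ((dat p ν e q 6 - T * dat p ν e q 7)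
        * (dat p ν e q 1 ^ a * (dat p ν e q 6 - T * dat p ν e q 7) ^ b)
        - dat p ν e q 5 * (a * dat p ν e q 1 ^ (a - 1)
          * (dat p ν e q 6 - T * dat p ν e q 7) ^ b)
        - dat p ν e q 8 * (dat p ν e q 1 ^ a * (b * (dat p ν e q 6
          - T * dat p ν e q 7) ^ (b - 1))))))
        * (dat p ν e q 5 ^ k * (kp T * dat p ν e q 7) ^ d * dat p ν e q 8 ^ l) = _
      simp only [w0]
      ring
  · exact hz _ (hnull (fun j => rN3 a j (b - j + d) k T)
      (fun j => h.sd_rN3 e a j (b - j + d) k T) (fun j => h.rowN3 e a j (b - j + d) k hT') _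
      (fun j => -φ T * ⟪e, e⟫ ^ l * ((b.choose j : ℝ) * (-T) ^ (b - j) * kp T ^ d)) fun q => by
        have h2 := sum_null b a k d T (kp T) (-φ T * ⟪e, e⟫ ^ l)
          (dat p ν e q 4 - dat p ν e q 3 * dat p ν e q 5)
          (dat p ν e q 4 * dat p ν e q 5 - dat p ν e q 3 * dat p ν e q 8)
          (dat p ν e q 3 * (dat p ν e q 6 - T * dat p ν e q 7) - dat p ν e q 4 * dat p ν e q 1)
          (dat p ν e q)
        have h3 : ∀ j ∈ Finset.range (b + 1), -φ T * ⟪e, e⟫ ^ l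
            * ((b.choose j : ℝ) * (-T) ^ (b - j) * kp T ^ d)
            * rN3 a j (b - j + d) k T (dat p ν e q) = _ := fun j _ => by
          rw [show rN3 a j (b - j + d) k T (dat p ν e q)
            = (dat p ν e q 4 - dat p ν e q 3 * dat p ν e q 5) * mQ a j (b - j + d) k (dat p ν e q)
            + (dat p ν e q 4 * dat p ν e q 5 - dat p ν e q 3 * dat p ν e q 8)
              * mX a j (b - j + d) k (dat p ν e q)
            + (dat p ν e q 3 * (dat p ν e q 6 - T * dat p ν e q 7)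
                - dat p ν e q 4 * dat p ν e q 1)
              * mG a j (b - j + d) k (dat p ν e q) by unfold rN3; ring]
        rw [Finset.sum_congr rfl h3, h2]
        change φ T * (dat p ν e q 3 * (-((dat p ν e q 6 - T * dat p ν e q 7)
            * (dat p ν e q 1 ^ a * (dat p ν e q 6 - T * dat p ν e q 7) ^ b))
          + dat p ν e q 5 * (a * dat p ν e q 1 ^ (a - 1)
            * (dat p ν e q 6 - T * dat p ν e q 7) ^ b)
          + dat p ν e q 8 * (dat p ν e q 1 ^ a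
            * (b * (dat p ν e q 6 - T * dat p ν e q 7) ^ (b - 1))))
          - dat p ν e q 4 * (-(dat p ν e q 1
            * (dat p ν e q 1 ^ a * (dat p ν e q 6 - T * dat p ν e q 7) ^ b))
          + (a * dat p ν e q 1 ^ (a - 1) * (dat p ν e q 6 - T * dat p ν e q 7) ^ b)
          + dat p ν e q 5 * (dat p ν e q 1 ^ a
            * (b * (dat p ν e q 6 - T * dat p ν e q 7) ^ (b - 1)))))
          * (dat p ν e q 5 ^ k * (kp T * dat p ν e q 7) ^ d * ⟪e, e⟫ ^ l) = _
        ring)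

end

end Vale.Agent.P224.UG
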